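import Vale.Agent.P098.Div.Sign

/-!
# P098: a priori bound for `u |D^2 u|` by the maximum principle

A positive maximum of `u^2 |D^2 u|^2 - φ (1 - |grad u|^2)` on the sphere lies in the positivity set,
where the conditions of `BandOK` make this function strictly subharmonic at its critical points.
-/

namespace Vale.Agent.P098.Div

open Vale.Agent.P098.Cone Vale.Agent.P098.Jet
open Set Filter Topology Finset
open scoped ContDiff

noncomputable section

variable {m : ℕ} {u w : (Fin (m + 1) → ℝ) → ℝ} {O : Set (Fin (m + 1) → ℝ)} {z : Fin (m + 1) → ℝ}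
  {φ ψ : ℝ → ℝ}

theorem katoConst_pos (l : ℝ) : 0 < katoConst m l := by
  rw [katoConst]; positivity

theorem nu_sq_le {l x : Fin m → ℝ} (hl : Spectrum l) (k : Fin m) (hx : ∑ i, x i = 0) :
    nu l x ^ 2 ≤ katoConst m (l k) * normK k x := by
  set β := 2 * l k / ((m : ℝ) + 2)
  have e : nu l x = ∑ i, (l i - β) * x i := by
    simp only [nu, sub_mul, sum_sub_distrib, ← mul_sum, hx, mul_zero, sub_zero]
  have h1 := sum_sq_le_sum_mul_sum_of_sq_le_mul (univ : Finset (Fin m))
    (r := fun i => (l i - β) * x i)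
    (f := fun i => (if i = k then (1 : ℝ) else 1 / 3) * (l i - β) ^ 2)
    (g := fun i => (if i = k then (1 : ℝ) else 3) * x i ^ 2)
    (fun i _ => mul_nonneg (by split_ifs <;> norm_num) (sq_nonneg _))
    (fun i _ => mul_nonneg (by split_ifs <;> norm_num) (sq_nonneg _))
    (fun i _ => le_of_eq (by split_ifs <;> ring))
  have e2 : ∑ i, (if i = k then (1 : ℝ) else 1 / 3) * (l i - β) ^ 2 = katoConst m (l k) := by
    have e3 : ∀ i, (if i = k then (1 : ℝ) else 1 / 3) * (l i - β) ^ 2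
        = 1 / 3 * l i ^ 2 + -(2 / 3 * β) * l i + 1 / 3 * β ^ 2
          + if i = k then 2 / 3 * (l k - β) ^ 2 else 0 := fun i => by
      split_ifs with hik
      · subst hik; ring
      · ring
    simp only [e3, sum_add_distrib, ← mul_sum, hl.sum, hl.sq, sum_const, card_univ, Fintype.card_fin,
      nsmul_eq_mul, Finset.sum_ite_eq', Finset.mem_univ, if_true]
    simp only [katoConst, β]
    have : (m : ℝ) + 2 ≠ 0 := by positivity
    field_simp
    ring
  rw [e]
  rwa [e2] at h1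

theorem spectrum_sq_le {l : Fin m → ℝ} (hl : Spectrum l) (k : Fin m) :
    l k ^ 2 * m ≤ (m : ℝ) - 1 := by
  have h1 := sq_sum_le_card_mul_sum_sq (s := univ.erase k) (f := l)
  rw [card_erase_of_mem (Finset.mem_univ k), card_univ, Fintype.card_fin,
    sum_erase_eq_sub (Finset.mem_univ k), sum_erase_eq_sub (Finset.mem_univ k), hl.sum, hl.sq,
    Nat.cast_sub (Nat.one_le_iff_ne_zero.2 k.pos.ne')] at h1
  push_cast at h1
  linarith

/-- A maximum in a band is excluded. -/
theorem band_bound (h : RegularCone u O w) (h0 : (0 : Fin (m + 1) → ℝ) ∉ O) (hm : 1 ≤ m)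
    (R : ℝ → ℝ → Prop) (hR : ∀ z, 0 < u z → 0 < hessSq w z →
      R (w z * hessLen w z) (1 - dot (grad w z) (grad w z)))
    (hφ : ContDiff ℝ ∞ φ) (hφ0 : ∀ D, 0 ≤ D → D < 1 → 0 ≤ φ D)
    (hband : ∀ l : Fin m → ℝ, Spectrum l → ∀ W D, 0 < W → 0 ≤ D → D < 1 → R W D → φ D < W ^ 2 →
      ∀ k : Fin m, 0 < deriv φ D ∧
        0 < 2 * deriv φ D * W ^ 2 + (1 - D) * (2 * W ^ 2 - 8 * W * (W + deriv φ D * l k)
          + 2 * (W + deriv φ D * l k) ^ 2 / katoConst m (l k)
          - 4 * deriv (deriv φ) D * l k ^ 2 * W ^ 2))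
    (hz : 0 < u z) : (w z * hessLen w z) ^ 2 ≤ φ (1 - dot (grad w z) (grad w z)) := by
  set Q : (Fin (m + 1) → ℝ) → ℝ := fun y => w y ^ 2 * hessSq w y - φ (1 - dot (grad w y) (grad w y))
  have hφ2 : ContDiff ℝ 2 φ := hφ.of_le (WithTop.coe_le_coe.2 le_top)
  have hQs : ContDiffOn ℝ 2 Q O :=
    (((h.smooth.of_le (by norm_num)).pow 2).mul (contDiffOn_hessSq h.smooth h.isOpen)).sub
    (hφ2.comp_contDiffOn (contDiffOn_const.sub (ContDiffOn.sum fun i _ =>
      ((contDiffOn_pd h.smooth h.isOpen i).mul (contDiffOn_pd h.smooth h.isOpen i)).of_le (by norm_num))))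
  have hQr : ∀ y, 0 < u y → ∀ r : ℝ, 0 < r → Q (r • y) = Q y := fun y hy r hr => by
    obtain ⟨h1, h2⟩ := grad_smul h hy hr
    have e : hessSq w (r • y) = r⁻¹ * r⁻¹ * hessSq w y := by
      simp only [hessSq, dot2, hessMat, h.hess_smul hy hr, mul_sum]
      exact sum_congr rfl fun i _ => sum_congr rfl fun j _ => by ring
    simp only [Q, h1, h2, e]
    field_simp
  set S := closure {y | 0 < u y} ∩ {y : Fin (m + 1) → ℝ | 1 ≤ dot y y ∧ dot y y ≤ 1}
  have hS : IsCompact S := (isCompact_shell 1 1).inter_left isClosed_closure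
  have hS0 : ∀ y ∈ S, y ≠ 0 := fun y hy e => by
    have := hy.2.1; rw [e] at this; simp [dot] at this; linarith
  have hSO : S ⊆ O := fun y hy => h.cover y hy.1 (hS0 y hy)
  have hnorm : ∀ y, 0 < u y → 0 < u (invLen y • y) ∧ invLen y • y ∈ S := fun y hy => by
    have hn := invLen_pos (h.ne_zero_of_pos hy)
    have hp : 0 < u (invLen y • y) := by rw [h.homog _ y hn]; exact mul_pos hn hy
    have e : dot (invLen y • y) (invLen y • y) = 1 := by
      rw [← invLen_sq (h.ne_zero_of_pos hy)]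
      simp only [dot, Pi.smul_apply, smul_eq_mul, mul_sum]; exact sum_congr rfl fun _ _ => by ring
    exact ⟨hp, subset_closure hp, e.ge, e.le⟩
  obtain ⟨y, hy, hmax⟩ := hS.exists_isMaxOn ⟨_, (hnorm z hz).2⟩ (hQs.continuousOn.mono hSO)
  suffices hQy : Q y ≤ 0 by
    have h1 : Q z ≤ Q y := by
      rw [← hQr z hz _ (invLen_pos (h.ne_zero_of_pos hz))]
      exact hmax (hnorm z hz).2
    have h2 := h1.trans hQy
    simp only [Q] at h2
    rw [mul_pow, sq (hessLen w z), hessLen_sq]
    linarith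
  by_contra hQy
  have hQy' : 0 < Q y := not_le.1 hQy
  rcases h.frontier_or_pos hy.1 with hf | hp
  · obtain ⟨hN, -, -⟩ := h.free_boundary h0 hf (hSO hy)
    have hw0 : w y = 0 := by rw [h.w_eq hy.1 (hSO hy), h.u_eq_zero_of_frontier hf]
    have := hφ0 0 le_rfl one_pos
    simp only [Q, hw0, hN, sub_self] at hQy'
    linarith
  have hyO := hSO hy
  have hD0 : 0 ≤ 1 - dot (grad w y) (grad w y) := by
    linarith [grad_sq_le_one_pos h h0 (by omega : 2 ≤ m + 1) hp]
  have hD1 : 1 - dot (grad w y) (grad w y) < 1 := by linarith [grad_len_pos h hp]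
  have hs : 0 < hessSq w y := by
    refine (dot2_self_nonneg _).lt_of_ne fun e => ?_
    have := hφ0 _ hD0 hD1
    simp only [Q, hessSq, ← e, mul_zero] at hQy'
    linarith
  have hyd : y ∈ dom w O 0 := mem_dom_zero hyO hs
  have hV := isOpen_dom h h0 (0 : ℝ)
  have hloc : IsLocalMax Q y := by
    filter_upwards [h.isOpen_pos.mem_nhds hp] with x hx
    rw [← hQr x hx _ (invLen_pos (h.ne_zero_of_pos hx))]
    exact hmax (hnorm x hx).2
  obtain ⟨f⟩ := exists_frame (A := hessMat w y) (h.ne_zero_of_pos hp)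
    (fun i j => hess_comm_of h.smooth h.isOpen hyO i j) (h.app_hess_radial hy.1 hyO)
  set W := w y * hessLen w y with hWdef
  set D := 1 - dot (grad w y) (grad w y) with hDdef
  have hW : 0 < W := by rw [hWdef, h.agree y hyO hp]; exact mul_pos hp (hessLen_pos hs)
  have hband' := hband (eig f) (spectrum f hs h hy.1 hyO) W D hW hD0 hD1 (hR y hp hs) (by
    simp only [Q] at hQy'
    rw [hWdef, mul_pow, sq (hessLen w y), hessLen_sq, hDdef]
    linarith)
  set a := args w (0 : ℝ)
  have ha : ∀ i, ContDiffOn ℝ 2 (a i) (dom w O 0) := contDiffOn_args h h0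
  have hQe : Q =ᶠ[𝓝 y] fun x => a 0 x * a 0 x + (-1) * φ (a 1 x) := by
    filter_upwards [hV.mem_nhds hyd] with x hx
    show w x ^ 2 * hessSq w x - φ _ = w x * regLen w 0 x * (w x * regLen w 0 x) + -1 * φ _
    rw [mul_mul_mul_comm, regLen_sq hx, regSq_zero]
    simp only [a, args, Matrix.cons_val]
    ring
  have hφd : ∀ t, HasDerivAt φ (deriv φ t) t := fun t => (hφ.differentiable (by simp) t).hasDerivAt
  have hφd2 : HasDerivAt (deriv φ) (deriv (deriv φ) (a 1 y)) (a 1 y) :=
    (((contDiff_infty_iff_deriv.1 hφ).2).differentiable (by simp) _).hasDerivAt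
  have hs0 : ContDiffOn ℝ 2 (fun x => a 0 x * a 0 x) (dom w O 0) := (ha 0).mul (ha 0)
  have hs1 : ContDiffOn ℝ 2 (fun x => (-1 : ℝ) * φ (a 1 x)) (dom w O 0) :=
    contDiffOn_const.mul (hφ2.comp_contDiffOn (ha 1))
  have hd0 := differentiableAt_of_smooth (ha 0) hV hyd
  have hd1 := differentiableAt_of_smooth (ha 1) hV hyd
  have hdφ : DifferentiableAt ℝ (fun x => φ (a 1 x)) y := (hφd _).differentiableAt.comp y hd1
  have hgrad : ∀ k, 2 * a 0 y * gArgs w 0 y 0 k - deriv φ (a 1 y) * gArgs w 0 y 1 k = 0 := by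
    intro k
    have h1 : pd Q k y = 0 := by rw [pd, hloc.fderiv_eq_zero]; rfl
    rw [pd_congr hQe, pd_add (hd0.fun_mul hd0) ((differentiableAt_const _).fun_mul hdφ),
      pd_mul hd0 hd0, pd_mul (differentiableAt_const _) hdφ, pd_const,
      pd_comp (φ := φ) (hφd _) hd1 k,
      show pd (a 0) k y = gArgs w 0 y 0 k from congr_fun (grad_args h h0 hyd 0) k,
      show pd (a 1) k y = gArgs w 0 y 1 k from congr_fun (grad_args h h0 hyd 1) k] at h1
    linarith
  have hlap : lap Q y ≤ 0 := sum_nonpos fun k _ => hess_nonpos_of_isLocalMax h.isOpen hQs hyO hloc k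
  rw [lap_congr hQe,
    show lap (fun x => a 0 x * a 0 x + (-1) * φ (a 1 x)) y
      = lap (fun x => a 0 x * a 0 x) y + lap (fun x => (-1 : ℝ) * φ (a 1 x)) y by
        have := lap_sum (univ : Finset (Fin 2))
          (F := ![fun x => a 0 x * a 0 x, fun x => (-1 : ℝ) * φ (a 1 x)]) hV
          (fun i => by fin_cases i <;> assumption) hyd
        simpa [Fin.sum_univ_two] using this,
    lap_mul hV (ha 0) (ha 0) hyd, lap_mul (b := fun x => φ (a 1 x)) hV contDiffOn_const
      (hφ2.comp_contDiffOn (ha 1)) hyd,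
    lap_comp (φ := φ) hV (ha 1) hyd (.of_forall hφd) hφd2,
    lap_args h h0 hp hyd, lap_args h h0 hp hyd, grad_args h h0 hyd, grad_args h h0 hyd] at hlap
  simp only [show lap (fun _ : Fin (m + 1) → ℝ => (-1 : ℝ)) y = 0 by simp [lap, hess, pd_const],
    show dot (grad (fun _ : Fin (m + 1) → ℝ => (-1 : ℝ)) y) (grad (fun x => φ (a 1 x)) y) = 0 by
      simp [dot, grad, pd_const], mul_zero, add_zero] at hlap
  simp only [show a 0 y = W from rfl, show a 1 y = D from rfl, lArgs_zero f h h0 hp hs,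
    lArgs_one h h0 hp hs, tan_dot f h h0 hp hs (comp1_gArgs_zero f h h0 hp hs _),
    comp1_gArgs f h h0 hp hs] at hlap
  -- the critical point
  set n : Fin m → ℝ := fun k => nu (eig f) (col f k)
  set p : Fin m → ℝ := fun k => piC f k
  have hcrit : ∀ k, W * (p k + W * n k) = -(deriv φ D * eig f k * p k) := fun k => by
    have e : 2 * W * comp1 f (gArgs w 0 y 0) k.succ
        - deriv φ D * comp1 f (gArgs w 0 y 1) k.succ = 0 := by
      simp only [comp1, dot, mul_sum, ← sum_sub_distrib]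
      exact sum_eq_zero fun i _ => by
        have := hgrad i
        simp only [show a 0 y = W from rfl, show a 1 y = D from rfl] at this
        linear_combination f.b k.succ i * this
    rw [comp1_gArgs f h h0 hp hs, comp1_gArgs f h h0 hp hs] at e
    simp only [stepX, Matrix.cons_val] at e
    have e' : hessLen w y * (2 * (W * (p k + W * n k) + deriv φ D * eig f k * p k)) = 0 := by
      simp only [p, n, hWdef] at e ⊢
      linear_combination e
    have := (mul_eq_zero.1 e').resolve_left (hessLen_pos hs).ne'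
    linarith
  set K := ∑ i, ∑ j, ∑ k, sig f i j k ^ 2
  have hK : ∑ k, normK k (col f k) ≤ K := by
    refine le_trans (le_of_eq ?_) (sum_three_ge (f := fun i j k => sig f i j k ^ 2)
      (fun i j k => by rw [sig_swap₁ f h hyO i j k]) (fun i j k => by rw [sig_swap₂ f h hyO i j k])
      fun i j k _ _ _ => sq_nonneg _)
    rfl
  -- `lap Q / |D^2 u|^2`
  have hlap' : 2 * W * (W * (K - ∑ k, n k ^ 2) + 2 * ∑ k, p k * n k)
      + 2 * (∑ k, (p k + W * n k) ^ 2) + 2 * deriv φ D
      - 4 * deriv (deriv φ) D * (∑ k, eig f k ^ 2 * p k ^ 2) ≤ 0 := by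
    have ha2 : 0 < hessLen w y ^ 2 := pow_pos (hessLen_pos hs) 2
    refine le_of_mul_le_mul_left ?_ ha2
    rw [mul_zero]
    refine le_trans (le_of_eq ?_) hlap
    simp only [stepX, Matrix.cons_val, ← hWdef, n, p, K]
    rw [show ∑ x, hessLen w y * (piC f x + W * nu (eig f) (col f x))
        * (hessLen w y * (piC f x + W * nu (eig f) (col f x)))
      = hessLen w y ^ 2 * ∑ x, (piC f x + W * nu (eig f) (col f x)) ^ 2 by
        rw [mul_sum]; exact sum_congr rfl fun x _ => by ring,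
      show ∑ x, hessLen w y * (-2 * eig f x * piC f x) * (hessLen w y * (-2 * eig f x * piC f x))
      = hessLen w y ^ 2 * (4 * ∑ x, eig f x ^ 2 * piC f x ^ 2) by
        rw [mul_sum, mul_sum]; exact sum_congr rfl fun x _ => by ring]
    ring
  set C : Fin m → ℝ := fun k => 2 * W ^ 2 - 8 * W * (W + deriv φ D * eig f k)
    + 2 * (W + deriv φ D * eig f k) ^ 2 / katoConst m (eig f k)
    - 4 * deriv (deriv φ) D * eig f k ^ 2 * W ^ 2
  have hterm : ∀ k, p k ^ 2 * C k ≤ W ^ 2 * (2 * W ^ 2 * (normK k (col f k) - n k ^ 2)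
      + 4 * W * (p k * n k) + 2 * (p k + W * n k) ^ 2
      - 4 * deriv (deriv φ) D * (eig f k ^ 2 * p k ^ 2)) := fun k => by
    have hκ := katoConst_pos (m := m) (eig f k)
    have e1 : W ^ 2 * n k = -((W + deriv φ D * eig f k) * p k) := by linear_combination hcrit k
    have h1 := nu_sq_le (spectrum f hs h hy.1 hyO) k (col_sum f h hp k)
    have h2 : ((W + deriv φ D * eig f k) * p k) ^ 2 / katoConst m (eig f k)
        ≤ W ^ 4 * normK k (col f k) := by
      rw [div_le_iff₀ hκ, ← neg_sq, ← e1]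
      calc (W ^ 2 * n k) ^ 2 = W ^ 4 * n k ^ 2 := by ring
        _ ≤ W ^ 4 * (katoConst m (eig f k) * normK k (col f k)) :=
            mul_le_mul_of_nonneg_left h1 (by positivity)
        _ = _ := by ring
    have e2 : W ^ 2 * (2 * W ^ 2 * (normK k (col f k) - n k ^ 2) + 4 * W * (p k * n k)
        + 2 * (p k + W * n k) ^ 2 - 4 * deriv (deriv φ) D * (eig f k ^ 2 * p k ^ 2))
        = 2 * (W ^ 4 * normK k (col f k)) + 8 * W * p k * (W ^ 2 * n k) + 2 * W ^ 2 * p k ^ 2
          - 4 * deriv (deriv φ) D * eig f k ^ 2 * W ^ 2 * p k ^ 2 := by ring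
    rw [e2, e1]
    have e3 : p k ^ 2 * C k = 2 * (((W + deriv φ D * eig f k) * p k) ^ 2 / katoConst m (eig f k))
        + 8 * W * p k * -((W + deriv φ D * eig f k) * p k) + 2 * W ^ 2 * p k ^ 2
        - 4 * deriv (deriv φ) D * eig f k ^ 2 * W ^ 2 * p k ^ 2 := by simp only [C]; ring
    linarith
  have hsum := sum_le_sum fun k (_ : k ∈ Finset.univ) => hterm k
  rw [← mul_sum] at hsum
  simp only [sum_add_distrib, sum_sub_distrib, ← mul_sum] at hsum
  have hle : (∑ k, p k ^ 2 * C k) + 2 * deriv φ D * W ^ 2 ≤ 0 := by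
    have h1 := mul_nonpos_of_nonneg_of_nonpos (sq_nonneg W) hlap'
    have h2 := mul_le_mul_of_nonneg_left hK (mul_nonneg (sq_nonneg W) (sq_nonneg W))
    linarith
  obtain ⟨k₀⟩ : Nonempty (Fin m) := ⟨⟨0, by omega⟩⟩
  have hd := (hband' k₀).1
  have hπ : ∑ k, p k ^ 2 = (1 - D) - (w y / len y) ^ 2 := by
    rw [hDdef, sub_sub_cancel]; exact sum_pi_sq f h h0 hp hs
  have hgap : 0 < (w y / len y) ^ 2 := by
    rw [h.agree y hyO hp]
    exact pow_pos (div_pos hp (len_pos (h.ne_zero_of_pos hp))) 2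
  have hpos : 0 ≤ ∑ k, p k ^ 2 * (2 * deriv φ D * W ^ 2 + (1 - D) * C k) :=
    sum_nonneg fun k _ => mul_nonneg (sq_nonneg _) (hband' k).2.le
  simp only [mul_add, sum_add_distrib, ← sum_mul] at hpos
  rw [hπ, show ∑ x, p x ^ 2 * ((1 - D) * C x) = (1 - D) * ∑ x, p x ^ 2 * C x by
    rw [mul_sum]; exact sum_congr rfl fun x _ => by ring] at hpos
  have h1 := mul_nonpos_of_nonneg_of_nonpos (show 0 ≤ 1 - D by linarith) hle
  have h2 : 0 < (w y / len y) ^ 2 * (2 * deriv φ D * W ^ 2) := by positivity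
  linarith

/-- Every profile bounds `u |D^2 u|`. -/
theorem profile_bound (h : RegularCone u O w) (h0 : (0 : Fin (m + 1) → ℝ) ∉ O) (hm : 1 ≤ m)
    (hφ : Profile m φ) : ∀ z, 0 < u z →
      (w z * hessLen w z) ^ 2 ≤ φ (1 - dot (grad w z) (grad w z)) := by
  induction hφ with
  | linear c hc =>
    intro z hz
    have hm1 : (1 : ℝ) ≤ m := Nat.one_le_cast.2 hm
    have h2 : 0 ≤ 2 * ((m : ℝ) - 1) / (3 * ((m : ℝ) + 2)) :=
      div_nonneg (by linarith) (by positivity)
    have hc0 : 0 < c := by linarith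
    refine band_bound h h0 hm (fun _ _ => True) (fun _ _ _ => trivial)
      (contDiff_const.mul contDiff_id) (fun D hD _ => mul_nonneg hc0.le hD)
      (fun l hl W D hW hD hD1 _ _ k => ?_) hz
    have hdφ : deriv (fun D : ℝ => c * D) = fun _ => c := funext fun t => by simp
    rw [hdφ, deriv_const]
    refine ⟨hc0, ?_⟩
    have hκ := katoConst_pos (m := m) (l k)
    have hκ' : katoConst m (l k) ≤ 1 / 3 + 2 * ((m : ℝ) - 1) / (3 * ((m : ℝ) + 2)) := by
      rw [katoConst, add_le_add_iff_left, div_mul_eq_mul_div]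
      refine div_le_div_of_nonneg_right ?_ (by positivity)
      have := spectrum_sq_le hl k
      linarith
    set κ := katoConst m (l k)
    set X := W + c * l k
    have e : (1 - D) * (2 * W ^ 2 - 8 * W * X + 2 * X ^ 2 / κ - 4 * 0 * l k ^ 2 * W ^ 2)
        = (1 - D) * (2 / κ * (X - 2 * κ * W) ^ 2) + W ^ 2 * ((1 - D) * (2 - 8 * κ)) := by
      field_simp
      ring
    rw [e]
    have h3 : 0 ≤ (1 - D) * (2 / κ * (X - 2 * κ * W) ^ 2) :=
      mul_nonneg (by linarith) (mul_nonneg (by positivity) (sq_nonneg _))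
    have h4 : 0 < 2 * c + (1 - D) * (2 - 8 * κ) := by
      rcases le_or_gt 0 (2 - 8 * κ) with hp | hp
      · have := mul_nonneg (show 0 ≤ 1 - D by linarith) hp; linarith
      · have : 2 - 8 * κ ≤ (1 - D) * (2 - 8 * κ) :=
          le_mul_of_le_one_left hp.le (by linarith)
        linarith
    have h5 := mul_pos (pow_pos hW 2) h4
    linarith
  | step φ ψ hψ hφ hφ0 hb ih =>
    intro z hz
    refine band_bound h h0 hm (fun W D => W ^ 2 ≤ ψ D) (fun y hy _ => ih y hy) hφ hφ0 ?_ hz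
    intro l hl W D hW hD hD1 hRW hlt k
    exact hb l hl W D ⟨hW, hD, hD1, hRW⟩ hlt k

end

end Vale.Agent.P098.Div
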