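import Mathlib
import Vale.Agent.P098.Cone.Defs

/-!
# P098: the pointwise conditions on a certificate with vector fields

On a regular cone in dimension `m + 1` let `A = D^2 u`, `s = |x| |A|`, `W = |x| A` and let `p` be the
tangential part of the gradient. A certificate is given by five functions of `(w, D, t)` with
`w = u |A|`, `D = 1 - |grad u|^2` and `t = tr A^3 / |A|^3`. They stand for `G = s ^ (1/2) g`,
`Φ = s F` and the field `V = s^2 al p + s be W p + ga W^2 p` on the sphere; the certificate asserts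
`Lap Φ + div V ≥ |grad G|^2 + γ G^2` inside and `Φ_ν + V ν + H G^2 ≥ 0` on the free boundary.

The conditions below are that assertion, after elimination of the point and of the scale. At a jet
`l` lists the eigenvalues of `A / |A|` orthogonal to `x`, `π` is a component of `p` and `x i` is the
component `k i i` of the tangential third derivatives divided by `s^2`.
-/

namespace Vale.Agent.P098.Div

open Vale.Agent.P098.Cone
open scoped ContDiff

noncomputable section

/-- The five functions of a certificate; the arguments are `![w, D, t]`. -/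
structure Fields where
  g : (Fin 3 → ℝ) → ℝ
  F : (Fin 3 → ℝ) → ℝ
  al : (Fin 3 → ℝ) → ℝ
  be : (Fin 3 → ℝ) → ℝ
  ga : (Fin 3 → ℝ) → ℝ

/-- Smoothness of the five functions. -/
structure Fields.Smooth (c : Fields) : Prop where
  g : ContDiff ℝ ∞ c.g
  F : ContDiff ℝ ∞ c.F
  al : ContDiff ℝ ∞ c.al
  be : ContDiff ℝ ∞ c.be
  ga : ContDiff ℝ ∞ c.ga

variable {m : ℕ}

/-- A normalised list of eigenvalues. -/
structure Spectrum (l : Fin m → ℝ) : Prop where
  sum : ∑ i, l i = 0
  sq : ∑ i, l i ^ 2 = 1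

/-- The cubic invariant. -/
def cubic (l : Fin m → ℝ) : ℝ := ∑ i, l i ^ 3

/-- The point at which the five functions are evaluated. -/
def pt (l : Fin m → ℝ) (w D : ℝ) : Fin 3 → ℝ := ![w, D, cubic l]

/-- The range of `(w, D)` below the profile `φ`. -/
def InDom (φ : ℝ → ℝ) (w D : ℝ) : Prop := 0 < w ∧ 0 ≤ D ∧ D < 1 ∧ w ^ 2 ≤ φ D

/-- `∑ i, x i * l i`. -/
def nu (l x : Fin m → ℝ) : ℝ := ∑ i, l i * x i

/-- `∑ i, x i * (l i) ^ 2`. -/
def mu (l x : Fin m → ℝ) : ℝ := ∑ i, l i ^ 2 * x i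

/-- The squared third derivatives with one index equal to `k` and two equal indices. -/
def normK (k : Fin m) (x : Fin m → ℝ) : ℝ := ∑ i, (if i = k then 1 else 3) * x i ^ 2

/-- The same, weighted by the eigenvalues. -/
def normL (l : Fin m → ℝ) (k : Fin m) (x : Fin m → ℝ) : ℝ :=
  ∑ i, (if i = k then l k else 2 * l i + l k) * x i ^ 2

/-- The derivative of `(w, D, t)` in the eigen-direction `k`, divided by `s`. -/
def step (l : Fin m → ℝ) (w : ℝ) (k : Fin m) (x : Fin m → ℝ) (π : ℝ) : Fin 3 → ℝ :=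
  ![π + w * nu l x, -2 * l k * π, 3 * (mu l x - cubic l * nu l x)]

/-- The derivative of one of the functions along `step`. -/
def along {n : ℕ} (f : (Fin n → ℝ) → ℝ) (v b : Fin n → ℝ) : ℝ := ∑ a, pd f a v * b a

/-- The second derivative along `step`. -/
def along₂ {n : ℕ} (f : (Fin n → ℝ) → ℝ) (v b : Fin n → ℝ) : ℝ :=
  ∑ a, ∑ c, hess f a c v * (b a * b c)

/-- The part of the interior expression that is quadratic in `(x, π)`. -/
def quad (c : Fields) (l : Fin m → ℝ) (w D : ℝ) (k : Fin m) (x : Fin m → ℝ) (π : ℝ) : ℝ :=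
  let v := pt l w D
  let b := step l w k x π
  let n := nu l x
  c.F v * (normK k x - n ^ 2) + 2 * n * along c.F v b
    + pd c.F 0 v * (w * (normK k x - n ^ 2) + 2 * π * n)
    + pd c.F 2 v * (6 * normL l k x - 3 * cubic l * normK k x + 15 * cubic l * n ^ 2
        - 18 * mu l x * n)
    + along₂ c.F v b
    + c.al v * (2 * n * π) + along c.al v b * π
    + c.be v * (n * l k * π) + along c.be v b * (l k * π)
    + c.ga v * (n * π) + along c.ga v b * (l k ^ 2 * π)
    - c.g v ^ 2 * n ^ 2 / 4 - c.g v * n * along c.g v b - along c.g v b ^ 2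

/-- The part of the interior expression free of `(x, π)`. -/
def const (c : Fields) (l : Fin m → ℝ) (w D : ℝ) : ℝ :=
  -2 * pd c.F 1 (pt l w D) + c.be (pt l w D) + cubic l * c.ga (pt l w D)

/-- The interior inequality in one eigen-direction. -/
def QuadOK (m : ℕ) (c : Fields) (φ : ℝ → ℝ) : Prop :=
  ∀ l : Fin m → ℝ, Spectrum l → ∀ w D, InDom φ w D → ∀ (k : Fin m) (x : Fin m → ℝ) (π : ℝ),
    ∑ i, x i = 0 → 0 ≤ (1 - D) * quad c l w D k x π + const c l w D * π ^ 2

/-- The coefficient of a third derivative with three distinct indices. -/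
def TripleOK (m : ℕ) (c : Fields) (φ : ℝ → ℝ) : Prop :=
  ∀ l : Fin m → ℝ, Spectrum l → ∀ w D, InDom φ w D → ∀ i j k : Fin m, i ≠ j → j ≠ k → i ≠ k →
    0 ≤ c.F (pt l w D) + w * pd c.F 0 (pt l w D)
      + (2 * (l i + l j + l k) - 3 * cubic l) * pd c.F 2 (pt l w D)

/-- The interior inequality at the end `p = 0` of the range of scales. -/
def EndOK (m : ℕ) (γ : ℝ) (c : Fields) (φ : ℝ → ℝ) : Prop :=
  ∀ l : Fin m → ℝ, Spectrum l → ∀ w D, InDom φ w D →
    0 ≤ w ^ 2 * const c l w D + (1 - D) * ((m : ℝ) * c.F (pt l w D)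
      - γ * c.g (pt l w D) ^ 2 - (m : ℝ) * w * c.al (pt l w D) - w * c.ga (pt l w D))

/-- The inequality on the free boundary; the normal is the eigen-direction `k`. -/
def BdryOK (m : ℕ) (c : Fields) : Prop :=
  ∀ l : Fin m → ℝ, Spectrum l → ∀ k : Fin m, l k ≤ 0 →
    0 ≤ (2 * l k - cubic l) * c.F (pt l 0 0) + pd c.F 0 (pt l 0 0) - 2 * l k * pd c.F 1 (pt l 0 0)
      + 3 * (cubic l ^ 2 - l k * cubic l + l k ^ 2 - ∑ i, l i ^ 4) * pd c.F 2 (pt l 0 0)
      + c.al (pt l 0 0) + l k * c.be (pt l 0 0) + l k ^ 2 * c.ga (pt l 0 0)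
      - l k * c.g (pt l 0 0) ^ 2

/-- `g` does not vanish on the range. -/
def NonzeroOK (m : ℕ) (c : Fields) (φ : ℝ → ℝ) : Prop :=
  ∀ l : Fin m → ℝ, Spectrum l → ∀ w D, InDom φ w D → c.g (pt l w D) ≠ 0

/-- All conditions on a certificate. -/
structure Certifies (m : ℕ) (γ : ℝ) (c : Fields) (φ : ℝ → ℝ) : Prop where
  smooth : c.Smooth
  hardy : (((m : ℝ) - 1) / 2) ^ 2 < γ
  quad : QuadOK m c φ
  triple : TripleOK m c φ
  endpoint : EndOK m γ c φ
  bdry : BdryOK m c
  nonzero : NonzeroOK m c φ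

/-- The best constant in the bound of `(∑ i, l i * x i) ^ 2` by `normK k x`. -/
def katoConst (m : ℕ) (lk : ℝ) : ℝ := 1 / 3 + 2 * (m : ℝ) / (3 * ((m : ℝ) + 2)) * lk ^ 2

/-- The maximum principle excludes a maximum of `w ^ 2 - φ D` in the band `φ D < w ^ 2 ≤ ψ D`. -/
def BandOK (m : ℕ) (φ ψ : ℝ → ℝ) : Prop :=
  ∀ l : Fin m → ℝ, Spectrum l → ∀ w D, InDom ψ w D → φ D < w ^ 2 → ∀ k : Fin m,
    0 < deriv φ D ∧
    0 < 2 * deriv φ D * w ^ 2 + (1 - D) * (2 * w ^ 2 - 8 * w * (w + deriv φ D * l k)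
      + 2 * (w + deriv φ D * l k) ^ 2 / katoConst m (l k)
      - 4 * deriv (deriv φ) D * l k ^ 2 * w ^ 2)

/-- The profiles reached from a linear one by the maximum principle. -/
inductive Profile (m : ℕ) : (ℝ → ℝ) → Prop
  | linear (c : ℝ) (hc : 4 * (1 / 3 + 2 * ((m : ℝ) - 1) / (3 * ((m : ℝ) + 2))) - 1 < c) :
      Profile m fun D => c * D
  | step (φ ψ : ℝ → ℝ) (hψ : Profile m ψ) (hφ : ContDiff ℝ ∞ φ)
      (h0 : ∀ D, 0 ≤ D → D < 1 → 0 ≤ φ D)
      (h : BandOK m φ ψ) : Profile m φ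

end

end Vale.Agent.P098.Div
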