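import Mathlib
import Vale.Agent.P098.Div.Spec

/-!
# P098: the pointwise conditions on a certificate that also depends on the scale

As in `Spec`, with two changes. The functions of a certificate may depend, besides `(w, D, t)`, on
`ξ = 1 / (1 + s ^ 2)`, where `s = |x| |A|`; and the field has two further parts, built from the
third derivatives `T`: with `W = |x| A` it is `V = s^2 al p + s be W p + ga W^2 p + b1 (T : W) / s
+ b2 (T : W^2) / s^2`, the last two taken tangential to the sphere.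

At `u = w`, `P = 1 - D`, a jet satisfies `w ^ 2 e ≤ P` with `e = 1 / s ^ 2 = ξ / (1 - ξ)`, and the
tangential gradient has squared length `P - w ^ 2 e`.
-/

namespace Vale.Agent.P098.Div

open Vale.Agent.P098.Cone
open scoped ContDiff

noncomputable section

/-- The seven functions of a certificate; the arguments are `![w, D, t, ξ]`. -/
structure FieldsX where
  g : (Fin 4 → ℝ) → ℝ
  F : (Fin 4 → ℝ) → ℝ
  al : (Fin 4 → ℝ) → ℝ
  be : (Fin 4 → ℝ) → ℝ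
  ga : (Fin 4 → ℝ) → ℝ
  b1 : (Fin 4 → ℝ) → ℝ
  b2 : (Fin 4 → ℝ) → ℝ

/-- Smoothness of the seven functions. -/
structure FieldsX.Smooth (c : FieldsX) : Prop where
  g : ContDiff ℝ ∞ c.g
  F : ContDiff ℝ ∞ c.F
  al : ContDiff ℝ ∞ c.al
  be : ContDiff ℝ ∞ c.be
  ga : ContDiff ℝ ∞ c.ga
  b1 : ContDiff ℝ ∞ c.b1
  b2 : ContDiff ℝ ∞ c.b2

variable {m : ℕ}

/-- The point at which the seven functions are evaluated. -/
def ptX (l : Fin m → ℝ) (w D ξ : ℝ) : Fin 4 → ℝ := ![w, D, cubic l, ξ]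

/-- The range of `ξ` at given `(w, D)`. -/
def InX (w D ξ : ℝ) : Prop := 0 < ξ ∧ ξ < 1 ∧ ξ * w ^ 2 ≤ (1 - ξ) * (1 - D)

/-- The derivative of `(w, D, t, ξ)` in the eigen-direction `k`, divided by `s`. -/
def stepX (l : Fin m → ℝ) (w ξ : ℝ) (k : Fin m) (x : Fin m → ℝ) (π : ℝ) : Fin 4 → ℝ :=
  ![π + w * nu l x, -2 * l k * π, 3 * (mu l x - cubic l * nu l x), -2 * ξ * (1 - ξ) * nu l x]

/-- The part of the interior expression that is quadratic in `(x, π)`. -/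
def quadX (c : FieldsX) (l : Fin m → ℝ) (w D ξ : ℝ) (k : Fin m) (x : Fin m → ℝ) (π : ℝ) : ℝ :=
  let v := ptX l w D ξ
  let b := stepX l w ξ k x π
  let n := nu l x
  c.F v * (normK k x - n ^ 2) + 2 * n * along c.F v b
    + pd c.F 0 v * (w * (normK k x - n ^ 2) + 2 * π * n)
    + pd c.F 2 v * (6 * normL l k x - 3 * cubic l * normK k x + 15 * cubic l * n ^ 2
        - 18 * mu l x * n)
    + pd c.F 3 v * (-2 * ξ * (1 - ξ) * normK k x + 8 * ξ * (1 - ξ) ^ 2 * n ^ 2)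
    + along₂ c.F v b
    + c.al v * (2 * n * π) + along c.al v b * π
    + c.be v * (n * l k * π) + along c.be v b * (l k * π)
    + c.ga v * (n * π) + along c.ga v b * (l k ^ 2 * π)
    + c.b1 v * (normK k x - n ^ 2) + along c.b1 v b * n
    + c.b2 v * (2 * normL l k x - 2 * mu l x * n) + along c.b2 v b * mu l x
    - c.g v ^ 2 * n ^ 2 / 4 - c.g v * n * along c.g v b - along c.g v b ^ 2

/-- The part of the interior expression free of `(x, π)` and of `e`. -/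
def constX (c : FieldsX) (l : Fin m → ℝ) (w D ξ : ℝ) : ℝ :=
  -2 * pd c.F 1 (ptX l w D ξ) + c.be (ptX l w D ξ) + cubic l * c.ga (ptX l w D ξ)
    - 2 * (m : ℝ) * ξ ^ 2 * pd c.F 3 (ptX l w D ξ)

/-- The coefficient of `e`. -/
def endX (γ : ℝ) (c : FieldsX) (l : Fin m → ℝ) (w D ξ : ℝ) : ℝ :=
  (m : ℝ) * c.F (ptX l w D ξ) - γ * c.g (ptX l w D ξ) ^ 2 - (m : ℝ) * w * c.al (ptX l w D ξ)
    - w * c.ga (ptX l w D ξ) + (m : ℝ) * c.b1 (ptX l w D ξ)
    + (m : ℝ) * cubic l * c.b2 (ptX l w D ξ)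

/-- The interior inequality in one eigen-direction. -/
def QuadX (m : ℕ) (γ : ℝ) (c : FieldsX) (φ : ℝ → ℝ) : Prop :=
  ∀ l : Fin m → ℝ, Spectrum l → ∀ w D, InDom φ w D → ∀ ξ, InX w D ξ →
    ∀ (k : Fin m) (x : Fin m → ℝ) (π : ℝ), ∑ i, x i = 0 →
      0 ≤ ((1 - ξ) * (1 - D) - ξ * w ^ 2) * quadX c l w D ξ k x π
        + ((1 - ξ) * constX c l w D ξ + ξ * endX γ c l w D ξ) * π ^ 2

/-- The coefficient of a third derivative with three distinct indices. -/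
def TripleX (m : ℕ) (c : FieldsX) (φ : ℝ → ℝ) : Prop :=
  ∀ l : Fin m → ℝ, Spectrum l → ∀ w D, InDom φ w D → ∀ ξ, InX w D ξ →
    ∀ i j k : Fin m, i ≠ j → j ≠ k → i ≠ k →
      0 ≤ c.F (ptX l w D ξ) + w * pd c.F 0 (ptX l w D ξ)
        - 2 * ξ * (1 - ξ) * pd c.F 3 (ptX l w D ξ) + c.b1 (ptX l w D ξ)
        + (2 * (l i + l j + l k) - 3 * cubic l) * pd c.F 2 (ptX l w D ξ)
        + 2 / 3 * (l i + l j + l k) * c.b2 (ptX l w D ξ)

/-- The inequality on the free boundary; the normal is the eigen-direction `k`. -/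
def BdryX (m : ℕ) (c : FieldsX) : Prop :=
  ∀ l : Fin m → ℝ, Spectrum l → ∀ ξ, 0 < ξ → ξ < 1 → ∀ k : Fin m, l k ≤ 0 →
    0 ≤ (2 * l k - cubic l) * c.F (ptX l 0 0 ξ) + pd c.F 0 (ptX l 0 0 ξ)
      - 2 * l k * pd c.F 1 (ptX l 0 0 ξ)
      + 3 * (cubic l ^ 2 - l k * cubic l + l k ^ 2 - ∑ i, l i ^ 4) * pd c.F 2 (ptX l 0 0 ξ)
      + (2 * l k - cubic l) * (c.b1 (ptX l 0 0 ξ) - 2 * ξ * (1 - ξ) * pd c.F 3 (ptX l 0 0 ξ))
      + (l k * cubic l + l k ^ 2 - ∑ i, l i ^ 4) * c.b2 (ptX l 0 0 ξ)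
      + c.al (ptX l 0 0 ξ) + l k * c.be (ptX l 0 0 ξ) + l k ^ 2 * c.ga (ptX l 0 0 ξ)
      - l k * c.g (ptX l 0 0 ξ) ^ 2

/-- `g` does not vanish on the range. -/
def NonzeroX (m : ℕ) (c : FieldsX) (φ : ℝ → ℝ) : Prop :=
  ∀ l : Fin m → ℝ, Spectrum l → ∀ w D, InDom φ w D → ∀ ξ, InX w D ξ → c.g (ptX l w D ξ) ≠ 0

/-- All conditions on a certificate. -/
structure CertifiesX (m : ℕ) (γ : ℝ) (c : FieldsX) (φ : ℝ → ℝ) : Prop where
  smooth : c.Smooth
  hardy : (((m : ℝ) - 1) / 2) ^ 2 < γ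
  quad : QuadX m γ c φ
  triple : TripleX m c φ
  bdry : BdryX m c
  nonzero : NonzeroX m c φ

end

end Vale.Agent.P098.Div
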