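import Vale.Agent.P098.Jet.Test
import Vale.Agent.P098.Div.SpecX

/-!
# P098: the chain rule for compositions with functions of several variables
-/

namespace Vale.Agent.P098.Div

open Vale.Agent.P098.Cone Vale.Agent.P098.Jet
open Set Filter Topology Finset
open scoped ContDiff

noncomputable section

variable {d n : ℕ} {V : Set (Fin d → ℝ)} {f : (Fin n → ℝ) → ℝ} {a b : (Fin d → ℝ) → ℝ}
  {e : Fin n → (Fin d → ℝ) → ℝ} {z : Fin d → ℝ}

/-- The composition with several functions. -/
def comp3 (f : (Fin n → ℝ) → ℝ) (e : Fin n → (Fin d → ℝ) → ℝ) (y : Fin d → ℝ) : ℝ :=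
  f fun i => e i y

theorem contDiffOn_comp3 (hf : ContDiff ℝ ∞ f) (he : ∀ i, ContDiffOn ℝ 2 (e i) V) :
    ContDiffOn ℝ 2 (comp3 f e) V :=
  (hf.of_le (WithTop.coe_le_coe.2 le_top)).comp_contDiffOn (contDiffOn_pi.2 he)

theorem pd_comp3 (hf : DifferentiableAt ℝ f (fun i => e i z)) (he : ∀ i, DifferentiableAt ℝ (e i) z)
    (k : Fin d) : pd (comp3 f e) k z = ∑ i, pd f i (fun i => e i z) * pd (e i) k z := by
  have h1 : HasFDerivAt (fun y i => e i y) (ContinuousLinearMap.pi fun i => fderiv ℝ (e i) z) z :=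
    hasFDerivAt_pi.2 fun i => (he i).hasFDerivAt
  have h2 : HasFDerivAt (comp3 f e)
      ((fderiv ℝ f fun i => e i z).comp (ContinuousLinearMap.pi fun i => fderiv ℝ (e i) z)) z :=
    hf.hasFDerivAt.comp z h1
  rw [pd, h2.fderiv, ContinuousLinearMap.comp_apply, fderiv_eq_sum]
  exact sum_congr rfl fun i _ => by rw [mul_comm]; rfl

theorem lap_comp3 (hf : ContDiff ℝ ∞ f) (hV : IsOpen V) (he : ∀ i, ContDiffOn ℝ 2 (e i) V)
    (hz : z ∈ V) :
    lap (comp3 f e) z = (∑ i, ∑ j, hess f i j (fun i => e i z) * dot (grad (e i) z) (grad (e j) z))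
      + ∑ i, pd f i (fun i => e i z) * lap (e i) z := by
  have hfd : ∀ v, DifferentiableAt ℝ f v := fun v => hf.differentiable (by simp) v
  have hd : ∀ i, ∀ y ∈ V, DifferentiableAt ℝ (e i) y := fun i y hy =>
    differentiableAt_of_smooth (he i) hV hy
  have hp : ∀ i k, DifferentiableAt ℝ (pd (e i) k) z := fun i k =>
    differentiableAt_of_smooth (contDiffOn_pd (he i) hV k) hV hz
  have hq : ∀ i, DifferentiableAt ℝ (comp3 (pd f i) e) z := fun i =>
    differentiableAt_of_smooth (contDiffOn_comp3 (contDiff_pd hf i) he) hV hz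
  have step : ∀ k, hess (comp3 f e) k k z
      = ∑ i, (pd f i (fun i => e i z) * hess (e i) k k z
        + pd (e i) k z * ∑ j, hess f i j (fun i => e i z) * pd (e j) k z) := by
    intro k
    have ev : (fun y => pd (comp3 f e) k y) =ᶠ[𝓝 z]
        fun y => ∑ i, comp3 (pd f i) e y * pd (e i) k y := by
      filter_upwards [hV.mem_nhds hz] with y hy using pd_comp3 (hfd _) (fun i => hd i y hy) k
    rw [hess, pd_congr ev, pd_sum _ (F := fun i y => comp3 (pd f i) e y * pd (e i) k y)
      (fun i _ => (hq i).mul (hp i k))]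
    refine sum_congr rfl fun i _ => ?_
    rw [pd_mul (hq i) (hp i k), pd_comp3 ((contDiff_pd hf i).differentiable (by simp) _)
      (fun j => hd j z hz) k]
    rfl
  simp only [lap, step, dot, grad, mul_sum, sum_add_distrib]
  rw [add_comm]
  congr 1
  · rw [sum_comm]
    refine sum_congr rfl fun i _ => ?_
    rw [sum_comm]
    exact sum_congr rfl fun j _ => sum_congr rfl fun k _ => by ring
  · rw [sum_comm]

theorem lap_mul (hV : IsOpen V) (ha : ContDiffOn ℝ 2 a V) (hb : ContDiffOn ℝ 2 b V) (hz : z ∈ V) :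
    lap (fun y => a y * b y) z
      = a z * lap b z + b z * lap a z + 2 * dot (grad a z) (grad b z) := by
  have hA : ∀ y ∈ V, DifferentiableAt ℝ a y := fun y hy => differentiableAt_of_smooth ha hV hy
  have hB : ∀ y ∈ V, DifferentiableAt ℝ b y := fun y hy => differentiableAt_of_smooth hb hV hy
  have hpa : ∀ k, DifferentiableAt ℝ (pd a k) z := fun k =>
    differentiableAt_of_smooth (contDiffOn_pd ha hV k) hV hz
  have hpb : ∀ k, DifferentiableAt ℝ (pd b k) z := fun k =>
    differentiableAt_of_smooth (contDiffOn_pd hb hV k) hV hz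
  have step : ∀ k, hess (fun y => a y * b y) k k z
      = a z * hess b k k z + b z * hess a k k z + 2 * (pd a k z * pd b k z) := by
    intro k
    have ev : (fun y => pd (fun y => a y * b y) k y) =ᶠ[𝓝 z]
        fun y => a y * pd b k y + b y * pd a k y := by
      filter_upwards [hV.mem_nhds hz] with y hy using pd_mul (hA y hy) (hB y hy) k
    rw [hess, pd_congr ev, pd_add ((hA z hz).fun_mul (hpb k)) ((hB z hz).fun_mul (hpa k)),
      pd_mul (hA z hz) (hpb k), pd_mul (hB z hz) (hpa k)]
    simp only [hess]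
    ring
  simp only [lap, step, dot, grad, sum_add_distrib, mul_sum]

theorem lap_comp {φ φ' : ℝ → ℝ} {φ'' : ℝ} (hV : IsOpen V) (ha : ContDiffOn ℝ 2 a V) (hz : z ∈ V)
    (h1 : ∀ᶠ t in 𝓝 (a z), HasDerivAt φ (φ' t) t) (h2 : HasDerivAt φ' φ'' (a z)) :
    lap (fun y => φ (a y)) z = φ' (a z) * lap a z + φ'' * dot (grad a z) (grad a z) := by
  have hA : DifferentiableAt ℝ a z := differentiableAt_of_smooth ha hV hz
  have hpa : ∀ k, DifferentiableAt ℝ (pd a k) z := fun k =>
    differentiableAt_of_smooth (contDiffOn_pd ha hV k) hV hz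
  have hφ : DifferentiableAt ℝ (fun y => φ' (a y)) z := h2.differentiableAt.comp z hA
  have step : ∀ k, hess (fun y => φ (a y)) k k z
      = φ' (a z) * hess a k k z + φ'' * (pd a k z * pd a k z) := by
    intro k
    have ev : (fun y => pd (fun y => φ (a y)) k y) =ᶠ[𝓝 z] fun y => φ' (a y) * pd a k y := by
      filter_upwards [hV.mem_nhds hz, hA.continuousAt.eventually h1] with y hy hy'
      exact pd_comp hy' (differentiableAt_of_smooth ha hV hy) k
    rw [hess, pd_congr ev, pd_mul hφ (hpa k), pd_comp h2 hA k]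
    simp only [hess]
    ring
  simp only [lap, step, dot, grad, sum_add_distrib, mul_sum]

theorem grad_mul (ha : DifferentiableAt ℝ a z) (hb : DifferentiableAt ℝ b z) :
    grad (fun y => a y * b y) z = fun k => a z * pd b k z + b z * pd a k z :=
  funext fun k => pd_mul ha hb k

theorem lap_congr (h : a =ᶠ[𝓝 z] b) : lap a z = lap b z :=
  sum_congr rfl fun k _ =>
    pd_congr ((h.eventuallyEq_nhds).mono fun _ hy => pd_congr hy k) k

end

end Vale.Agent.P098.Div
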