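import Vale.Agent.P098.Div.Frame

/-!
# P098: the jet of a regular cone in an eigen-frame
-/

namespace Vale.Agent.P098.Div

open Vale.Agent.P098.Cone Vale.Agent.P098.Jet
open Finset

noncomputable section

variable {m : ℕ} {u w : (Fin (m + 1) → ℝ) → ℝ} {O : Set (Fin (m + 1) → ℝ)} {z : Fin (m + 1) → ℝ}

/-- The length of the Hessian. -/
def hessLen (w : (Fin (m + 1) → ℝ) → ℝ) (z : Fin (m + 1) → ℝ) : ℝ := regLen w 0 z

theorem regSq_zero : regSq w 0 z = hessSq w z := by simp [regSq]

theorem hessLen_sq : hessLen w z * hessLen w z = hessSq w z := by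
  rw [hessLen, regLen, regSq_zero]
  exact Real.mul_self_sqrt (dot2_self_nonneg _)

theorem hessLen_pos (hs : 0 < hessSq w z) : 0 < hessLen w z := by
  rw [hessLen, regLen, regSq_zero]; exact Real.sqrt_pos.2 hs

theorem mem_dom_zero (hz : z ∈ O) (hs : 0 < hessSq w z) : z ∈ dom w O 0 :=
  ⟨hz, by rwa [Set.mem_preimage, Set.mem_Ioi, regSq_zero]⟩

variable (f : Frame (hessMat w z) z)

/-- The component of a vector. -/
def comp1 (p : Fin (m + 1) → ℝ) (a : Fin (m + 1)) : ℝ := dot (f.b a) p

/-- The component of the third derivatives. -/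
def comp3T (a c e : Fin (m + 1)) : ℝ :=
  ∑ i, ∑ j, ∑ k, f.b a i * (f.b c j * (f.b e k * third w z i j k))

/-- The normalised eigenvalues. -/
def eig (k : Fin m) : ℝ := f.e k / hessLen w z

/-- The tangential gradient. -/
def piC (k : Fin m) : ℝ := comp1 f (grad w z) k.succ

/-- The normalised tangential third derivatives. -/
def sig (i j k : Fin m) : ℝ := comp3T f i.succ j.succ k.succ / hessLen w z ^ 2

/-- The column `k i i` of the normalised third derivatives. -/
def col (k i : Fin m) : ℝ := sig f i i k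

theorem e_eq (hs : 0 < hessSq w z) (k : Fin m) : f.e k = hessLen w z * eig f k := by
  have := (hessLen_pos hs).ne'
  rw [eig]; field_simp

theorem comp3T_swap₁ (h : RegularCone u O w) (hzO : z ∈ O) (a c e : Fin (m + 1)) :
    comp3T f a c e = comp3T f c a e := by
  rw [comp3T, sum_comm]
  exact sum_congr rfl fun j _ => sum_congr rfl fun i _ => sum_congr rfl fun k _ => by
    rw [third_comm₁ h.smooth h.isOpen hzO i j k]; ring

theorem comp3T_swap₂ (h : RegularCone u O w) (hzO : z ∈ O) (a c e : Fin (m + 1)) :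
    comp3T f a c e = comp3T f a e c := by
  refine sum_congr rfl fun i _ => ?_
  rw [sum_comm]
  exact sum_congr rfl fun k _ => sum_congr rfl fun j _ => by
    rw [third_comm₂ h.smooth h.isOpen hzO i j k]; ring

theorem comp3T_zero_right (h : RegularCone u O w) (hu : 0 < u z) (a c : Fin (m + 1)) :
    comp3T f a c 0 = -(dot (f.b a) (app (hessMat w z) (f.b c))) / len z := by
  simp only [comp3T, f.first, dot, app, mul_sum, ← sum_neg_distrib, sum_div]
  refine sum_congr rfl fun i _ => sum_congr rfl fun j _ => ?_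
  have e : ∑ k, f.b a i * (f.b c j * (z k / len z * third w z i j k))
      = f.b a i * (f.b c j * ((∑ k, third w z i j k * z k) / len z)) := by
    simp only [sum_div, mul_sum]
    exact sum_congr rfl fun k _ => by ring
  rw [e, h.third_radial_pos hu]
  simp only [hessMat]
  ring

theorem comp3T_zero_succ (h : RegularCone u O w) (hu : 0 < u z) (a c : Fin m) :
    comp3T f a.succ c.succ 0 = if a = c then -(f.e c) / len z else 0 := by
  rw [comp3T_zero_right f h hu, show dot (f.b a.succ) (app (hessMat w z) (f.b c.succ))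
      = f.e c * dot (f.b a.succ) (f.b c.succ) by
    simp only [dot, f.app_eigen, mul_sum]; exact sum_congr rfl fun i _ => by ring, f.orth]
  simp only [Fin.succ_inj]
  split_ifs <;> ring

theorem comp3T_zero_zero (h : RegularCone u O w) (hu : 0 < u z) (a : Fin (m + 1)) :
    comp3T f a 0 0 = 0 := by
  rw [comp3T_zero_right f h hu]
  simp [dot, f.app_first]

theorem sig_swap₁ (h : RegularCone u O w) (hzO : z ∈ O) (i j k : Fin m) :
    sig f i j k = sig f j i k := by rw [sig, comp3T_swap₁ f h hzO]; rfl

theorem sig_swap₂ (h : RegularCone u O w) (hzO : z ∈ O) (i j k : Fin m) :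
    sig f i j k = sig f i k j := by rw [sig, comp3T_swap₂ f h hzO]; rfl

theorem col_sum (h : RegularCone u O w) (hu : 0 < u z) (k : Fin m) : ∑ i, col f k i = 0 := by
  have hzO := h.mem_of_pos hu
  have e : ∑ a, comp3T f a a k.succ = 0 := by
    calc ∑ a, comp3T f a a k.succ
        = ∑ i, ∑ j, ∑ l, (∑ a, f.b a i * f.b a j) * (f.b k.succ l * third w z i j l) := by
          simp only [comp3T, sum_mul]
          rw [sum_comm]
          refine sum_congr rfl fun i _ => ?_
          rw [sum_comm]
          refine sum_congr rfl fun j _ => ?_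
          rw [sum_comm]
          exact sum_congr rfl fun l _ => sum_congr rfl fun a _ => by ring
      _ = ∑ l, f.b k.succ l * ∑ i, third w z i i l := by
          simp only [f.complete, ite_mul, one_mul, zero_mul, mul_sum]
          conv_lhs =>
            arg 2; ext i
            rw [sum_comm]
          simp only [sum_ite_eq, mem_univ, if_true]
          rw [sum_comm]
      _ = 0 := by simp [h.third_trace_pos hu]
  rw [Fin.sum_univ_succ, comp3T_swap₂ f h hzO 0 0, comp3T_swap₁ f h hzO 0 k.succ,
    comp3T_zero_zero f h hu, zero_add] at e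
  simp only [col, sig, ← sum_div, e, zero_div]

theorem dot_split (p q : Fin (m + 1) → ℝ) :
    dot p q = comp1 f p 0 * comp1 f q 0 + ∑ k : Fin m, comp1 f p k.succ * comp1 f q k.succ := by
  rw [f.parseval p q, Fin.sum_univ_succ]
  rfl

theorem comp1_zero (p : Fin (m + 1) → ℝ) : comp1 f p 0 = dot z p / len z := by
  simp only [comp1, dot, f.first, sum_div]
  exact sum_congr rfl fun i _ => by ring

theorem comp1_lin (p q : Fin (m + 1) → ℝ) (s t : ℝ) (a : Fin (m + 1)) :
    comp1 f (fun k => s * p k + t * q k) a = s * comp1 f p a + t * comp1 f q a :=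
  dot_lin _ p q s t

theorem comp1_self_succ (k : Fin m) : comp1 f z k.succ = 0 := by
  have := f.orth k.succ 0
  rw [if_neg (Fin.succ_ne_zero k)] at this
  simp only [dot, f.first, mul_div_assoc', ← sum_div] at this
  by_cases hz : z = 0
  · simp [hz, comp1, dot]
  · exact (div_eq_zero_iff.1 this).resolve_right (len_pos hz).ne'

theorem comp1_aField (k : Fin m) :
    comp1 f (fun i => aField w i z) k.succ = f.e k * piC f k := by
  show dot (f.b k.succ) (app (hessMat w z) (grad w z)) = f.e k * dot (f.b k.succ) (grad w z)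
  calc dot (f.b k.succ) (app (hessMat w z) (grad w z))
      = ∑ c : Fin m, f.e c * dot (f.b c.succ) (f.b k.succ) * dot (f.b c.succ) (grad w z) := by
        simp only [dot, app, f.diag, sum_mul, mul_sum]
        refine Eq.trans (sum_congr rfl fun i _ => sum_comm) ?_
        rw [sum_comm]
        refine sum_congr rfl fun c _ => ?_
        rw [sum_comm]
        exact sum_congr rfl fun j _ => sum_congr rfl fun i _ => by ring
    _ = _ := by simp [f.orth]

theorem comp1_bField (k : Fin m) :
    comp1 f (fun i => bField w i z) k.succ = f.e k ^ 2 * piC f k := by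
  show dot (f.b k.succ) (app (hessMat w z) (fun j => aField w j z)) = _
  calc dot (f.b k.succ) (app (hessMat w z) (fun j => aField w j z))
      = ∑ c : Fin m, f.e c * dot (f.b c.succ) (f.b k.succ)
          * comp1 f (fun j => aField w j z) c.succ := by
        simp only [comp1, dot, app, f.diag, sum_mul, mul_sum]
        refine Eq.trans (sum_congr rfl fun i _ => sum_comm) ?_
        rw [sum_comm]
        refine sum_congr rfl fun c _ => ?_
        rw [sum_comm]
        exact sum_congr rfl fun j _ => sum_congr rfl fun i _ => by ring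
    _ = _ := by simp [f.orth, comp1_aField]; ring

theorem comp1_tA (k : Fin m) :
    comp1 f (tA w z) k.succ = ∑ c : Fin m, f.e c * comp3T f c.succ c.succ k.succ := by
  simp only [comp1, dot, tA, f.dot2_left, comp3T, mul_sum]
  rw [sum_comm]
  refine sum_congr rfl fun c _ => ?_
  rw [sum_comm]
  refine sum_congr rfl fun i _ => ?_
  rw [sum_comm]
  exact sum_congr rfl fun j _ => sum_congr rfl fun l _ => by ring

theorem comp1_tAA (k : Fin m) :
    comp1 f (tAA w z) k.succ = ∑ c : Fin m, f.e c ^ 2 * comp3T f c.succ c.succ k.succ := by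
  simp only [comp1, dot, tAA, dot2, f.sqMat_eq, comp3T, mul_sum]
  refine Eq.trans (sum_congr rfl fun l _ => Eq.trans (sum_congr rfl fun i _ => sum_comm) sum_comm) ?_
  rw [sum_comm]
  refine sum_congr rfl fun c _ => ?_
  rw [sum_comm]
  refine sum_congr rfl fun i _ => ?_
  rw [sum_comm]
  exact sum_congr rfl fun j _ => sum_congr rfl fun l _ => by ring

variable (hs : 0 < hessSq w z)
include hs

theorem spectrum (h : RegularCone u O w) (hz : z ∈ closure {y | 0 < u y}) (hzO : z ∈ O) :
    Spectrum (eig f) := by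
  have hne := (hessLen_pos hs).ne'
  refine ⟨?_, ?_⟩
  · simp only [eig, ← sum_div, ← f.sum_e, hessMat, h.trace hz hzO, zero_div]
  · simp only [eig, div_pow, ← sum_div, ← f.sum_e_sq]
    rw [show dot2 (hessMat w z) (hessMat w z) = hessSq w z from rfl, ← hessLen_sq, ← sq]
    field_simp

theorem cube_eq : cube w z = hessLen w z ^ 3 * cubic (eig f) := by
  rw [cubic, mul_sum, show cube w z = dot2 (sqMat (hessMat w z)) (hessMat w z) by
    simp only [dot2, sqMat, cube, sum_mul, hessMat], f.sum_e_cube]
  exact sum_congr rfl fun k _ => by rw [e_eq f hs k]; ring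

theorem quart_eq : quart w z = hessLen w z ^ 4 * ∑ k, eig f k ^ 4 := by
  rw [quart, f.sum_e_four, mul_sum]
  exact sum_congr rfl fun k _ => by rw [e_eq f hs k]; ring

theorem comp3T_eq (i j k : Fin m) :
    comp3T f i.succ j.succ k.succ = hessLen w z ^ 2 * sig f i j k := by
  have := (hessLen_pos hs).ne'
  rw [sig]; field_simp

theorem comp1_tA' (k : Fin m) :
    comp1 f (tA w z) k.succ = hessLen w z ^ 3 * nu (eig f) (col f k) := by
  rw [comp1_tA, nu, mul_sum]
  exact sum_congr rfl fun c _ => by rw [comp3T_eq f hs, e_eq f hs c, col]; ring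

theorem comp1_tAA' (k : Fin m) :
    comp1 f (tAA w z) k.succ = hessLen w z ^ 4 * mu (eig f) (col f k) := by
  rw [comp1_tAA, mu, mul_sum]
  exact sum_congr rfl fun c _ => by rw [comp3T_eq f hs, e_eq f hs c, col]; ring

theorem tensor_norm (h : RegularCone u O w) (hu : 0 < u z) :
    dot3 (third w z) (third w z) = hessLen w z ^ 4 * (∑ i, ∑ j, ∑ k, sig f i j k ^ 2)
      + 3 * (hessLen w z / len z) ^ 2 := by
  have hzO := h.mem_of_pos hu
  have hsum : ∑ i, f.e i ^ 2 = hessLen w z ^ 2 := by
    rw [← f.sum_e_sq, sq]; exact hessLen_sq.symm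
  have e1 : ∀ i j : Fin m, comp3T f 0 i.succ j.succ = comp3T f i.succ j.succ 0 := fun i j => by
    rw [comp3T_swap₁ f h hzO 0 i.succ, comp3T_swap₂ f h hzO i.succ 0]
  have e2 : ∀ i j : Fin m, comp3T f i.succ 0 j.succ = comp3T f i.succ j.succ 0 := fun i j =>
    comp3T_swap₂ f h hzO _ _ _
  have z1 : ∀ a, comp3T f 0 a 0 = 0 := fun a => by
    rw [comp3T_swap₁ f h hzO]; exact comp3T_zero_zero f h hu a
  have z2 : ∀ a, comp3T f 0 0 a = 0 := fun a => by
    rw [comp3T_swap₂ f h hzO]; exact z1 a
  rw [f.tensor_sq]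
  show ∑ a, ∑ c, ∑ e, comp3T f a c e ^ 2 = _
  simp only [Fin.sum_univ_succ, z1, z2, e1, e2, comp3T_zero_zero f h hu, comp3T_zero_succ f h hu,
    comp3T_eq f hs, sum_add_distrib, ite_pow, zero_pow two_ne_zero, sum_const_zero, zero_add,
    sum_ite_eq, mem_univ, if_true]
  simp only [div_pow, neg_sq, ← sum_div, hsum, mul_pow, ← mul_sum]
  ring

theorem tensor_weighted (h : RegularCone u O w) (hu : 0 < u z) :
    ∑ i, ∑ j, hess w i j z * ∑ l, ∑ k, third w z i l k * third w z j l k
      = hessLen w z ^ 5 * (∑ i, ∑ j, ∑ k, eig f i * sig f i j k ^ 2)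
        + 2 * hessLen w z ^ 3 * cubic (eig f) / len z ^ 2 := by
  have hzO := h.mem_of_pos hu
  have e2 : ∀ i j : Fin m, comp3T f i.succ 0 j.succ = comp3T f i.succ j.succ 0 := fun i j =>
    comp3T_swap₂ f h hzO _ _ _
  refine (f.tensor_weight (third w z)).trans ?_
  show ∑ a : Fin m, f.e a * ∑ c, ∑ e, comp3T f a.succ c e ^ 2 = _
  simp only [Fin.sum_univ_succ, e2, comp3T_zero_zero f h hu, comp3T_zero_succ f h hu,
    comp3T_eq f hs, sum_add_distrib, ite_pow, zero_pow two_ne_zero, zero_add,
    sum_ite_eq, mem_univ, if_true, e_eq f hs, cubic, mul_sum, sum_div, mul_add]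
  have e3 : ∑ x, hessLen w z * eig f x * ((-(hessLen w z * eig f x) / len z) ^ 2)
      = ∑ x, hessLen w z ^ 3 * eig f x ^ 3 / len z ^ 2 := sum_congr rfl fun x _ => by ring
  have e4 : ∑ x : Fin m, 2 * hessLen w z ^ 3 * eig f x ^ 3 / len z ^ 2
      = 2 * ∑ x : Fin m, hessLen w z ^ 3 * eig f x ^ 3 / len z ^ 2 := by
    rw [mul_sum]; exact sum_congr rfl fun x _ => by ring
  rw [e3, e4, show ∑ i, ∑ j, ∑ k, hessLen w z * eig f i * (hessLen w z ^ 2 * sig f i j k) ^ 2
    = ∑ i, ∑ j, ∑ k, hessLen w z ^ 5 * (eig f i * sig f i j k ^ 2) from sum_congr rfl fun i _ =>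
      sum_congr rfl fun j _ => sum_congr rfl fun k _ => by ring]
  ring

end

end Vale.Agent.P098.Div
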