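import Mathlib
import Vale.Agent.P098.Div.Spec

/-!
# P098, five tangential eigenvalues: elimination of the third derivatives

`normK k x` bounds the squares of `∑ i, l i * x i` and of the part of `∑ i, l i ^ 2 * x i`
orthogonal to it. The constants depend on `l k`, the cubic invariant and the fourth moment of the
other four eigenvalues; the latter is bounded through the second and third moment.
-/

namespace Vale.Agent.P098.Div

open Finset

noncomputable section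

/-- The Gram number of `∑ i, l i * x i`. -/
def g11 (a : ℝ) : ℝ := 1 / 3 + 10 / 21 * a ^ 2

/-- The mixed Gram number. -/
def g12 (a t : ℝ) : ℝ := t / 3 - 2 / 21 * a + 10 / 21 * a ^ 3

/-- The Gram number of `∑ i, l i ^ 2 * x i` when the other four have fourth moment `Q`. -/
def g22 (a Q : ℝ) : ℝ :=
  let d := (2 * a ^ 2 + 1) / 7
  (a ^ 2 - d) ^ 2 + 1 / 3 * (Q - 2 * d * (1 - a ^ 2) + 4 * d ^ 2)

/-- The residual. -/
def resid (a t Q : ℝ) : ℝ := g22 a Q - g12 a t ^ 2 / g11 a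

/-- `1 - 5/4 a ^ 2`, the centred second moment of the other four eigenvalues. -/
def xres (a : ℝ) : ℝ := 1 - 5 / 4 * a ^ 2

/-- The deviation of the cubic invariant from the middle of its range. -/
def tdev (a t : ℝ) : ℝ := t - (15 / 8 * a ^ 3 - 3 / 4 * a)

theorem g11_pos (a : ℝ) : 0 < g11 a := by unfold g11; positivity

variable {l : Fin 5 → ℝ}

/-- The fourth moment of the other four eigenvalues. -/
def sumFour (l : Fin 5 → ℝ) (k : Fin 5) : ℝ := ∑ j, l (k.succAbove j) ^ 4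

theorem Spectrum.others (h : Spectrum l) (k : Fin 5) :
    ∑ j, l (k.succAbove j) = -l k ∧ ∑ j, l (k.succAbove j) ^ 2 = 1 - l k ^ 2
      ∧ ∑ j, l (k.succAbove j) ^ 3 = cubic l - l k ^ 3 := by
  have h1 := Fin.sum_univ_succAbove l k
  have h2 := Fin.sum_univ_succAbove (fun i => l i ^ 2) k
  have h3 := Fin.sum_univ_succAbove (fun i => l i ^ 3) k
  rw [h.sum] at h1
  rw [h.sq] at h2
  refine ⟨by linarith, by linarith, ?_⟩
  rw [cubic]
  linarith

/-- Moments of four numbers with sum zero. -/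
theorem four_moments (a : Fin 4 → ℝ) (h : ∑ i, a i = 0) :
    3 * (∑ i, a i ^ 3) ^ 2 ≤ (∑ i, a i ^ 2) ^ 3 ∧
    4 * (∑ i, a i ^ 2) * ∑ i, a i ^ 4 ≤ 2 * (∑ i, a i ^ 2) ^ 3 + (∑ i, a i ^ 3) ^ 2 ∧
    12 * ∑ i, a i ^ 4 ≤ 7 * (∑ i, a i ^ 2) ^ 2 := by
  simp only [Fin.sum_univ_four] at h ⊢
  obtain ⟨u, w, z, e0, e1, e2, e3⟩ : ∃ u w z : ℝ,
      a 0 = u + w ∧ a 1 = u - w ∧ a 2 = -u + z ∧ a 3 = -u - z :=
    ⟨(a 0 + a 1) / 2, (a 0 - a 1) / 2, (a 2 - a 3) / 2, by ring, by ring, by linarith, by linarith⟩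
  set U := u ^ 2 with hU
  set W := w ^ 2 with hW
  set Z := z ^ 2 with hZ
  have hu : 0 ≤ U := sq_nonneg u
  have hw : 0 ≤ W := sq_nonneg w
  have hz : 0 ≤ Z := sq_nonneg z
  have m2 : a 0 ^ 2 + a 1 ^ 2 + a 2 ^ 2 + a 3 ^ 2 = 2 * (2 * U + W + Z) := by
    rw [e0, e1, e2, e3, hU, hW, hZ]; ring
  have m3 : a 0 ^ 3 + a 1 ^ 3 + a 2 ^ 3 + a 3 ^ 3 = 6 * u * (W - Z) := by
    rw [e0, e1, e2, e3, hW, hZ]; ring
  have m4 : a 0 ^ 4 + a 1 ^ 4 + a 2 ^ 4 + a 3 ^ 4
      = 2 * (2 * U + W + Z) ^ 2 - 4 * ((U - W) * (U - Z)) := by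
    rw [e0, e1, e2, e3, hU, hW, hZ]; ring
  have hT : 3 * (6 * u * (W - Z)) ^ 2 ≤ (2 * (2 * U + W + Z)) ^ 3 := by
    rw [show (6 * u * (W - Z)) ^ 2 = 36 * U * (W - Z) ^ 2 by rw [hU]; ring]
    have hWZ : (W - Z) ^ 2 ≤ (W + Z) ^ 2 := by nlinarith [mul_nonneg hw hz]
    nlinarith [mul_le_mul_of_nonneg_left hWZ hu,
      mul_nonneg (add_nonneg (mul_nonneg (by norm_num : (0 : ℝ) ≤ 8) hu) (add_nonneg hw hz))
        (sq_nonneg (4 * U - (W + Z)))]
  have hQ : 4 * (2 * (2 * U + W + Z)) * (2 * (2 * U + W + Z) ^ 2 - 4 * ((U - W) * (U - Z)))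
      ≤ 2 * (2 * (2 * U + W + Z)) ^ 3 + (6 * u * (W - Z)) ^ 2 := by
    rw [show (6 * u * (W - Z)) ^ 2 = 36 * U * (W - Z) ^ 2 by rw [hU]; ring]
    set s := W + Z
    have hs : 0 ≤ s := add_nonneg hw hz
    have key : 0 ≤ 9 / 4 * U * (W - Z) ^ 2 + 2 * ((U - W) * (U - Z)) * (2 * U + W + Z) := by
      rcases eq_or_lt_of_le hs with h0 | h0
      · have hW0 : W = 0 := by linarith
        have hZ0 : Z = 0 := by linarith
        rw [hW0, hZ0]
        nlinarith [mul_nonneg hu (mul_nonneg hu hu)]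
      · refine nonneg_of_mul_nonneg_right ?_ (pow_pos h0 2)
        have e : s ^ 2 * (9 / 4 * U * (W - Z) ^ 2 + 2 * ((U - W) * (U - Z)) * (2 * U + W + Z))
            = (W - Z) ^ 2 * (U * (2 * U - s / 2) ^ 2)
              + 4 * (W * Z) * (2 * (U - s / 2) ^ 2 * (2 * U + s)) := by simp only [s]; ring
        rw [e]
        positivity
    nlinarith [key]
  refine ⟨by rw [m2, m3]; exact hT, by rw [m2, m3, m4]; exact hQ, ?_⟩
  rw [m2, m4]
  rcases eq_or_lt_of_le (show 0 ≤ 2 * U + W + Z by positivity) with h0 | h0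
  · have hU0 : U = 0 := by linarith
    have hW0 : W = 0 := by linarith
    have hZ0 : Z = 0 := by linarith
    rw [hU0, hW0, hZ0]
    norm_num
  · nlinarith [hT, hQ]

/-- The range of the cubic invariant and the bound of the fourth moment. -/
theorem Spectrum.range5 (h : Spectrum l) (k : Fin 5) :
    0 ≤ xres (l k) ∧ 3 * tdev (l k) (cubic l) ^ 2 ≤ xres (l k) ^ 3 ∧
    ∃ A, sumFour l k = l k ^ 4 / 64 + 3 / 8 * l k ^ 2 * xres (l k)
        - l k * tdev (l k) (cubic l) + A ∧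
      4 * xres (l k) * A ≤ 2 * xres (l k) ^ 3 + tdev (l k) (cubic l) ^ 2 ∧
      12 * A ≤ 7 * xres (l k) ^ 2 := by
  obtain ⟨h1, h2, h3⟩ := h.others k
  set a : Fin 4 → ℝ := fun j => l (k.succAbove j) + l k / 4
  have ha : ∑ j, a j = 0 := by
    simp only [a, sum_add_distrib, h1, sum_const, card_univ, Fintype.card_fin, nsmul_eq_mul]
    ring
  have q2 : ∑ j, a j ^ 2 = xres (l k) := by
    simp only [a, xres, Fin.sum_univ_four] at h1 h2 ⊢
    linear_combination l k / 2 * h1 + h2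
  have q3 : ∑ j, a j ^ 3 = tdev (l k) (cubic l) := by
    simp only [a, tdev, Fin.sum_univ_four] at h1 h2 h3 ⊢
    linear_combination 3 * l k ^ 2 / 16 * h1 + 3 * l k / 4 * h2 + h3
  obtain ⟨m3, m4, m4'⟩ := four_moments a ha
  rw [q2, q3] at m3 m4
  rw [q2] at m4'
  refine ⟨by rw [← q2]; positivity, m3, ∑ j, a j ^ 4, ?_, m4, m4'⟩
  rw [← q2, ← q3]
  simp only [a, sumFour, Fin.sum_univ_four] at h1 h2 ⊢
  linear_combination (-(l k) ^ 3 / 16) * h1

/-- The elimination of `x`. -/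
theorem Spectrum.normK_ge (h : Spectrum l) (k : Fin 5) {x : Fin 5 → ℝ} (hx : ∑ i, x i = 0) {σ : ℝ}
    (hσ : 0 < σ) (hS : resid (l k) (cubic l) (sumFour l k) ≤ σ) :
    nu l x ^ 2 / g11 (l k)
      + (mu l x - g12 (l k) (cubic l) / g11 (l k) * nu l x) ^ 2 / σ ≤ normK k x := by
  obtain ⟨h1, h2, h3⟩ := h.others k
  have hg := g11_pos (l k)
  set a := l k
  set t := cubic l
  set κ := g12 a t / g11 a
  set N := nu l x
  set R := mu l x - κ * N
  set f : Fin 5 → ℝ := fun i => l i - 2 / 7 * a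
  set r : Fin 5 → ℝ := fun i => (l i ^ 2 - (2 * a ^ 2 + 1) / 7) - κ * f i
  have hx' := Fin.sum_univ_succAbove x k
  have hN : N = f k * x k + ∑ j, f (k.succAbove j) * x (k.succAbove j) := by
    rw [← Fin.sum_univ_succAbove (fun i => f i * x i) k]
    simp only [N, nu, f, sub_mul, sum_sub_distrib, ← mul_sum, hx, mul_zero, sub_zero]
  have hR : R = r k * x k + ∑ j, r (k.succAbove j) * x (k.succAbove j) := by
    rw [← Fin.sum_univ_succAbove (fun i => r i * x i) k]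
    simp only [R, N, nu, mu, r, f, sub_mul, mul_sub, mul_assoc, sum_sub_distrib, ← mul_sum, hx,
      mul_zero, sub_zero]
  have hK : normK k x = x k ^ 2 + 3 * ∑ j, x (k.succAbove j) ^ 2 := by
    rw [normK, Fin.sum_univ_succAbove _ k, mul_sum]
    simp [Fin.succAbove_ne]
  set A := N / g11 a
  set B := R / σ
  have sq : 0 ≤ (x k - (A * f k + B * r k)) ^ 2
      + ∑ j, 3 * (x (k.succAbove j) - (A * f (k.succAbove j) + B * r (k.succAbove j)) / 3) ^ 2 := by
    positivity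
  have e11 : f k ^ 2 + (∑ j, f (k.succAbove j) ^ 2) / 3 = g11 a := by
    simp only [f, g11, Fin.sum_univ_four] at h1 h2 ⊢
    linear_combination (-4 / 21 * a) * h1 + 1 / 3 * h2
  have eq' : (f k * (a ^ 2 - (2 * a ^ 2 + 1) / 7))
      + (∑ j, f (k.succAbove j) * (l (k.succAbove j) ^ 2 - (2 * a ^ 2 + 1) / 7)) / 3 = g12 a t := by
    simp only [f, g12, Fin.sum_univ_four] at h1 h2 h3 ⊢
    linear_combination (-(2 * a ^ 2 + 1) / 21) * h1 - 2 / 21 * a * h2 + 1 / 3 * h3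
  have e22 : (a ^ 2 - (2 * a ^ 2 + 1) / 7) ^ 2
      + (∑ j, (l (k.succAbove j) ^ 2 - (2 * a ^ 2 + 1) / 7) ^ 2) / 3 = g22 a (sumFour l k) := by
    simp only [g22, sumFour, Fin.sum_univ_four] at h2 ⊢
    linear_combination (-2 * (2 * a ^ 2 + 1) / 21) * h2
  have ek : κ * g11 a = g12 a t := div_mul_cancel₀ _ hg.ne'
  have e12 : f k * r k + (∑ j, f (k.succAbove j) * r (k.succAbove j)) / 3 = 0 := by
    simp only [r, Fin.sum_univ_four] at e11 eq' ⊢
    linear_combination eq' - κ * e11 - ek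
  have eS : r k ^ 2 + (∑ j, r (k.succAbove j) ^ 2) / 3 = resid a t (sumFour l k) := by
    rw [resid, show g12 a t ^ 2 / g11 a = κ * g12 a t by simp only [κ]; ring]
    simp only [r, Fin.sum_univ_four] at e11 eq' e22 ⊢
    linear_combination e22 - 2 * κ * eq' + κ ^ 2 * e11 + κ * ek
  have key : 0 ≤ normK k x - 2 * (A * N + B * R) + (A ^ 2 * g11 a + B ^ 2 * resid a t (sumFour l k)) := by
    convert sq using 1
    rw [hK, ← e11, ← eS]
    simp only [hN, hR, Fin.sum_univ_four] at e12 ⊢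
    linear_combination (-2 * A * B) * e12
  have hA : A * g11 a = N := div_mul_cancel₀ _ hg.ne'
  have hB : B * σ = R := div_mul_cancel₀ _ hσ.ne'
  rw [show N ^ 2 / g11 a = A * N by simp only [A]; ring, show R ^ 2 / σ = B * R by simp only [B]; ring]
  have hA2 : A ^ 2 * g11 a = A * N := by rw [← hA]; ring
  have hB2 : B ^ 2 * resid a t (sumFour l k) ≤ B * R := by
    rw [← hB, show B * (B * σ) = B ^ 2 * σ by ring]
    exact mul_le_mul_of_nonneg_left hS (sq_nonneg B)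
  linarith

end

end Vale.Agent.P098.Div
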