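import Vale.Agent.P098.Div.Interior

/-!
# P098: sizes and continuity of the interior and boundary expressions in the regularisation

With `a` the regularised length of the Hessian and `M = (|T| + a) / a`, the interior expression is
`O(a M^2)` and the boundary expression `O(a^2)`, uniformly on compact sets; both are continuous where
`a` does not vanish.
-/

namespace Vale.Agent.P098.Div

open Vale.Agent.P098.Cone Vale.Agent.P098.Jet
open Set Filter Topology Asymptotics
open scoped ContDiff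

set_option linter.unusedSectionVars false

noncomputable section

variable {d : ℕ} {u w : (Fin d → ℝ) → ℝ} {O K : Set (Fin d → ℝ)} {γ : ℝ} {c : FieldsX}

/-- The parameters: a regularisation in `(0, 1]` and a point of a compact set. -/
def params (K : Set (Fin d → ℝ)) : Filter (ℝ × (Fin d → ℝ)) := 𝓟 (Ioc 0 1 ×ˢ K)

/-- `a ^ i * M ^ j`. -/
def size (w : (Fin d → ℝ) → ℝ) (i j : ℕ) (p : ℝ × (Fin d → ℝ)) : ℝ :=
  regLen w p.1 p.2 ^ i
    * ((√(dot3 (third w p.2) (third w p.2)) + regLen w p.1 p.2) / regLen w p.1 p.2) ^ j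

section bounds

variable (h : RegularCone u O w) (h0 : (0 : Fin d → ℝ) ∉ O) (hK : IsCompact K) (hKO : K ⊆ O)
  (hc : c.Smooth)
include h h0 hK hKO hc

theorem param_facts {p : ℝ × (Fin d → ℝ)} (hp : p ∈ Ioc (0 : ℝ) 1 ×ˢ K) :
    0 < p.1 ∧ p.1 ≤ 1 ∧ p.2 ∈ K ∧ 0 < regLen w p.1 p.2 ∧ 0 < dot p.2 p.2 := by
  obtain ⟨⟨h1, h2⟩, h3⟩ := hp
  have hz : p.2 ≠ 0 := fun e => h0 (e ▸ hKO h3)
  exact ⟨h1, h2, h3, Real.sqrt_pos.2 (regSq_pos h1 hz), dot_self_pos hz⟩

theorem M_ge {p : ℝ × (Fin d → ℝ)} (hp : p ∈ Ioc (0 : ℝ) 1 ×ˢ K) :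
    1 ≤ (√(dot3 (third w p.2) (third w p.2)) + regLen w p.1 p.2) / regLen w p.1 p.2 := by
  rw [one_le_div (param_facts h h0 hK hKO hc hp).2.2.2.1]
  linarith [Real.sqrt_nonneg (dot3 (third w p.2) (third w p.2))]

theorem size_nonneg {p : ℝ × (Fin d → ℝ)} (hp : p ∈ Ioc (0 : ℝ) 1 ×ˢ K) (i j : ℕ) :
    0 ≤ size w i j p :=
  mul_nonneg (pow_nonneg (param_facts h h0 hK hKO hc hp).2.2.2.1.le i)
    (pow_nonneg (zero_le_one.trans (M_ge h h0 hK hKO hc hp)) j)

theorem isBigO_of_le {f : ℝ × (Fin d → ℝ) → ℝ} {i j : ℕ} (C : ℝ)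
    (hf : ∀ p ∈ Ioc (0 : ℝ) 1 ×ˢ K, |f p| ≤ C * size w i j p) :
    f =O[params K] size w i j :=
  IsBigO.of_bound C (eventually_principal.2 fun p hp => by
    rw [Real.norm_eq_abs, Real.norm_eq_abs, abs_of_nonneg (size_nonneg h h0 hK hKO hc hp i j)]
    exact hf p hp)

theorem size_len : (fun p : ℝ × (Fin d → ℝ) => regLen w p.1 p.2) =O[params K] size w 1 0 :=
  isBigO_of_le h h0 hK hKO hc 1 fun p hp => by
    rw [size, pow_one, pow_zero, mul_one, one_mul, abs_of_pos (param_facts h h0 hK hKO hc hp).2.2.2.1]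

theorem size_point {g : (Fin d → ℝ) → ℝ} (hg : ContinuousOn g K) :
    (fun p : ℝ × (Fin d → ℝ) => g p.2) =O[params K] size w 0 0 := by
  obtain ⟨C, hC⟩ := hK.exists_bound_of_continuousOn hg
  refine isBigO_of_le h h0 hK hKO hc C fun p hp => ?_
  simpa [size] using hC p.2 hp.2

theorem size_const (r : ℝ) : (fun _ : ℝ × (Fin d → ℝ) => r) =O[params K] size w 0 0 :=
  size_point h h0 hK hKO hc (g := fun _ => r) continuousOn_const

theorem size_mono {f : ℝ × (Fin d → ℝ) → ℝ} {i j i' j' : ℕ} (hf : f =O[params K] size w i j)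
    (hi : i' ≤ i) (hj : j ≤ j') : f =O[params K] size w i' j' := by
  obtain ⟨B, hB⟩ := hK.exists_bound_of_continuousOn
    (f := fun z => √(regSq w 1 z)) ((contDiffOn_regSq h.smooth h.isOpen h0 1).continuousOn.sqrt.mono hKO)
  refine hf.trans (isBigO_of_le h h0 hK hKO hc (max B 0 ^ (i - i')) fun p hp => ?_)
  obtain ⟨hp1, hp2, hpK, ha, hR⟩ := param_facts h h0 hK hKO hc hp
  have hM := M_ge h h0 hK hKO hc hp
  rw [abs_of_nonneg (size_nonneg h h0 hK hKO hc hp i j), size, size, ← mul_assoc]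
  have hle : regLen w p.1 p.2 ≤ max B 0 := by
    refine le_trans ?_ ((le_abs_self _).trans ((hB p.2 hpK).trans (le_max_left _ _)))
    refine Real.sqrt_le_sqrt ?_
    simp only [regSq]
    have := mul_le_mul_of_nonneg_right hp2 (inv_nonneg.2 hR.le)
    linarith
  refine mul_le_mul ?_ (pow_le_pow_right₀ hM hj) (pow_nonneg (zero_le_one.trans hM) _)
    (mul_nonneg (pow_nonneg (le_max_right _ _) _) (pow_nonneg ha.le _))
  calc regLen w p.1 p.2 ^ i = regLen w p.1 p.2 ^ (i - i') * regLen w p.1 p.2 ^ i' := by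
        rw [← pow_add, Nat.sub_add_cancel hi]
    _ ≤ _ := mul_le_mul_of_nonneg_right (pow_le_pow_left₀ ha.le hle _) (pow_nonneg ha.le _)

theorem size_mul {f g : ℝ × (Fin d → ℝ) → ℝ} {i j i' j' : ℕ} (hf : f =O[params K] size w i j)
    (hg : g =O[params K] size w i' j') : (fun p => f p * g p) =O[params K] size w (i + i') (j + j') :=
  (hf.mul hg).congr_right fun p => by simp only [size, pow_add]; ring

theorem size_mul_bd {f g : ℝ × (Fin d → ℝ) → ℝ} {i j : ℕ} (hf : f =O[params K] size w i j)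
    (hg : g =O[params K] size w 0 0) : (fun p => f p * g p) =O[params K] size w i j := by
  simpa using size_mul h h0 hK hKO hc hf hg

theorem size_bd_mul {f g : ℝ × (Fin d → ℝ) → ℝ} {i j : ℕ} (hf : f =O[params K] size w 0 0)
    (hg : g =O[params K] size w i j) : (fun p => f p * g p) =O[params K] size w i j := by
  simpa using size_mul h h0 hK hKO hc hf hg

theorem size_sum {ι : Type*} [Fintype ι] {f : ι → ℝ × (Fin d → ℝ) → ℝ} {i j : ℕ}
    (hf : ∀ k, f k =O[params K] size w i j) : (fun p => ∑ k, f k p) =O[params K] size w i j :=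
  IsBigO.fun_sum fun k _ => hf k

theorem size_div {f : ℝ × (Fin d → ℝ) → ℝ} {i j k : ℕ} (n : ℕ) (hf : f =O[params K] size w k j)
    (hk : i + n = k) : (fun p => f p / regLen w p.1 p.2 ^ n) =O[params K] size w i j := by
  subst hk
  have h1 := hf.mul (isBigO_refl (fun p : ℝ × (Fin d → ℝ) => (regLen w p.1 p.2 ^ n)⁻¹) (params K))
  refine (h1.congr_left fun p => (div_eq_mul_inv _ _).symm).trans (IsBigO.of_bound 1 ?_)
  refine eventually_principal.2 fun p hp => le_of_eq ?_
  have := (param_facts h h0 hK hKO hc hp).2.2.2.1.ne'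
  rw [one_mul]
  congr 1
  rw [size, size, pow_add]
  field_simp

theorem size_dot {p q : ℝ × (Fin d → ℝ) → Fin d → ℝ} {i j i' j' : ℕ}
    (hp : ∀ k, (fun x => p x k) =O[params K] size w i j)
    (hq : ∀ k, (fun x => q x k) =O[params K] size w i' j') :
    (fun x => dot (p x) (q x)) =O[params K] size w (i + i') (j + j') :=
  size_sum h h0 hK hKO hc fun k => size_mul h h0 hK hKO hc (hp k) (hq k)

theorem size_hess (i j : Fin d) :
    (fun p : ℝ × (Fin d → ℝ) => hess w i j p.2) =O[params K] size w 1 0 :=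
  isBigO_of_le h h0 hK hKO hc 1 fun p hp => by
    obtain ⟨h1, -, -, -, hR⟩ := param_facts h h0 hK hKO hc hp
    rw [size, pow_one, pow_zero, mul_one, one_mul, regLen]
    refine Real.abs_le_sqrt ?_
    rw [sq, regSq]
    have h2 : hess w i j p.2 * hess w i j p.2 ≤ hessSq w p.2 :=
      (Finset.single_le_sum (f := fun l => hess w i l p.2 * hess w i l p.2) (fun l _ => mul_self_nonneg _)
        (Finset.mem_univ j)).trans (Finset.single_le_sum (f := fun k => ∑ l, hess w k l p.2 * hess w k l p.2)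
        (fun k _ => Finset.sum_nonneg fun l _ => mul_self_nonneg _) (Finset.mem_univ i))
    linarith [mul_nonneg h1.le (inv_nonneg.2 hR.le)]

theorem size_third (i j k : Fin d) :
    (fun p : ℝ × (Fin d → ℝ) => third w p.2 i j k) =O[params K] size w 1 1 :=
  isBigO_of_le h h0 hK hKO hc 1 fun p hp => by
    obtain ⟨-, -, -, ha, -⟩ := param_facts h h0 hK hKO hc hp
    rw [size, pow_one, pow_one, one_mul, mul_div_cancel₀ _ ha.ne']
    refine le_trans (Real.abs_le_sqrt ?_) (le_add_of_nonneg_right ha.le)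
    rw [sq]
    exact ((Finset.single_le_sum (f := fun c => third w p.2 i j c * third w p.2 i j c)
      (fun c _ => mul_self_nonneg _) (Finset.mem_univ k)).trans
      (Finset.single_le_sum (f := fun b => ∑ c, third w p.2 i b c * third w p.2 i b c)
        (fun b _ => Finset.sum_nonneg fun c _ => mul_self_nonneg _) (Finset.mem_univ j))).trans
      (Finset.single_le_sum (f := fun a => ∑ b, ∑ c, third w p.2 a b c * third w p.2 a b c)
        (fun a _ => Finset.sum_nonneg fun b _ => Finset.sum_nonneg fun c _ => mul_self_nonneg _) (Finset.mem_univ i))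

theorem size_inv : (fun p : ℝ × (Fin d → ℝ) => (dot p.2 p.2)⁻¹) =O[params K] size w 0 0 :=
  size_point h h0 hK hKO hc (g := fun z => (dot z z)⁻¹)
    (contDiff_dot_self.continuous.continuousOn.inv₀ fun z hz =>
      (dot_self_pos fun e : z = 0 => h0 (e ▸ hKO hz)).ne')

theorem size_delta :
    (fun p : ℝ × (Fin d → ℝ) => p.1 * (dot p.2 p.2 ^ 2)⁻¹) =O[params K] size w 2 0 := by
  have h1 : (fun p : ℝ × (Fin d → ℝ) => p.1 * (dot p.2 p.2)⁻¹) =O[params K] size w 2 0 :=
    isBigO_of_le h h0 hK hKO hc 1 fun p hp => by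
      obtain ⟨h1, -, -, ha, hR⟩ := param_facts h h0 hK hKO hc hp
      rw [size, pow_zero, mul_one, one_mul, abs_of_nonneg (mul_nonneg h1.le (inv_nonneg.2 hR.le)), sq]
      rw [regLen, Real.mul_self_sqrt (regSq_pos h1 fun e : p.2 = 0 => h0 (e ▸ hKO hp.2)).le, regSq]
      have hs : 0 ≤ hessSq w p.2 :=
        Finset.sum_nonneg (s := Finset.univ) fun i _ =>
          Finset.sum_nonneg (s := Finset.univ) fun j _ => mul_self_nonneg (hess w i j p.2)
      linarith
  exact (size_mul_bd h h0 hK hKO hc h1 (size_inv h h0 hK hKO hc)).congr_left fun p => by ring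

theorem size_w : (fun p : ℝ × (Fin d → ℝ) => w p.2) =O[params K] size w 0 0 :=
  size_point h h0 hK hKO hc (h.smooth.continuousOn.mono hKO)

theorem size_pd (k : Fin d) : (fun p : ℝ × (Fin d → ℝ) => pd w k p.2) =O[params K] size w 0 0 :=
  size_point h h0 hK hKO hc ((contDiffOn_pd h.smooth h.isOpen k).continuousOn.mono hKO)

theorem size_coord (k : Fin d) : (fun p : ℝ × (Fin d → ℝ) => p.2 k) =O[params K] size w 0 0 :=
  size_point h h0 hK hKO hc (g := fun z => z k) (continuous_apply k).continuousOn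

theorem size_rad : (fun p : ℝ × (Fin d → ℝ) => len p.2) =O[params K] size w 0 0 :=
  size_point h h0 hK hKO hc ((contDiffOn_len h0).continuousOn.mono hKO)

theorem size_rad_inv : (fun p : ℝ × (Fin d → ℝ) => (len p.2)⁻¹) =O[params K] size w 0 0 :=
  size_point h h0 hK hKO hc (g := fun z => (len z)⁻¹)
    (((contDiffOn_len h0).continuousOn.mono hKO).inv₀ fun z hz =>
      (len_pos fun e : z = 0 => h0 (e ▸ hKO hz)).ne')

theorem size_hessSq : (fun p : ℝ × (Fin d → ℝ) => hessSq w p.2) =O[params K] size w 2 0 :=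
  size_sum h h0 hK hKO hc fun i => size_sum h h0 hK hKO hc fun j =>
    size_mul h h0 hK hKO hc (size_hess h h0 hK hKO hc i j) (size_hess h h0 hK hKO hc i j)

theorem size_sqMat (i j : Fin d) :
    (fun p : ℝ × (Fin d → ℝ) => sqMat (hessMat w p.2) i j) =O[params K] size w 2 0 :=
  size_sum h h0 hK hKO hc fun k =>
    size_mul h h0 hK hKO hc (size_hess h h0 hK hKO hc i k) (size_hess h h0 hK hKO hc k j)

theorem size_cube : (fun p : ℝ × (Fin d → ℝ) => cube w p.2) =O[params K] size w 3 0 :=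
  size_sum h h0 hK hKO hc fun i => size_sum h h0 hK hKO hc fun j => size_sum h h0 hK hKO hc fun k =>
    size_mul h h0 hK hKO hc (size_mul h h0 hK hKO hc (size_hess h h0 hK hKO hc i k)
      (size_hess h h0 hK hKO hc k j)) (size_hess h h0 hK hKO hc i j)

theorem size_tA (k : Fin d) : (fun p : ℝ × (Fin d → ℝ) => tA w p.2 k) =O[params K] size w 2 1 :=
  size_sum h h0 hK hKO hc fun i => size_sum h h0 hK hKO hc fun j =>
    size_mul h h0 hK hKO hc (size_third h h0 hK hKO hc i j k) (size_hess h h0 hK hKO hc i j)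

theorem size_tAA (k : Fin d) : (fun p : ℝ × (Fin d → ℝ) => tAA w p.2 k) =O[params K] size w 3 1 :=
  size_sum h h0 hK hKO hc fun i => size_sum h h0 hK hKO hc fun j =>
    size_mul h h0 hK hKO hc (size_third h h0 hK hKO hc i j k) (size_sqMat h h0 hK hKO hc i j)

theorem size_gA (k : Fin d) :
    (fun p : ℝ × (Fin d → ℝ) => gA w p.1 p.2 k) =O[params K] size w 1 1 :=
  (size_div h h0 hK hKO hc 1 (i := 1) ((size_tA h h0 hK hKO hc k).sub
    (size_mono h h0 hK hKO hc (size_mul_bd h h0 hK hKO hc (size_delta h h0 hK hKO hc)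
      (size_coord h h0 hK hKO hc k)) le_rfl zero_le_one)) rfl).congr_left fun p => by
    simp only [gA, pow_one]

theorem size_lA : (fun p : ℝ × (Fin d → ℝ) => lA w p.1 p.2) =O[params K] size w 1 2 := by
  have h1 : (fun p : ℝ × (Fin d → ℝ) => dot3 (third w p.2) (third w p.2)) =O[params K] size w 2 2 :=
    size_sum h h0 hK hKO hc fun i => size_sum h h0 hK hKO hc fun j => size_sum h h0 hK hKO hc fun k =>
      size_mul h h0 hK hKO hc (size_third h h0 hK hKO hc i j k) (size_third h h0 hK hKO hc i j k)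
  have h2 := size_mono h h0 hK hKO hc (size_mul_bd h h0 hK hKO hc (size_delta h h0 hK hKO hc)
    (size_const h h0 hK hKO hc (4 - (d : ℝ)))) (le_refl 2) (Nat.zero_le 2)
  have h3 := size_dot h h0 hK hKO hc (size_gA h h0 hK hKO hc) (size_gA h h0 hK hKO hc)
  exact (size_div h h0 hK hKO hc 1 (i := 1) ((h1.add h2).sub h3) rfl).congr_left fun p => by
    simp only [lA, pow_one]; ring

theorem size_gS (k : Fin d) : (fun p : ℝ × (Fin d → ℝ) => gS w p.1 p.2 k) =O[params K] size w 1 1 :=
  ((size_bd_mul h h0 hK hKO hc (size_rad h h0 hK hKO hc) (size_gA h h0 hK hKO hc k)).add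
    (size_mono h h0 hK hKO hc (size_mul_bd h h0 hK hKO hc (size_len h h0 hK hKO hc)
      (size_mul_bd h h0 hK hKO hc (size_coord h h0 hK hKO hc k) (size_rad_inv h h0 hK hKO hc)))
      le_rfl zero_le_one)).congr_left fun p => by simp only [gS, div_eq_mul_inv]

theorem size_lS : (fun p : ℝ × (Fin d → ℝ) => lS w p.1 p.2) =O[params K] size w 1 2 :=
  (((size_bd_mul h h0 hK hKO hc (size_rad h h0 hK hKO hc) (size_lA h h0 hK hKO hc)).add
    (size_mono h h0 hK hKO hc (size_mul_bd h h0 hK hKO hc (size_len h h0 hK hKO hc)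
      (size_mul_bd h h0 hK hKO hc (size_const h h0 hK hKO hc ((d : ℝ) - 1))
        (size_rad_inv h h0 hK hKO hc))) le_rfl (Nat.zero_le 2))).add
    (size_mono h h0 hK hKO hc (size_bd_mul h h0 hK hKO hc (size_const h h0 hK hKO hc 2)
      (size_dot h h0 hK hKO hc
        (fun k => size_mul_bd h h0 hK hKO hc (size_coord h h0 hK hKO hc k)
          (size_rad_inv h h0 hK hKO hc)) (size_gA h h0 hK hKO hc))) (by norm_num) (by norm_num))).congr_left
    fun p => by simp only [lS, div_eq_mul_inv]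

theorem size_aField (k : Fin d) :
    (fun p : ℝ × (Fin d → ℝ) => aField w k p.2) =O[params K] size w 1 0 :=
  size_sum h h0 hK hKO hc fun j =>
    size_mul_bd h h0 hK hKO hc (size_hess h h0 hK hKO hc k j) (size_pd h h0 hK hKO hc j)

theorem size_bField (k : Fin d) :
    (fun p : ℝ × (Fin d → ℝ) => bField w k p.2) =O[params K] size w 2 0 :=
  size_sum h h0 hK hKO hc fun j =>
    size_mul h h0 hK hKO hc (size_hess h h0 hK hKO hc k j) (size_aField h h0 hK hKO hc j)

theorem size_pVec (k : Fin d) :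
    (fun p : ℝ × (Fin d → ℝ) => pVec w k p.2) =O[params K] size w 0 0 :=
  size_point h h0 hK hKO hc ((contDiffOn_pVec h h0 k).continuousOn.mono hKO)

theorem size_sVar : (fun p : ℝ × (Fin d → ℝ) => sVar w p.1 p.2) =O[params K] size w 1 0 :=
  size_bd_mul h h0 hK hKO hc (size_rad h h0 hK hKO hc) (size_len h h0 hK hKO hc)

theorem size_xi : (fun p : ℝ × (Fin d → ℝ) => xiVal w p.1 p.2) =O[params K] size w 0 0 :=
  isBigO_of_le h h0 hK hKO hc 1 fun p _ => by
    have h1 : 1 ≤ 1 + sVar w p.1 p.2 * sVar w p.1 p.2 :=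
      le_add_of_nonneg_right (mul_self_nonneg _)
    rw [size, pow_zero, pow_zero, one_mul, one_mul, xiVal,
      abs_of_nonneg (inv_nonneg.2 (zero_le_one.trans h1))]
    exact inv_le_one_of_one_le₀ h1

theorem size_xi_coef :
    (fun p : ℝ × (Fin d → ℝ) => -2 * sVar w p.1 p.2 * xiVal w p.1 p.2 ^ 2) =O[params K] size w 1 0 :=
  (size_mul_bd h h0 hK hKO hc (size_bd_mul h h0 hK hKO hc (size_const h h0 hK hKO hc (-2))
    (size_sVar h h0 hK hKO hc)) (size_mul_bd h h0 hK hKO hc (size_xi h h0 hK hKO hc)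
      (size_xi h h0 hK hKO hc))).congr_left fun p => by ring

theorem size_gArgs (i : Fin 4) (k : Fin d) :
    (fun p : ℝ × (Fin d → ℝ) => gArgs w p.1 p.2 i k) =O[params K] size w 0 1 := by
  fin_cases i
  · exact size_mono h h0 hK hKO hc ((size_bd_mul h h0 hK hKO hc (size_w h h0 hK hKO hc)
      (size_gA h h0 hK hKO hc k)).add (size_mono h h0 hK hKO hc
      (size_mul_bd h h0 hK hKO hc (size_len h h0 hK hKO hc) (size_pd h h0 hK hKO hc k)) le_rfl
      zero_le_one)) (Nat.zero_le 1) le_rfl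
  · exact size_mono h h0 hK hKO hc (size_bd_mul h h0 hK hKO hc (size_const h h0 hK hKO hc (-2))
      (size_aField h h0 hK hKO hc k)) (Nat.zero_le 1) zero_le_one
  · exact (size_div h h0 hK hKO hc 3 (i := 0)
      (size_bd_mul h h0 hK hKO hc (size_const h h0 hK hKO hc 3) (size_tAA h h0 hK hKO hc k)) rfl).sub
      (size_div h h0 hK hKO hc 4 (i := 0) (size_mul h h0 hK hKO hc (size_bd_mul h h0 hK hKO hc
        (size_const h h0 hK hKO hc 3) (size_cube h h0 hK hKO hc)) (size_gA h h0 hK hKO hc k)) rfl)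
  · exact size_mono h h0 hK hKO hc (size_mul h h0 hK hKO hc (size_xi_coef h h0 hK hKO hc)
      (size_gS h h0 hK hKO hc k)) (Nat.zero_le 2) le_rfl

theorem size_weighted : (fun p : ℝ × (Fin d → ℝ) =>
    ∑ i, ∑ j, hess w i j p.2 * ∑ l, ∑ k, third w p.2 i l k * third w p.2 j l k)
    =O[params K] size w 3 2 :=
  size_sum h h0 hK hKO hc fun i => size_sum h h0 hK hKO hc fun j => size_mul h h0 hK hKO hc
    (size_hess h h0 hK hKO hc i j) (size_sum h h0 hK hKO hc fun l => size_sum h h0 hK hKO hc fun k =>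
      size_mul h h0 hK hKO hc (size_third h h0 hK hKO hc i l k) (size_third h h0 hK hKO hc j l k))

theorem size_lArgs (i : Fin 4) :
    (fun p : ℝ × (Fin d → ℝ) => lArgs w p.1 p.2 i) =O[params K] size w 0 2 := by
  fin_cases i
  · exact size_mono h h0 hK hKO hc ((size_bd_mul h h0 hK hKO hc (size_w h h0 hK hKO hc)
      (size_lA h h0 hK hKO hc)).add (size_mono h h0 hK hKO hc (size_bd_mul h h0 hK hKO hc
      (size_const h h0 hK hKO hc 2) (size_dot h h0 hK hKO hc (size_pd h h0 hK hKO hc)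
        (size_gA h h0 hK hKO hc))) (by norm_num) (by norm_num))) (Nat.zero_le 1) le_rfl
  · exact size_mono h h0 hK hKO hc (size_bd_mul h h0 hK hKO hc (size_const h h0 hK hKO hc (-2))
      (size_hessSq h h0 hK hKO hc)) (Nat.zero_le 2) (Nat.zero_le 2)
  · have e1 := size_div h h0 hK hKO hc 3 (i := 0)
      (size_bd_mul h h0 hK hKO hc (size_const h h0 hK hKO hc 6) (size_weighted h h0 hK hKO hc)) rfl
    have e2 := size_div h h0 hK hKO hc 4 (i := 0) (size_bd_mul h h0 hK hKO hc
      (size_const h h0 hK hKO hc 18) (size_dot h h0 hK hKO hc (size_tAA h h0 hK hKO hc)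
        (size_gA h h0 hK hKO hc))) rfl
    have e3 := size_div h h0 hK hKO hc 5 (i := 0) (size_mul h h0 hK hKO hc (size_cube h h0 hK hKO hc)
      (size_bd_mul h h0 hK hKO hc (size_const h h0 hK hKO hc 12)
        (size_dot h h0 hK hKO hc (size_gA h h0 hK hKO hc) (size_gA h h0 hK hKO hc)))) rfl
    have e4 := size_div h h0 hK hKO hc 4 (i := 0) (size_mul h h0 hK hKO hc (size_cube h h0 hK hKO hc)
      (size_bd_mul h h0 hK hKO hc (size_const h h0 hK hKO hc 3) (size_lA h h0 hK hKO hc))) rfl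
    refine ((e1.sub e2).add (e3.sub e4)).congr_left fun p => ?_
    show _ = 6 * (∑ i, ∑ j, hess w i j p.2 * ∑ l, ∑ k, third w p.2 i l k * third w p.2 j l k)
          / regLen w p.1 p.2 ^ 3
        - 18 * dot (tAA w p.2) (gA w p.1 p.2) / regLen w p.1 p.2 ^ 4
        + cube w p.2 * (12 * dot (gA w p.1 p.2) (gA w p.1 p.2) / regLen w p.1 p.2 ^ 5
            - 3 * lA w p.1 p.2 / regLen w p.1 p.2 ^ 4)
    ring
  · have X := size_xi h h0 hK hKO hc
    have e1 := size_mono h h0 hK hKO hc (size_mul h h0 hK hKO hc (size_xi_coef h h0 hK hKO hc)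
      (size_lS h h0 hK hKO hc)) (Nat.zero_le 2) le_rfl
    have hco : (fun p : ℝ × (Fin d → ℝ) =>
        8 * sVar w p.1 p.2 ^ 2 * xiVal w p.1 p.2 ^ 3 - 2 * xiVal w p.1 p.2 ^ 2)
        =O[params K] size w 0 0 := by
      have S := size_mono h h0 hK hKO hc (size_sVar h h0 hK hKO hc) (Nat.zero_le 1) le_rfl
      have XX := size_mul_bd h h0 hK hKO hc X X
      exact ((size_bd_mul h h0 hK hKO hc (size_const h h0 hK hKO hc 8) (size_mul_bd h h0 hK hKO hc
        (size_mul_bd h h0 hK hKO hc S S) (size_mul_bd h h0 hK hKO hc XX X))).sub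
        (size_bd_mul h h0 hK hKO hc (size_const h h0 hK hKO hc 2) XX)).congr_left fun p => by ring
    exact e1.add (size_mono h h0 hK hKO hc (size_bd_mul h h0 hK hKO hc hco
      (size_dot h h0 hK hKO hc (size_gS h h0 hK hKO hc) (size_gS h h0 hK hKO hc)))
      (Nat.zero_le 2) le_rfl)

theorem size_fun {f : (Fin 4 → ℝ) → ℝ} (hf : Continuous f) :
    (fun p : ℝ × (Fin d → ℝ) => f (argv w p.1 p.2)) =O[params K] size w 0 0 := by
  have hi : ∀ i : Fin 4,
      (fun p : ℝ × (Fin d → ℝ) => args w p.1 i p.2) =O[params K] size w 0 0 := by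
    intro i
    fin_cases i
    · exact size_mono h h0 hK hKO hc (size_bd_mul h h0 hK hKO hc (size_w h h0 hK hKO hc)
        (size_len h h0 hK hKO hc)) (Nat.zero_le 1) le_rfl
    · exact (size_const h h0 hK hKO hc 1).sub
        (size_dot h h0 hK hKO hc (size_pd h h0 hK hKO hc) (size_pd h h0 hK hKO hc))
    · exact (size_div h h0 hK hKO hc 3 (i := 0) (size_cube h h0 hK hKO hc) rfl).congr_left fun p => by
        simp [args, div_eq_mul_inv]
    · exact size_xi h h0 hK hKO hc
  choose C hC using fun i => (hi i).bound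
  simp only [params, eventually_principal, size, pow_zero, mul_one, norm_one] at hC
  set B := ∑ i, |C i|
  obtain ⟨D, hD⟩ := (isCompact_closedBall (0 : Fin 4 → ℝ) B).exists_bound_of_continuousOn hf.continuousOn
  refine isBigO_of_le h h0 hK hKO hc D fun p hp => ?_
  rw [size, pow_zero, pow_zero, one_mul, mul_one]
  refine (Real.norm_eq_abs _).symm.trans_le (hD _ ?_)
  rw [mem_closedBall_zero_iff, pi_norm_le_iff_of_nonneg (Finset.sum_nonneg fun i _ => abs_nonneg _)]
  exact fun i => (hC i p hp).trans ((le_abs_self _).trans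
    (Finset.single_le_sum (fun j _ => abs_nonneg (C j)) (Finset.mem_univ i)))

theorem size_pdF (i : Fin 4) {f : (Fin 4 → ℝ) → ℝ} (hf : ContDiff ℝ ∞ f) :
    (fun p : ℝ × (Fin d → ℝ) => pd f i (argv w p.1 p.2)) =O[params K] size w 0 0 :=
  size_fun h h0 hK hKO hc (contDiff_pd hf i).continuous

theorem size_gComp {f : (Fin 4 → ℝ) → ℝ} (hf : ContDiff ℝ ∞ f) (k : Fin d) :
    (fun p : ℝ × (Fin d → ℝ) => gComp f w p.1 p.2 k) =O[params K] size w 0 1 :=
  size_sum h h0 hK hKO hc fun i =>
    size_bd_mul h h0 hK hKO hc (size_pdF h h0 hK hKO hc i hf) (size_gArgs h h0 hK hKO hc i k)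

theorem size_lapPotential :
    (fun p : ℝ × (Fin d → ℝ) => lapPotential c w p.1 p.2) =O[params K] size w 1 2 := by
  have e1 := size_bd_mul h h0 hK hKO hc (size_fun h h0 hK hKO hc hc.F.continuous) (size_lS h h0 hK hKO hc)
  have e2 := size_bd_mul h h0 hK hKO hc (size_const h h0 hK hKO hc 2)
    (size_dot h h0 hK hKO hc (size_gS h h0 hK hKO hc) (size_gComp h h0 hK hKO hc hc.F))
  have e3 : (fun p : ℝ × (Fin d → ℝ) => (∑ i, ∑ j, hess c.F i j (argv w p.1 p.2)
        * dot (gArgs w p.1 p.2 i) (gArgs w p.1 p.2 j))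
      + ∑ i, pd c.F i (argv w p.1 p.2) * lArgs w p.1 p.2 i) =O[params K] size w 0 2 :=
    (size_sum h h0 hK hKO hc fun i => size_sum h h0 hK hKO hc fun j => size_bd_mul h h0 hK hKO hc
      (size_fun h h0 hK hKO hc (f := hess c.F i j) (contDiff_pd (contDiff_pd hc.F i) j).continuous)
      (size_dot h h0 hK hKO hc (size_gArgs h h0 hK hKO hc i) (size_gArgs h h0 hK hKO hc j))).add
    (size_sum h h0 hK hKO hc fun i =>
      size_bd_mul h h0 hK hKO hc (size_pdF h h0 hK hKO hc i hc.F) (size_lArgs h h0 hK hKO hc i))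
  exact (e1.add e2).add (size_mul h h0 hK hKO hc (size_sVar h h0 hK hKO hc) e3)

theorem size_divRest :
    (fun p : ℝ × (Fin d → ℝ) => divRest c w p.1 p.2) =O[params K] size w 1 2 := by
  have L := size_len h h0 hK hKO hc
  have LL := size_mul h h0 hK hKO hc L L
  have Al := size_fun h h0 hK hKO hc hc.al.continuous
  have Be := size_fun h h0 hK hKO hc hc.be.continuous
  have Ga := size_fun h h0 hK hKO hc hc.ga.continuous
  have e1 := size_mul h h0 hK hKO hc (size_mul_bd h h0 hK hKO hc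
    (size_bd_mul h h0 hK hKO hc (size_const h h0 hK hKO hc 2) L) Al)
    (size_dot h h0 hK hKO hc (size_gA h h0 hK hKO hc) (size_pVec h h0 hK hKO hc))
  have e2 := size_mul h h0 hK hKO hc LL
    (size_dot h h0 hK hKO hc (size_gComp h h0 hK hKO hc hc.al) (size_pVec h h0 hK hKO hc))
  have e3 := size_mul_bd h h0 hK hKO hc (size_mul_bd h h0 hK hKO hc (size_mul_bd h h0 hK hKO hc
    (size_mul_bd h h0 hK hKO hc LL Al) (size_const h h0 hK hKO hc ((d : ℝ) - 1)))
    (size_w h h0 hK hKO hc)) (size_inv h h0 hK hKO hc)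
  have e4 := size_bd_mul h h0 hK hKO hc Be
    (size_dot h h0 hK hKO hc (size_gA h h0 hK hKO hc) (size_aField h h0 hK hKO hc))
  have e5 := size_mul h h0 hK hKO hc L
    (size_dot h h0 hK hKO hc (size_gComp h h0 hK hKO hc hc.be) (size_aField h h0 hK hKO hc))
  have e6 := size_mul h h0 hK hKO hc (size_mul_bd h h0 hK hKO hc L Be) (size_hessSq h h0 hK hKO hc)
  have e7 := size_dot h h0 hK hKO hc (size_gComp h h0 hK hKO hc hc.ga) (size_bField h h0 hK hKO hc)
  have e8 := size_bd_mul h h0 hK hKO hc Ga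
    ((size_mono h h0 hK hKO hc (i' := 1) (j' := 2)
        (size_dot h h0 hK hKO hc (size_pd h h0 hK hKO hc) (size_tA h h0 hK hKO hc))
        (by norm_num) (by norm_num)).add
      (size_mono h h0 hK hKO hc (size_cube h h0 hK hKO hc) (by norm_num) (by norm_num)))
  refine size_bd_mul h h0 hK hKO hc (size_rad h h0 hK hKO hc) ?_
  exact (((((((size_mono h h0 hK hKO hc e1 (by norm_num) (by norm_num)).add
    (size_mono h h0 hK hKO hc e2 (by norm_num) (by norm_num))).sub
    (size_mono h h0 hK hKO hc e3 (by norm_num) (by norm_num))).add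
    (size_mono h h0 hK hKO hc e4 (by norm_num) (by norm_num))).add
    (size_mono h h0 hK hKO hc e5 (by norm_num) (by norm_num))).add
    (size_mono h h0 hK hKO hc e6 (by norm_num) (by norm_num))).add
    (size_mono h h0 hK hKO hc e7 (by norm_num) (by norm_num))).add e8

theorem size_beta1 (k : Fin d) :
    (fun p : ℝ × (Fin d → ℝ) => beta1 w k p.2) =O[params K] size w 2 1 :=
  (size_tA h h0 hK hKO hc k).add (size_mono h h0 hK hKO hc (size_mul_bd h h0 hK hKO hc
    (size_mul_bd h h0 hK hKO hc (size_hessSq h h0 hK hKO hc) (size_coord h h0 hK hKO hc k))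
    (size_inv h h0 hK hKO hc)) le_rfl zero_le_one)

theorem size_beta2 (k : Fin d) :
    (fun p : ℝ × (Fin d → ℝ) => beta2 w k p.2) =O[params K] size w 3 1 :=
  (size_tAA h h0 hK hKO hc k).add (size_mono h h0 hK hKO hc (size_mul_bd h h0 hK hKO hc
    (size_mul_bd h h0 hK hKO hc (size_cube h h0 hK hKO hc) (size_coord h h0 hK hKO hc k))
    (size_inv h h0 hK hKO hc)) le_rfl zero_le_one)

theorem size_divTri :
    (fun p : ℝ × (Fin d → ℝ) => divTri c w p.1 p.2) =O[params K] size w 1 2 := by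
  have B1 := size_fun h h0 hK hKO hc hc.b1.continuous
  have B2 := size_fun h h0 hK hKO hc hc.b2.continuous
  have T : (fun p : ℝ × (Fin d → ℝ) => dot3 (third w p.2) (third w p.2)) =O[params K] size w 2 2 :=
    size_sum h h0 hK hKO hc fun i => size_sum h h0 hK hKO hc fun j => size_sum h h0 hK hKO hc fun k =>
      size_mul h h0 hK hKO hc (size_third h h0 hK hKO hc i j k) (size_third h h0 hK hKO hc i j k)
  have e1 := size_div h h0 hK hKO hc 1 (i := 1) (size_dot h h0 hK hKO hc
    (size_gComp h h0 hK hKO hc hc.b1) (size_beta1 h h0 hK hKO hc)) rfl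
  have e2 := size_div h h0 hK hKO hc 2 (i := 1) (size_bd_mul h h0 hK hKO hc B1
    (size_dot h h0 hK hKO hc (size_gA h h0 hK hKO hc) (size_beta1 h h0 hK hKO hc))) rfl
  have e3 := size_div h h0 hK hKO hc 1 (i := 1) (size_bd_mul h h0 hK hKO hc B1 (T.add
    (size_mono h h0 hK hKO hc (size_mul_bd h h0 hK hKO hc (size_bd_mul h h0 hK hKO hc
      (size_const h h0 hK hKO hc ((d : ℝ) - 4)) (size_hessSq h h0 hK hKO hc))
      (size_inv h h0 hK hKO hc)) le_rfl (Nat.zero_le 2)))) rfl
  have e4 := size_div h h0 hK hKO hc 2 (i := 1) (size_dot h h0 hK hKO hc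
    (size_gComp h h0 hK hKO hc hc.b2) (size_beta2 h h0 hK hKO hc)) rfl
  have e5 := size_div h h0 hK hKO hc 3 (i := 1) (size_bd_mul h h0 hK hKO hc
    (size_bd_mul h h0 hK hKO hc (size_const h h0 hK hKO hc 2) B2)
    (size_dot h h0 hK hKO hc (size_gA h h0 hK hKO hc) (size_beta2 h h0 hK hKO hc))) rfl
  have e6 := size_div h h0 hK hKO hc 2 (i := 1) (size_bd_mul h h0 hK hKO hc B2
    ((size_bd_mul h h0 hK hKO hc (size_const h h0 hK hKO hc 2) (size_weighted h h0 hK hKO hc)).add
    (size_mono h h0 hK hKO hc (size_mul_bd h h0 hK hKO hc (size_bd_mul h h0 hK hKO hc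
      (size_const h h0 hK hKO hc ((d : ℝ) - 5)) (size_cube h h0 hK hKO hc))
      (size_inv h h0 hK hKO hc)) le_rfl (Nat.zero_le 2)))) rfl
  exact (size_bd_mul h h0 hK hKO hc (size_rad h h0 hK hKO hc)
    (((((e1.sub e2).add e3).add e4).sub e5).add e6)).congr_left fun p => by
      simp only [divTri]
      ring

theorem size_gradSqTest :
    (fun p : ℝ × (Fin d → ℝ) => gradSqTest c w p.1 p.2) =O[params K] size w 1 2 := by
  have G := size_fun h h0 hK hKO hc hc.g.continuous
  have e1 : (fun p : ℝ × (Fin d → ℝ) =>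
      c.g (argv w p.1 p.2) ^ 2 * dot (gS w p.1 p.2) (gS w p.1 p.2) / (4 * sVar w p.1 p.2))
      =O[params K] size w 1 2 :=
    (size_div h h0 hK hKO hc 1 (i := 1) (size_mul_bd h h0 hK hKO hc
      (size_bd_mul h h0 hK hKO hc (size_mul_bd h h0 hK hKO hc G G)
        (size_dot h h0 hK hKO hc (size_gS h h0 hK hKO hc) (size_gS h h0 hK hKO hc)))
      (size_bd_mul h h0 hK hKO hc (size_const h h0 hK hKO hc (1 / 4))
        (size_rad_inv h h0 hK hKO hc))) rfl).congr_left fun p => by
      simp only [sVar, pow_one, sq, div_eq_mul_inv, one_mul, mul_inv]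
      ring
  have e2 := size_bd_mul h h0 hK hKO hc G
    (size_dot h h0 hK hKO hc (size_gS h h0 hK hKO hc) (size_gComp h h0 hK hKO hc hc.g))
  have e3 := size_mul h h0 hK hKO hc (size_sVar h h0 hK hKO hc)
    (size_dot h h0 hK hKO hc (size_gComp h h0 hK hKO hc hc.g) (size_gComp h h0 hK hKO hc hc.g))
  exact (e1.add e2).add e3

/-- The interior expression is `O(a M^2)`. -/
theorem size_interior (γ : ℝ) :
    (fun p : ℝ × (Fin d → ℝ) => interior γ c w p.1 p.2) =O[params K] size w 1 2 := by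
  have G := size_fun h h0 hK hKO hc hc.g.continuous
  have e := size_mono h h0 hK hKO hc (size_bd_mul h h0 hK hKO hc (size_const h h0 hK hKO hc γ)
    (size_mul_bd h h0 hK hKO hc (size_mul_bd h h0 hK hKO hc (size_sVar h h0 hK hKO hc)
      (size_mul_bd h h0 hK hKO hc G G)) (size_inv h h0 hK hKO hc))) le_rfl (Nat.zero_le 2)
  exact (((((size_lapPotential h h0 hK hKO hc).add (size_divRest h h0 hK hKO hc)).add
    (size_divTri h h0 hK hKO hc)).sub
    (size_gradSqTest h h0 hK hKO hc)).sub e).congr_left fun p => by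
      simp only [interior, sq]

theorem size_meanCurv : (fun p : ℝ × (Fin d → ℝ) => meanCurv w p.2) =O[params K] size w 1 0 :=
  (size_sum h h0 hK hKO hc fun i => size_sum h h0 hK hKO hc fun j => size_mul_bd h h0 hK hKO hc
    (size_mul_bd h h0 hK hKO hc (size_hess h h0 hK hKO hc i j) (size_pd h h0 hK hKO hc i))
    (size_pd h h0 hK hKO hc j)).neg_left

/-- The boundary expression is `O(a^2)`. -/
theorem size_flux :
    (fun p : ℝ × (Fin d → ℝ) => flux c w p.1 p.2) =O[params K] size w 2 0 := by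
  have L := size_len h h0 hK hKO hc
  have H := size_meanCurv h h0 hK hKO hc
  have hA : (fun p : ℝ × (Fin d → ℝ) => nA w p.1 p.2) =O[params K] size w 2 0 :=
    (size_div h h0 hK hKO hc 1 (i := 2) ((size_cube h h0 hK hKO hc).neg_left.sub
      (size_mul h h0 hK hKO hc (size_bd_mul h h0 hK hKO hc (size_const h h0 hK hKO hc 2) H)
        (size_hessSq h h0 hK hKO hc))) rfl).congr_left fun p => by simp only [nA, pow_one]
  have hq : (fun p : ℝ × (Fin d → ℝ) => quart w p.2) =O[params K] size w 4 0 :=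
    size_sum h h0 hK hKO hc fun i => size_sum h h0 hK hKO hc fun j =>
      size_mul h h0 hK hKO hc (size_sqMat h h0 hK hKO hc i j) (size_sqMat h h0 hK hKO hc i j)
  have hN : ∀ i, (fun p : ℝ × (Fin d → ℝ) => nArgs w p.1 p.2 i) =O[params K] size w 1 0 := by
    intro i
    fin_cases i
    · exact L
    · exact size_bd_mul h h0 hK hKO hc (size_const h h0 hK hKO hc 2) H
    · have e1 := size_div h h0 hK hKO hc 3 (i := 1) (size_bd_mul h h0 hK hKO hc
        (size_const h h0 hK hKO hc 3) ((hq.neg_left.sub (size_mul h h0 hK hKO hc H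
          (size_cube h h0 hK hKO hc))).add (size_mul h h0 hK hKO hc (size_hessSq h h0 hK hKO hc)
          (size_mul h h0 hK hKO hc H H)))) rfl
      have e2 := size_div h h0 hK hKO hc 4 (i := 1) (size_mul h h0 hK hKO hc (size_bd_mul h h0 hK hKO hc
        (size_const h h0 hK hKO hc 3) (size_cube h h0 hK hKO hc)) hA) rfl
      refine (e1.sub e2).congr_left fun p => ?_
      show _ = 3 * (-quart w p.2 - meanCurv w p.2 * cube w p.2 + hessSq w p.2 * meanCurv w p.2 ^ 2)
          / regLen w p.1 p.2 ^ 3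
        - 3 * cube w p.2 * nA w p.1 p.2 / regLen w p.1 p.2 ^ 4
      ring
    · exact size_mono h h0 hK hKO hc (size_mul h h0 hK hKO hc (size_xi_coef h h0 hK hKO hc)
        (size_bd_mul h h0 hK hKO hc (size_rad h h0 hK hKO hc) hA)) (by norm_num) le_rfl
  have G := size_fun h h0 hK hKO hc hc.g.continuous
  have e1 := size_bd_mul h h0 hK hKO hc (size_fun h h0 hK hKO hc hc.F.continuous)
    (size_bd_mul h h0 hK hKO hc (size_rad h h0 hK hKO hc) hA)
  have e2 := size_mul h h0 hK hKO hc (size_sVar h h0 hK hKO hc) (IsBigO.fun_sum (s := Finset.univ)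
    fun i _ => size_bd_mul h h0 hK hKO hc (size_pdF h h0 hK hKO hc i hc.F) (hN i))
  have e3 := size_bd_mul h h0 hK hKO hc (size_rad h h0 hK hKO hc)
    (((size_mul_bd h h0 hK hKO hc (size_mul h h0 hK hKO hc L L)
      (size_fun h h0 hK hKO hc hc.al.continuous)).sub (size_mul_bd h h0 hK hKO hc
      (size_mul h h0 hK hKO hc L H) (size_fun h h0 hK hKO hc hc.be.continuous))).add
      (size_mul_bd h h0 hK hKO hc (size_mul h h0 hK hKO hc H H)
        (size_fun h h0 hK hKO hc hc.ga.continuous)))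
  have e4 := size_mul h h0 hK hKO hc H (size_mul_bd h h0 hK hKO hc (size_sVar h h0 hK hKO hc)
    (size_mul_bd h h0 hK hKO hc G G))
  have e5 := size_bd_mul h h0 hK hKO hc (size_rad h h0 hK hKO hc)
    ((size_div h h0 hK hKO hc 1 (i := 2) (size_bd_mul h h0 hK hKO hc
        (size_fun h h0 hK hKO hc hc.b1.continuous) ((size_cube h h0 hK hKO hc).neg_left.sub
          (size_mul h h0 hK hKO hc (size_bd_mul h h0 hK hKO hc (size_const h h0 hK hKO hc 2) H)
            (size_hessSq h h0 hK hKO hc)))) rfl).add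
      (size_div h h0 hK hKO hc 2 (i := 2) (size_bd_mul h h0 hK hKO hc
        (size_fun h h0 hK hKO hc hc.b2.continuous) ((hq.neg_left.sub (size_mul h h0 hK hKO hc H
          (size_cube h h0 hK hKO hc))).add (size_mul h h0 hK hKO hc (size_hessSq h h0 hK hKO hc)
          (size_mul h h0 hK hKO hc H H)))) rfl))
  exact ((((e1.add e2).add e3).add e5).add e4).congr_left fun p => by
    simp only [flux, sq]
    ring

theorem size_testFn :
    (fun p : ℝ × (Fin d → ℝ) => testFn c w p.1 p.2 ^ 2) =O[params K] size w 1 0 := by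
  have G := size_fun h h0 hK hKO hc hc.g.continuous
  refine (size_mul_bd h h0 hK hKO hc (size_sVar h h0 hK hKO hc)
    (size_mul_bd h h0 hK hKO hc G G)).congr_left fun p => ?_
  rw [testFn, mul_pow, Real.sq_sqrt (show 0 ≤ sVar w p.1 p.2 from mul_nonneg (Real.sqrt_nonneg _) (Real.sqrt_nonneg _)), sq]
  rfl

end bounds

section continuity

/-- Parameters at which the regularised length does not vanish. -/
def domJ (w : (Fin d → ℝ) → ℝ) (O : Set (Fin d → ℝ)) : Set (ℝ × (Fin d → ℝ)) :=
  {p | p.2 ∈ O ∧ 0 < regSq w p.1 p.2}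

variable (h : RegularCone u O w) (h0 : (0 : Fin d → ℝ) ∉ O) (hc : c.Smooth)
include h h0

theorem cont_snd {g : (Fin d → ℝ) → ℝ} (hg : ContinuousOn g O) :
    ContinuousOn (fun p : ℝ × (Fin d → ℝ) => g p.2) (domJ w O) :=
  hg.comp continuous_snd.continuousOn fun _ hp => hp.1

theorem cont_regSq : ContinuousOn (fun p : ℝ × (Fin d → ℝ) => regSq w p.1 p.2) (univ ×ˢ O) :=
  ((contDiffOn_hessSq h.smooth h.isOpen).continuousOn.comp continuous_snd.continuousOn
    fun _ hp => hp.2).add (continuous_fst.continuousOn.mul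
    ((contDiff_dot_self.continuous.comp continuous_snd).continuousOn.inv₀
      fun p hp => (dot_self_pos fun e : p.2 = 0 => h0 (e ▸ hp.2)).ne'))

theorem isOpen_domJ : IsOpen (domJ w O) := by
  have e : domJ w O = (univ ×ˢ O) ∩ (fun p : ℝ × (Fin d → ℝ) => regSq w p.1 p.2) ⁻¹' Ioi 0 := by
    ext p; simp [domJ]
  rw [e]
  exact (cont_regSq h h0).isOpen_inter_preimage (isOpen_univ.prod h.isOpen) isOpen_Ioi

theorem cont_len : ContinuousOn (fun p : ℝ × (Fin d → ℝ) => regLen w p.1 p.2) (domJ w O) :=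
  ((cont_regSq h h0).mono fun _ hp => ⟨mem_univ _, hp.1⟩).sqrt

theorem cont_pow_inv (n : ℕ) :
    ContinuousOn (fun p : ℝ × (Fin d → ℝ) => (regLen w p.1 p.2 ^ n)⁻¹) (domJ w O) :=
  ((cont_len h h0).pow n).inv₀ fun _ hp => (pow_pos (Real.sqrt_pos.2 hp.2) n).ne'

theorem cont_dot {p q : ℝ × (Fin d → ℝ) → Fin d → ℝ}
    (hp : ∀ k, ContinuousOn (fun x => p x k) (domJ w O))
    (hq : ∀ k, ContinuousOn (fun x => q x k) (domJ w O)) :
    ContinuousOn (fun x => dot (p x) (q x)) (domJ w O) :=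
  continuousOn_finsetSum Finset.univ fun k _ => (hp k).mul (hq k)

theorem cont_third (i j k : Fin d) :
    ContinuousOn (fun p : ℝ × (Fin d → ℝ) => third w p.2 i j k) (domJ w O) :=
  cont_snd h h0 (contDiffOn_third h.smooth h.isOpen i j k).continuousOn

theorem cont_hess (i j : Fin d) :
    ContinuousOn (fun p : ℝ × (Fin d → ℝ) => hess w i j p.2) (domJ w O) :=
  cont_snd h h0 (contDiffOn_hess h.smooth h.isOpen i j).continuousOn

theorem cont_tA (k : Fin d) : ContinuousOn (fun p : ℝ × (Fin d → ℝ) => tA w p.2 k) (domJ w O) :=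
  continuousOn_finsetSum Finset.univ fun i _ => continuousOn_finsetSum Finset.univ fun j _ =>
    (cont_third h h0 i j k).mul (cont_hess h h0 i j)

theorem cont_sqMat (i j : Fin d) :
    ContinuousOn (fun p : ℝ × (Fin d → ℝ) => sqMat (hessMat w p.2) i j) (domJ w O) :=
  continuousOn_finsetSum Finset.univ fun k _ => (cont_hess h h0 i k).mul (cont_hess h h0 k j)

theorem cont_tAA (k : Fin d) : ContinuousOn (fun p : ℝ × (Fin d → ℝ) => tAA w p.2 k) (domJ w O) :=
  continuousOn_finsetSum Finset.univ fun i _ => continuousOn_finsetSum Finset.univ fun j _ =>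
    (cont_third h h0 i j k).mul (cont_sqMat h h0 i j)

theorem cont_coord (k : Fin d) : ContinuousOn (fun p : ℝ × (Fin d → ℝ) => p.2 k) (domJ w O) :=
  ((continuous_apply k).comp continuous_snd).continuousOn

theorem cont_inv : ContinuousOn (fun p : ℝ × (Fin d → ℝ) => (dot p.2 p.2)⁻¹) (domJ w O) :=
  cont_snd h h0 (g := fun z => (dot z z)⁻¹) (contDiff_dot_self.continuous.continuousOn.inv₀
    fun z hz => (dot_self_pos fun e : z = 0 => h0 (e ▸ hz)).ne')

theorem cont_rad : ContinuousOn (fun p : ℝ × (Fin d → ℝ) => len p.2) (domJ w O) :=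
  cont_snd h h0 (contDiffOn_len h0).continuousOn

theorem cont_rad_inv : ContinuousOn (fun p : ℝ × (Fin d → ℝ) => (len p.2)⁻¹) (domJ w O) :=
  (cont_rad h h0).inv₀ fun p hp => (len_pos fun e : p.2 = 0 => h0 (e ▸ hp.1)).ne'

theorem cont_pd (k : Fin d) : ContinuousOn (fun p : ℝ × (Fin d → ℝ) => pd w k p.2) (domJ w O) :=
  cont_snd h h0 (contDiffOn_pd h.smooth h.isOpen k).continuousOn

theorem cont_gA (k : Fin d) :
    ContinuousOn (fun p : ℝ × (Fin d → ℝ) => gA w p.1 p.2 k) (domJ w O) :=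
  (((cont_tA h h0 k).sub ((continuous_fst.continuousOn.mul ((cont_inv h h0).mul (cont_inv h h0))).mul
    (cont_coord h h0 k))).mul (cont_pow_inv h h0 1)).congr fun p _ => by
      simp only [gA, pow_one, sq, mul_inv, div_eq_mul_inv, Pi.mul_apply, Pi.sub_apply]

theorem cont_lA : ContinuousOn (fun p : ℝ × (Fin d → ℝ) => lA w p.1 p.2) (domJ w O) :=
  ((((continuousOn_finsetSum Finset.univ fun i _ => continuousOn_finsetSum Finset.univ fun j _ =>
    continuousOn_finsetSum Finset.univ fun k _ => (cont_third h h0 i j k).mul (cont_third h h0 i j k)).add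
    ((continuous_fst.continuousOn.mul (continuousOn_const (c := 4 - (d : ℝ)))).mul ((cont_inv h h0).mul (cont_inv h h0)))).sub
    (cont_dot h h0 (cont_gA h h0) (cont_gA h h0))).mul (cont_pow_inv h h0 1)).congr fun p _ => by
      simp only [lA, pow_one, sq, mul_inv, div_eq_mul_inv, dot3, Pi.mul_apply, Pi.sub_apply, Pi.add_apply]

theorem cont_gS (k : Fin d) :
    ContinuousOn (fun p : ℝ × (Fin d → ℝ) => gS w p.1 p.2 k) (domJ w O) :=
  (((cont_rad h h0).mul (cont_gA h h0 k)).add ((cont_len h h0).mul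
    ((cont_coord h h0 k).mul (cont_rad_inv h h0)))).congr fun p _ => by
      simp only [gS, div_eq_mul_inv, Pi.mul_apply, Pi.add_apply]

theorem cont_lS : ContinuousOn (fun p : ℝ × (Fin d → ℝ) => lS w p.1 p.2) (domJ w O) :=
  ((((cont_rad h h0).mul (cont_lA h h0)).add ((cont_len h h0).mul
    ((continuousOn_const (c := (d : ℝ) - 1)).mul (cont_rad_inv h h0)))).add
    ((continuousOn_const (c := (2 : ℝ))).mul (cont_dot h h0
      (fun k => (cont_coord h h0 k).mul (cont_rad_inv h h0)) (cont_gA h h0)))).congr fun p _ => by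
      simp only [lS, div_eq_mul_inv, Pi.mul_apply, Pi.add_apply]

theorem cont_aField (k : Fin d) :
    ContinuousOn (fun p : ℝ × (Fin d → ℝ) => aField w k p.2) (domJ w O) :=
  cont_snd h h0 (contDiffOn_aField h.smooth h.isOpen k).continuousOn

theorem cont_cube : ContinuousOn (fun p : ℝ × (Fin d → ℝ) => cube w p.2) (domJ w O) :=
  cont_snd h h0 (contDiffOn_cube h).continuousOn

theorem cont_hessSq : ContinuousOn (fun p : ℝ × (Fin d → ℝ) => hessSq w p.2) (domJ w O) :=
  cont_snd h h0 (contDiffOn_hessSq h.smooth h.isOpen).continuousOn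

theorem cont_sVar : ContinuousOn (fun p : ℝ × (Fin d → ℝ) => sVar w p.1 p.2) (domJ w O) :=
  (cont_rad h h0).mul (cont_len h h0)

theorem cont_xi : ContinuousOn (fun p : ℝ × (Fin d → ℝ) => xiVal w p.1 p.2) (domJ w O) :=
  ((continuousOn_const (c := (1 : ℝ))).add ((cont_sVar h h0).mul (cont_sVar h h0))).inv₀
    fun _ _ => one_add_sq_ne _

theorem cont_gArgs (i : Fin 4) (k : Fin d) :
    ContinuousOn (fun p : ℝ × (Fin d → ℝ) => gArgs w p.1 p.2 i k) (domJ w O) := by
  fin_cases i
  · exact ((cont_snd h h0 h.smooth.continuousOn).mul (cont_gA h h0 k)).add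
      ((cont_len h h0).mul (cont_pd h h0 k))
  · exact continuousOn_const.mul (cont_aField h h0 k)
  · refine (((continuousOn_const (c := (3 : ℝ))).mul (cont_tAA h h0 k)).mul (cont_pow_inv h h0 3)).sub
      ((((continuousOn_const (c := (3 : ℝ))).mul (cont_cube h h0)).mul (cont_gA h h0 k)).mul
        (cont_pow_inv h h0 4)) |>.congr fun p _ => ?_
    show 3 * tAA w p.2 k / regLen w p.1 p.2 ^ 3
      - 3 * cube w p.2 * gA w p.1 p.2 k / regLen w p.1 p.2 ^ 4 = _
    simp only [div_eq_mul_inv, Pi.mul_apply, Pi.sub_apply]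
  · exact ((continuousOn_const.mul (cont_sVar h h0)).mul ((cont_xi h h0).pow 2)).mul
      (cont_gS h h0 k)

theorem cont_lArgs (i : Fin 4) :
    ContinuousOn (fun p : ℝ × (Fin d → ℝ) => lArgs w p.1 p.2 i) (domJ w O) := by
  fin_cases i
  · exact ((cont_snd h h0 h.smooth.continuousOn).mul (cont_lA h h0)).add
      (continuousOn_const.mul (cont_dot h h0 (cont_pd h h0) (cont_gA h h0)))
  · exact continuousOn_const.mul (cont_hessSq h h0)
  · have hW : ContinuousOn (fun p : ℝ × (Fin d → ℝ) =>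
        ∑ i, ∑ j, hess w i j p.2 * ∑ l, ∑ k, third w p.2 i l k * third w p.2 j l k) (domJ w O) :=
      continuousOn_finsetSum Finset.univ fun i _ => continuousOn_finsetSum Finset.univ fun j _ => (cont_hess h h0 i j).mul
        (continuousOn_finsetSum Finset.univ fun l _ => continuousOn_finsetSum Finset.univ fun k _ =>
          (cont_third h h0 i l k).mul (cont_third h h0 j l k))
    refine ((((continuousOn_const (c := (6 : ℝ))).mul hW).mul (cont_pow_inv h h0 3)).sub
      (((continuousOn_const (c := (18 : ℝ))).mul (cont_dot h h0 (cont_tAA h h0) (cont_gA h h0))).mul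
        (cont_pow_inv h h0 4))).add ((cont_cube h h0).mul
      ((((continuousOn_const (c := (12 : ℝ))).mul (cont_dot h h0 (cont_gA h h0) (cont_gA h h0))).mul
        (cont_pow_inv h h0 5)).sub (((continuousOn_const (c := (3 : ℝ))).mul (cont_lA h h0)).mul
        (cont_pow_inv h h0 4)))) |>.congr fun p _ => ?_
    show 6 * (∑ i, ∑ j, hess w i j p.2 * ∑ l, ∑ k, third w p.2 i l k * third w p.2 j l k)
          / regLen w p.1 p.2 ^ 3
        - 18 * dot (tAA w p.2) (gA w p.1 p.2) / regLen w p.1 p.2 ^ 4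
        + cube w p.2 * (12 * dot (gA w p.1 p.2) (gA w p.1 p.2) / regLen w p.1 p.2 ^ 5
            - 3 * lA w p.1 p.2 / regLen w p.1 p.2 ^ 4) = _
    simp only [div_eq_mul_inv, Pi.mul_apply, Pi.sub_apply, Pi.add_apply]
  · exact (((continuousOn_const.mul (cont_sVar h h0)).mul ((cont_xi h h0).pow 2)).mul
      (cont_lS h h0)).add ((((continuousOn_const.mul ((cont_sVar h h0).pow 2)).mul
      ((cont_xi h h0).pow 3)).sub (continuousOn_const.mul ((cont_xi h h0).pow 2))).mul
      (cont_dot h h0 (cont_gS h h0) (cont_gS h h0)))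

theorem cont_fun {f : (Fin 4 → ℝ) → ℝ} (hf : Continuous f) :
    ContinuousOn (fun p : ℝ × (Fin d → ℝ) => f (argv w p.1 p.2)) (domJ w O) := by
  refine hf.comp_continuousOn (continuousOn_pi.2 fun i => ?_)
  fin_cases i
  · exact (cont_snd h h0 h.smooth.continuousOn).mul (cont_len h h0)
  · exact continuousOn_const.sub (cont_dot h h0 (cont_pd h h0) (cont_pd h h0))
  · exact (cont_cube h h0).mul (cont_pow_inv h h0 3)
  · exact cont_xi h h0

theorem cont_gComp {f : (Fin 4 → ℝ) → ℝ} (hf : ContDiff ℝ ∞ f) (k : Fin d) :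
    ContinuousOn (fun p : ℝ × (Fin d → ℝ) => gComp f w p.1 p.2 k) (domJ w O) :=
  continuousOn_finsetSum Finset.univ fun i _ =>
    (cont_fun h h0 (contDiff_pd hf i).continuous).mul (cont_gArgs h h0 i k)

include hc

theorem cont_interior (γ : ℝ) :
    ContinuousOn (fun p : ℝ × (Fin d → ℝ) => interior γ c w p.1 p.2) (domJ w O) := by
  have hne : ∀ p ∈ domJ w O, 4 * sVar w p.1 p.2 ≠ 0 := fun p hp =>
    mul_ne_zero four_ne_zero (mul_pos (len_pos fun e : p.2 = 0 => h0 (e ▸ hp.1))
      (Real.sqrt_pos.2 hp.2)).ne'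
  have Al := cont_fun h h0 hc.al.continuous
  have Be := cont_fun h h0 hc.be.continuous
  have Ga := cont_fun h h0 hc.ga.continuous
  have G := cont_fun h h0 hc.g.continuous
  have pV : ∀ k, ContinuousOn (fun p : ℝ × (Fin d → ℝ) => pVec w k p.2) (domJ w O) := fun k =>
    cont_snd h h0 (contDiffOn_pVec h h0 k).continuousOn
  have bF : ∀ k, ContinuousOn (fun p : ℝ × (Fin d → ℝ) => bField w k p.2) (domJ w O) := fun k =>
    cont_snd h h0 (contDiffOn_bField h k).continuousOn
  have L := cont_len h h0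
  have e1 : ContinuousOn (fun p : ℝ × (Fin d → ℝ) => lapPotential c w p.1 p.2) (domJ w O) :=
    (((cont_fun h h0 hc.F.continuous).mul (cont_lS h h0)).add
      (continuousOn_const.mul (cont_dot h h0 (cont_gS h h0) (cont_gComp h h0 hc.F)))).add
      ((cont_sVar h h0).mul ((continuousOn_finsetSum Finset.univ fun i _ => continuousOn_finsetSum Finset.univ fun j _ =>
        (cont_fun h h0 (f := hess c.F i j) (contDiff_pd (contDiff_pd hc.F i) j).continuous).mul
          (cont_dot h h0 (cont_gArgs h h0 i) (cont_gArgs h h0 j))).add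
        (continuousOn_finsetSum Finset.univ fun i _ =>
          (cont_fun h h0 (contDiff_pd hc.F i).continuous).mul (cont_lArgs h h0 i))))
  have e2 : ContinuousOn (fun p : ℝ × (Fin d → ℝ) => divRest c w p.1 p.2) (domJ w O) :=
    (cont_rad h h0).mul ((((((((((continuousOn_const.mul L).mul Al).mul
      (cont_dot h h0 (cont_gA h h0) pV)).add ((L.mul L).mul (cont_dot h h0 (cont_gComp h h0 hc.al) pV))).sub
      (((((L.mul L).mul Al).mul continuousOn_const).mul (cont_snd h h0 h.smooth.continuousOn)).mul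
        (cont_inv h h0))).add (Be.mul (cont_dot h h0 (cont_gA h h0) (cont_aField h h0)))).add
      (L.mul (cont_dot h h0 (cont_gComp h h0 hc.be) (cont_aField h h0)))).add
      ((L.mul Be).mul (cont_hessSq h h0))).add (cont_dot h h0 (cont_gComp h h0 hc.ga) bF)).add
      (Ga.mul ((cont_dot h h0 (cont_pd h h0) (cont_tA h h0)).add (cont_cube h h0))))
  have e3 : ContinuousOn (fun p : ℝ × (Fin d → ℝ) => gradSqTest c w p.1 p.2) (domJ w O) :=
    ((((G.pow 2).mul (cont_dot h h0 (cont_gS h h0) (cont_gS h h0))).div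
      (continuousOn_const.mul (cont_sVar h h0)) hne).add
      (G.mul (cont_dot h h0 (cont_gS h h0) (cont_gComp h h0 hc.g)))).add
      ((cont_sVar h h0).mul (cont_dot h h0 (cont_gComp h h0 hc.g) (cont_gComp h h0 hc.g)))
  have bV1 : ∀ k, ContinuousOn (fun p : ℝ × (Fin d → ℝ) => beta1 w k p.2) (domJ w O) := fun k =>
    cont_snd h h0 (contDiffOn_beta1 h h0 k).continuousOn
  have bV2 : ∀ k, ContinuousOn (fun p : ℝ × (Fin d → ℝ) => beta2 w k p.2) (domJ w O) := fun k =>
    cont_snd h h0 (contDiffOn_beta2 h h0 k).continuousOn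
  have I1 : ContinuousOn (fun p : ℝ × (Fin d → ℝ) => (regLen w p.1 p.2)⁻¹) (domJ w O) :=
    L.inv₀ fun p hp => (Real.sqrt_pos.2 hp.2).ne'
  have B1 := cont_fun h h0 hc.b1.continuous
  have B2 := cont_fun h h0 hc.b2.continuous
  have hT : ContinuousOn (fun p : ℝ × (Fin d → ℝ) => dot3 (third w p.2) (third w p.2)) (domJ w O) :=
    continuousOn_finsetSum Finset.univ fun i _ => continuousOn_finsetSum Finset.univ fun j _ =>
      continuousOn_finsetSum Finset.univ fun k _ => (cont_third h h0 i j k).mul (cont_third h h0 i j k)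
  have hW : ContinuousOn (fun p : ℝ × (Fin d → ℝ) =>
      ∑ i, ∑ j, hess w i j p.2 * ∑ l, ∑ k, third w p.2 i l k * third w p.2 j l k) (domJ w O) :=
    continuousOn_finsetSum Finset.univ fun i _ => continuousOn_finsetSum Finset.univ fun j _ =>
      (cont_hess h h0 i j).mul (continuousOn_finsetSum Finset.univ fun l _ =>
        continuousOn_finsetSum Finset.univ fun k _ => (cont_third h h0 i l k).mul (cont_third h h0 j l k))
  have e4 : ContinuousOn (fun p : ℝ × (Fin d → ℝ) => divTri c w p.1 p.2) (domJ w O) :=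
    (cont_rad h h0).mul ((((((I1.mul (cont_dot h h0 (cont_gComp h h0 hc.b1) bV1)).sub
      ((B1.mul (cont_pow_inv h h0 2)).mul (cont_dot h h0 (cont_gA h h0) bV1))).add
      ((B1.mul I1).mul (hT.add ((continuousOn_const.mul (cont_hessSq h h0)).mul (cont_inv h h0))))).add
      ((cont_pow_inv h h0 2).mul (cont_dot h h0 (cont_gComp h h0 hc.b2) bV2))).sub
      (((continuousOn_const.mul B2).mul (cont_pow_inv h h0 3)).mul (cont_dot h h0 (cont_gA h h0) bV2))).add
      ((B2.mul (cont_pow_inv h h0 2)).mul ((continuousOn_const.mul hW).add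
        ((continuousOn_const.mul (cont_cube h h0)).mul (cont_inv h h0)))))
  exact (((e1.add e2).add e4).sub e3).sub
    (continuousOn_const.mul (((cont_sVar h h0).mul (G.pow 2)).mul (cont_inv h h0)))

theorem cont_flux : ContinuousOn (fun p : ℝ × (Fin d → ℝ) => flux c w p.1 p.2) (domJ w O) := by
  have H : ContinuousOn (fun p : ℝ × (Fin d → ℝ) => meanCurv w p.2) (domJ w O) :=
    (continuousOn_finsetSum Finset.univ fun i _ => continuousOn_finsetSum Finset.univ fun j _ =>
      ((cont_hess h h0 i j).mul (cont_pd h h0 i)).mul (cont_pd h h0 j)).neg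
  have L := cont_len h h0
  have hA : ContinuousOn (fun p : ℝ × (Fin d → ℝ) => nA w p.1 p.2) (domJ w O) :=
    (((cont_cube h h0).neg.sub ((continuousOn_const.mul H).mul (cont_hessSq h h0))).div L
      fun p hp => (Real.sqrt_pos.2 hp.2).ne')
  have hN : ∀ i, ContinuousOn (fun p : ℝ × (Fin d → ℝ) => nArgs w p.1 p.2 i) (domJ w O) := by
    intro i
    fin_cases i
    · exact L
    · exact continuousOn_const.mul H
    · exact ((continuousOn_const.mul (((continuousOn_finsetSum Finset.univ fun i _ => continuousOn_finsetSum Finset.univ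
        fun j _ => (cont_sqMat h h0 i j).mul (cont_sqMat h h0 i j)).neg.sub
        (H.mul (cont_cube h h0))).add ((cont_hessSq h h0).mul (H.pow 2)))).div (L.pow 3)
          fun p hp => (pow_pos (Real.sqrt_pos.2 hp.2) 3).ne').sub
        (((continuousOn_const.mul (cont_cube h h0)).mul hA).div (L.pow 4)
          fun p hp => (pow_pos (Real.sqrt_pos.2 hp.2) 4).ne')
    · exact ((continuousOn_const.mul (cont_sVar h h0)).mul ((cont_xi h h0).pow 2)).mul
        ((cont_rad h h0).mul hA)
  have hQ : ContinuousOn (fun p : ℝ × (Fin d → ℝ) => quart w p.2) (domJ w O) :=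
    continuousOn_finsetSum Finset.univ fun i _ => continuousOn_finsetSum Finset.univ fun j _ =>
      (cont_sqMat h h0 i j).mul (cont_sqMat h h0 i j)
  have I1 : ContinuousOn (fun p : ℝ × (Fin d → ℝ) => (regLen w p.1 p.2)⁻¹) (domJ w O) :=
    L.inv₀ fun p hp => (Real.sqrt_pos.2 hp.2).ne'
  exact (((((cont_fun h h0 hc.F.continuous).mul ((cont_rad h h0).mul hA)).add
    ((cont_sVar h h0).mul (continuousOn_finsetSum Finset.univ fun i _ =>
      (cont_fun h h0 (contDiff_pd hc.F i).continuous).mul (hN i)))).add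
    ((cont_rad h h0).mul ((((L.mul L).mul (cont_fun h h0 hc.al.continuous)).sub
      ((L.mul H).mul (cont_fun h h0 hc.be.continuous))).add
      ((H.pow 2).mul (cont_fun h h0 hc.ga.continuous))))).add
    ((cont_rad h h0).mul (((I1.mul (cont_fun h h0 hc.b1.continuous)).mul
      ((cont_cube h h0).neg.sub ((continuousOn_const.mul H).mul (cont_hessSq h h0)))).add
      (((cont_pow_inv h h0 2).mul (cont_fun h h0 hc.b2.continuous)).mul
        ((hQ.neg.sub (H.mul (cont_cube h h0))).add ((cont_hessSq h h0).mul (H.pow 2))))))).add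
    (H.mul ((cont_sVar h h0).mul ((cont_fun h h0 hc.g.continuous).pow 2)))

theorem cont_testFn : ContinuousOn (fun p : ℝ × (Fin d → ℝ) => testFn c w p.1 p.2) (domJ w O) :=
  (cont_sVar h h0).sqrt.mul (cont_fun h h0 hc.g.continuous)

end continuity

end

end Vale.Agent.P098.Div
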