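import Vale.Agent.P098.Div.Scalars

/-!
# P098: the test function and the field of a certificate, and their derivatives

`interior` and `flux` are the interior and boundary expressions as explicit formulas in the jet; they
make sense, and are continuous, down to `δ = 0` where the Hessian does not vanish.
-/

namespace Vale.Agent.P098.Div

open Vale.Agent.P098.Cone Vale.Agent.P098.Jet
open Set Filter Topology Finset
open scoped ContDiff

noncomputable section

variable {d : ℕ} {u w : (Fin d → ℝ) → ℝ} {O : Set (Fin d → ℝ)} {δ γ : ℝ} {z : Fin d → ℝ}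
  {c : FieldsX}

/-- The arguments at a point. -/
def argv (w : (Fin d → ℝ) → ℝ) (δ : ℝ) (z : Fin d → ℝ) : Fin 4 → ℝ := fun i => args w δ i z

/-- The tangential part of the gradient. -/
def pVec (w : (Fin d → ℝ) → ℝ) (i : Fin d) (z : Fin d → ℝ) : ℝ :=
  pd w i z - w z * z i * (dot z z)⁻¹

/-- The square of the Hessian applied to the gradient. -/
def bField (w : (Fin d → ℝ) → ℝ) (i : Fin d) (z : Fin d → ℝ) : ℝ :=
  ∑ j, hess w i j z * aField w j z

/-- The test function. -/
def testFn (c : FieldsX) (w : (Fin d → ℝ) → ℝ) (δ : ℝ) (z : Fin d → ℝ) : ℝ :=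
  √(sVar w δ z) * comp3 c.g (args w δ) z

/-- The potential. -/
def potential (c : FieldsX) (w : (Fin d → ℝ) → ℝ) (δ : ℝ) (z : Fin d → ℝ) : ℝ :=
  sVar w δ z * comp3 c.F (args w δ) z

/-- The part of the field that is not a gradient. -/
def vField (c : FieldsX) (w : (Fin d → ℝ) → ℝ) (δ : ℝ) (i : Fin d) (z : Fin d → ℝ) : ℝ :=
  len z * (regLen w δ z * regLen w δ z * comp3 c.al (args w δ) z * pVec w i z
    + regLen w δ z * comp3 c.be (args w δ) z * aField w i z
    + comp3 c.ga (args w δ) z * bField w i z)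

/-- The contraction of the third derivatives with the Hessian. -/
def tA (w : (Fin d → ℝ) → ℝ) (z : Fin d → ℝ) (k : Fin d) : ℝ :=
  dot2 (fun i j => third w z i j k) (hessMat w z)

/-- The contraction of the third derivatives with the squared Hessian. -/
def tAA (w : (Fin d → ℝ) → ℝ) (z : Fin d → ℝ) (k : Fin d) : ℝ :=
  dot2 (fun i j => third w z i j k) (sqMat (hessMat w z))

/-- `tA` without its radial component. -/
def beta1 (w : (Fin d → ℝ) → ℝ) (k : Fin d) (z : Fin d → ℝ) : ℝ :=
  tA w z k + hessSq w z * z k * (dot z z)⁻¹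

/-- `tAA` without its radial component. -/
def beta2 (w : (Fin d → ℝ) → ℝ) (k : Fin d) (z : Fin d → ℝ) : ℝ :=
  tAA w z k + cube w z * z k * (dot z z)⁻¹

/-- The part of the field built from the third derivatives. -/
def tField (c : FieldsX) (w : (Fin d → ℝ) → ℝ) (δ : ℝ) (i : Fin d) (z : Fin d → ℝ) : ℝ :=
  len z * ((regLen w δ z)⁻¹ * comp3 c.b1 (args w δ) z * beta1 w i z
    + (regLen w δ z ^ 2)⁻¹ * comp3 c.b2 (args w δ) z * beta2 w i z)

/-- The field. -/
def yField (c : FieldsX) (w : (Fin d → ℝ) → ℝ) (δ : ℝ) (i : Fin d) (z : Fin d → ℝ) : ℝ :=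
  pd (potential c w δ) i z + vField c w δ i z + tField c w δ i z

/-- The gradient of the regularised length. -/
def gA (w : (Fin d → ℝ) → ℝ) (δ : ℝ) (z : Fin d → ℝ) (k : Fin d) : ℝ :=
  (tA w z k - δ * (dot z z ^ 2)⁻¹ * z k) / regLen w δ z

/-- The Laplacian of the regularised length. -/
def lA (w : (Fin d → ℝ) → ℝ) (δ : ℝ) (z : Fin d → ℝ) : ℝ :=
  (dot3 (third w z) (third w z) + δ * (4 - (d : ℝ)) * (dot z z ^ 2)⁻¹
    - dot (gA w δ z) (gA w δ z)) / regLen w δ z

/-- The gradient of `sVar`. -/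
def gS (w : (Fin d → ℝ) → ℝ) (δ : ℝ) (z : Fin d → ℝ) (k : Fin d) : ℝ :=
  len z * gA w δ z k + regLen w δ z * (z k / len z)

/-- The Laplacian of `sVar`. -/
def lS (w : (Fin d → ℝ) → ℝ) (δ : ℝ) (z : Fin d → ℝ) : ℝ :=
  len z * lA w δ z + regLen w δ z * (((d : ℝ) - 1) / len z)
    + 2 * dot (fun k => z k / len z) (gA w δ z)

/-- The gradients of the arguments. -/
def gArgs (w : (Fin d → ℝ) → ℝ) (δ : ℝ) (z : Fin d → ℝ) : Fin 4 → Fin d → ℝ :=
  ![fun k => w z * gA w δ z k + regLen w δ z * pd w k z, fun k => -2 * aField w k z,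
    fun k => 3 * tAA w z k / regLen w δ z ^ 3 - 3 * cube w z * gA w δ z k / regLen w δ z ^ 4,
    fun k => -2 * sVar w δ z * xiVal w δ z ^ 2 * gS w δ z k]

/-- The Laplacians of the arguments. -/
def lArgs (w : (Fin d → ℝ) → ℝ) (δ : ℝ) (z : Fin d → ℝ) : Fin 4 → ℝ :=
  ![w z * lA w δ z + 2 * dot (grad w z) (gA w δ z), -2 * hessSq w z,
    6 * (∑ i, ∑ j, hess w i j z * ∑ l, ∑ k, third w z i l k * third w z j l k) / regLen w δ z ^ 3
      - 18 * dot (tAA w z) (gA w δ z) / regLen w δ z ^ 4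
      + cube w z * (12 * dot (gA w δ z) (gA w δ z) / regLen w δ z ^ 5
          - 3 * lA w δ z / regLen w δ z ^ 4),
    -2 * sVar w δ z * xiVal w δ z ^ 2 * lS w δ z
      + (8 * sVar w δ z ^ 2 * xiVal w δ z ^ 3 - 2 * xiVal w δ z ^ 2)
        * dot (gS w δ z) (gS w δ z)]

/-- The gradient of one of the functions at the jet. -/
def gComp (f : (Fin 4 → ℝ) → ℝ) (w : (Fin d → ℝ) → ℝ) (δ : ℝ) (z : Fin d → ℝ) (k : Fin d) : ℝ :=
  ∑ i, pd f i (argv w δ z) * gArgs w δ z i k

/-- The Laplacian of the potential. -/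
def lapPotential (c : FieldsX) (w : (Fin d → ℝ) → ℝ) (δ : ℝ) (z : Fin d → ℝ) : ℝ :=
  c.F (argv w δ z) * lS w δ z + 2 * dot (gS w δ z) (gComp c.F w δ z)
    + sVar w δ z * ((∑ i, ∑ j, hess c.F i j (argv w δ z) * dot (gArgs w δ z i) (gArgs w δ z j))
      + ∑ i, pd c.F i (argv w δ z) * lArgs w δ z i)

/-- The divergence of the rest of the field. -/
def divRest (c : FieldsX) (w : (Fin d → ℝ) → ℝ) (δ : ℝ) (z : Fin d → ℝ) : ℝ :=
  len z * (2 * regLen w δ z * c.al (argv w δ z) * dot (gA w δ z) (fun i => pVec w i z)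
    + regLen w δ z * regLen w δ z * dot (gComp c.al w δ z) (fun i => pVec w i z)
    - regLen w δ z * regLen w δ z * c.al (argv w δ z) * ((d : ℝ) - 1) * w z * (dot z z)⁻¹
    + c.be (argv w δ z) * dot (gA w δ z) (fun i => aField w i z)
    + regLen w δ z * dot (gComp c.be w δ z) (fun i => aField w i z)
    + regLen w δ z * c.be (argv w δ z) * hessSq w z
    + dot (gComp c.ga w δ z) (fun i => bField w i z)
    + c.ga (argv w δ z) * (dot (grad w z) (tA w z) + cube w z))

/-- The divergence of the part of the field built from the third derivatives. -/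
def divTri (c : FieldsX) (w : (Fin d → ℝ) → ℝ) (δ : ℝ) (z : Fin d → ℝ) : ℝ :=
  len z * ((regLen w δ z)⁻¹ * dot (gComp c.b1 w δ z) (fun i => beta1 w i z)
    - c.b1 (argv w δ z) * (regLen w δ z ^ 2)⁻¹ * dot (gA w δ z) (fun i => beta1 w i z)
    + c.b1 (argv w δ z) * (regLen w δ z)⁻¹
      * (dot3 (third w z) (third w z) + ((d : ℝ) - 4) * hessSq w z * (dot z z)⁻¹)
    + (regLen w δ z ^ 2)⁻¹ * dot (gComp c.b2 w δ z) (fun i => beta2 w i z)
    - 2 * c.b2 (argv w δ z) * (regLen w δ z ^ 3)⁻¹ * dot (gA w δ z) (fun i => beta2 w i z)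
    + c.b2 (argv w δ z) * (regLen w δ z ^ 2)⁻¹
      * (2 * (∑ i, ∑ j, hess w i j z * ∑ l, ∑ k, third w z i l k * third w z j l k)
        + ((d : ℝ) - 5) * cube w z * (dot z z)⁻¹))

/-- The squared gradient of the test function. -/
def gradSqTest (c : FieldsX) (w : (Fin d → ℝ) → ℝ) (δ : ℝ) (z : Fin d → ℝ) : ℝ :=
  c.g (argv w δ z) ^ 2 * dot (gS w δ z) (gS w δ z) / (4 * sVar w δ z)
    + c.g (argv w δ z) * dot (gS w δ z) (gComp c.g w δ z)
    + sVar w δ z * dot (gComp c.g w δ z) (gComp c.g w δ z)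

/-- The interior expression `div Y - |grad G|^2 - γ G^2 / |x|^2`. -/
def interior (γ : ℝ) (c : FieldsX) (w : (Fin d → ℝ) → ℝ) (δ : ℝ) (z : Fin d → ℝ) : ℝ :=
  lapPotential c w δ z + divRest c w δ z + divTri c w δ z - gradSqTest c w δ z
    - γ * (sVar w δ z * c.g (argv w δ z) ^ 2 * (dot z z)⁻¹)

theorem sVar_pos (h0 : (0 : Fin d → ℝ) ∉ O) (hz : z ∈ dom w O δ) : 0 < sVar w δ z :=
  mul_pos (len_pos fun e : z = 0 => h0 (e ▸ hz.1)) (regLen_pos hz)

theorem contDiffOn_pVec (h : RegularCone u O w) (h0 : (0 : Fin d → ℝ) ∉ O) (i : Fin d) :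
    ContDiffOn ℝ 2 (pVec w i) O :=
  ((contDiffOn_pd h.smooth h.isOpen i).of_le (by norm_num)).sub
    (((h.smooth.of_le (by norm_num)).mul (contDiff_apply ℝ ℝ i).contDiffOn).mul
    (contDiff_two_dot_self.contDiffOn.inv fun y hy => (dot_self_pos fun e : y = 0 => h0 (e ▸ hy)).ne'))

theorem contDiffOn_bField (h : RegularCone u O w) (i : Fin d) : ContDiffOn ℝ 2 (bField w i) O :=
  ContDiffOn.sum fun j _ => (contDiffOn_hess h.smooth h.isOpen i j).mul
    (contDiffOn_aField h.smooth h.isOpen j)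

theorem contDiffOn_testFn (h : RegularCone u O w) (h0 : (0 : Fin d → ℝ) ∉ O) (hc : c.Smooth) :
    ContDiffOn ℝ 2 (testFn c w δ) (dom w O δ) :=
  ((contDiffOn_sVar h h0).sqrt fun _ hy => (sVar_pos h0 hy).ne').mul
    (contDiffOn_comp3 hc.g (contDiffOn_args h h0))

theorem contDiffOn_potential (h : RegularCone u O w) (h0 : (0 : Fin d → ℝ) ∉ O) (hc : c.Smooth) :
    ContDiffOn ℝ 2 (potential c w δ) (dom w O δ) :=
  (contDiffOn_sVar h h0).mul (contDiffOn_comp3 hc.F (contDiffOn_args h h0))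

theorem contDiffOn_vField (h : RegularCone u O w) (h0 : (0 : Fin d → ℝ) ∉ O) (hc : c.Smooth)
    (i : Fin d) : ContDiffOn ℝ 2 (vField c w δ i) (dom w O δ) :=
  ((contDiffOn_len h0).mono inter_subset_left).mul
    ((((((contDiffOn_regLen h h0).mul (contDiffOn_regLen h h0)).mul
      (contDiffOn_comp3 hc.al (contDiffOn_args h h0))).mul
        ((contDiffOn_pVec h h0 i).mono inter_subset_left)).add
      (((contDiffOn_regLen h h0).mul (contDiffOn_comp3 hc.be (contDiffOn_args h h0))).mul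
        ((contDiffOn_aField h.smooth h.isOpen i).mono inter_subset_left))).add
      ((contDiffOn_comp3 hc.ga (contDiffOn_args h h0)).mul
        ((contDiffOn_bField h i).mono inter_subset_left)))

theorem contDiffOn_tA (h : RegularCone u O w) (k : Fin d) :
    ContDiffOn ℝ 1 (fun y => tA w y k) O :=
  ContDiffOn.sum (s := univ) fun i _ => ContDiffOn.sum (s := univ) fun j _ =>
    (contDiffOn_third h.smooth h.isOpen i j k).mul
      ((contDiffOn_hess h.smooth h.isOpen i j).of_le (by norm_num))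

theorem contDiffOn_tAA (h : RegularCone u O w) (k : Fin d) :
    ContDiffOn ℝ 1 (fun y => tAA w y k) O :=
  ContDiffOn.sum (s := univ) fun i _ => ContDiffOn.sum (s := univ) fun j _ =>
    (contDiffOn_third h.smooth h.isOpen i j k).mul (ContDiffOn.sum (s := univ) fun l _ =>
      ((contDiffOn_hess h.smooth h.isOpen i l).mul
        (contDiffOn_hess h.smooth h.isOpen l j)).of_le (by norm_num))

theorem contDiffOn_beta1 (h : RegularCone u O w) (h0 : (0 : Fin d → ℝ) ∉ O) (k : Fin d) :
    ContDiffOn ℝ 1 (beta1 w k) O :=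
  (contDiffOn_tA h k).add ((((contDiffOn_hessSq h.smooth h.isOpen).of_le (by norm_num)).mul
    (contDiff_apply ℝ ℝ k).contDiffOn).mul ((contDiff_two_dot_self.of_le
      (by norm_num)).contDiffOn.inv fun y hy =>
      (dot_self_pos fun e : y = 0 => h0 (e ▸ hy)).ne'))

theorem contDiffOn_beta2 (h : RegularCone u O w) (h0 : (0 : Fin d → ℝ) ∉ O) (k : Fin d) :
    ContDiffOn ℝ 1 (beta2 w k) O :=
  (contDiffOn_tAA h k).add ((((contDiffOn_cube h).of_le (by norm_num)).mul
    (contDiff_apply ℝ ℝ k).contDiffOn).mul ((contDiff_two_dot_self.of_le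
      (by norm_num)).contDiffOn.inv fun y hy =>
      (dot_self_pos fun e : y = 0 => h0 (e ▸ hy)).ne'))

theorem contDiffOn_tField (h : RegularCone u O w) (h0 : (0 : Fin d → ℝ) ∉ O) (hc : c.Smooth)
    (i : Fin d) : ContDiffOn ℝ 1 (tField c w δ i) (dom w O δ) :=
  (((contDiffOn_len h0).mono inter_subset_left).of_le (by norm_num)).mul
    ((((((contDiffOn_regLen h h0).inv fun y hy => (regLen_pos hy).ne').mul
      (contDiffOn_comp3 hc.b1 (contDiffOn_args h h0))).of_le (by norm_num)).mul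
        ((contDiffOn_beta1 h h0 i).mono inter_subset_left)).add
      ((((((contDiffOn_regLen h h0).pow 2).inv fun y hy => (pow_pos (regLen_pos hy) 2).ne').mul
        (contDiffOn_comp3 hc.b2 (contDiffOn_args h h0))).of_le (by norm_num)).mul
          ((contDiffOn_beta2 h h0 i).mono inter_subset_left)))

theorem contDiffOn_yField (h : RegularCone u O w) (h0 : (0 : Fin d → ℝ) ∉ O) (hc : c.Smooth)
    (i : Fin d) : ContDiffOn ℝ 1 (yField c w δ i) (dom w O δ) :=
  ((contDiffOn_pd (contDiffOn_potential h h0 hc) (isOpen_dom h h0 δ) i).add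
    ((contDiffOn_vField h h0 hc i).of_le (by norm_num))).add (contDiffOn_tField h h0 hc i)

theorem hasDerivAt_xi (t : ℝ) :
    HasDerivAt (fun t : ℝ => (1 + t * t)⁻¹) (-2 * t * ((1 + t * t)⁻¹) ^ 2) t := by
  refine ((((hasDerivAt_id' t).mul (hasDerivAt_id' t)).const_add 1).fun_inv
    (one_add_sq_ne t)).congr_deriv ?_
  have := one_add_sq_ne t
  simp only [Pi.mul_apply]
  field_simp
  ring

theorem hasDerivAt_xi' (t : ℝ) :
    HasDerivAt (fun t : ℝ => -2 * t * ((1 + t * t)⁻¹) ^ 2)
      (8 * t ^ 2 * ((1 + t * t)⁻¹) ^ 3 - 2 * ((1 + t * t)⁻¹) ^ 2) t := by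
  refine (((hasDerivAt_id' t).const_mul (-2)).mul ((hasDerivAt_xi t).fun_pow 2)).congr_deriv ?_
  push_cast
  ring

section derivs

variable (h : RegularCone u O w) (h0 : (0 : Fin d → ℝ) ∉ O)
include h h0

theorem grad_regLen (hz : z ∈ dom w O δ) : grad (regLen w δ) z = gA w δ z :=
  funext fun k => pd_regLen h h0 hz k

theorem diff_regLen (hz : z ∈ dom w O δ) : DifferentiableAt ℝ (regLen w δ) z :=
  differentiableAt_of_smooth (contDiffOn_regLen h h0) (isOpen_dom h h0 δ) hz

theorem grad_sVar (hz : z ∈ dom w O δ) : grad (sVar w δ) z = gS w δ z := by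
  funext k
  rw [grad, show sVar w δ = fun y => len y * regLen w δ y from rfl,
    pd_mul (differentiableAt_of_smooth (contDiffOn_len h0) h.isOpen hz.1) (diff_regLen h h0 hz),
    pd_len (fun e : z = 0 => h0 (e ▸ hz.1)), pd_regLen h h0 hz]
  rfl

theorem lap_regLen' (hu : 0 < u z) (hz : z ∈ dom w O δ) : lap (regLen w δ) z = lA w δ z := by
  rw [lap_regLen h h0 hu hz, grad_regLen h h0 hz]
  rfl

theorem lap_sVar (hu : 0 < u z) (hz : z ∈ dom w O δ) : lap (sVar w δ) z = lS w δ z := by
  have hz0 : z ≠ 0 := fun e => h0 (e ▸ hz.1)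
  rw [show sVar w δ = fun y => len y * regLen w δ y from rfl,
    lap_mul (isOpen_dom h h0 δ) ((contDiffOn_len h0).mono inter_subset_left) (contDiffOn_regLen h h0) hz,
    lap_regLen' h h0 hu hz, lap_len hz0, grad_regLen h h0 hz,
    show grad len z = fun k => z k / len z from funext fun k => pd_len hz0 k]
  rfl

theorem grad_args (hz : z ∈ dom w O δ) (i : Fin 4) : grad (args w δ i) z = gArgs w δ z i := by
  have ha := diff_regLen h h0 hz
  have hne := (regLen_pos hz).ne'
  fin_cases i <;> funext k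
  · show pd (fun y => w y * regLen w δ y) k z = w z * gA w δ z k + regLen w δ z * pd w k z
    rw [pd_mul (differentiableAt_of_smooth h.smooth h.isOpen hz.1) ha, pd_regLen h h0 hz]
    rfl
  · show pd (fun y => 1 - dot (grad w y) (grad w y)) k z = -2 * aField w k z
    have hp : ∀ i, DifferentiableAt ℝ (pd w i) z := fun i =>
      differentiableAt_of_smooth (contDiffOn_pd h.smooth h.isOpen i) h.isOpen hz.1
    rw [show (fun y => 1 - dot (grad w y) (grad w y))
        = fun y => 1 - ∑ i, pd w i y * pd w i y from rfl,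
      pd_sub (g := fun y => ∑ i, pd w i y * pd w i y) (differentiableAt_const _)
        (DifferentiableAt.fun_sum fun i _ => (hp i).mul (hp i)),
      pd_const, pd_sum _ (F := fun i y => pd w i y * pd w i y) fun i _ => (hp i).mul (hp i)]
    simp only [pd_mul (hp _) (hp _), aField, app, mul_sum]
    rw [zero_sub, ← sum_neg_distrib]
    exact sum_congr rfl fun i _ => by
      simp only [hessMat, grad]
      rw [hess_comm_of h.smooth h.isOpen hz.1 k i]
      simp only [hess]
      ring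
  · show pd (fun y => cube w y * (regLen w δ y ^ 3)⁻¹) k z
      = 3 * tAA w z k / regLen w δ z ^ 3 - 3 * cube w z * gA w δ z k / regLen w δ z ^ 4
    rw [pd_mul (differentiableAt_of_smooth (contDiffOn_cube h) h.isOpen hz.1)
        ((ha.fun_pow 3).fun_inv (pow_ne_zero 3 hne)), pd_cube h hz.1,
      pd_comp (φ := fun t => (t ^ 3)⁻¹) ((hasDerivAt_pow 3 (regLen w δ z)).fun_inv (pow_ne_zero 3 hne))
        ha k, pd_regLen h h0 hz]
    simp only [tAA, gA, tA]
    field_simp
    push_cast
    ring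
  · show pd (fun y => (1 + sVar w δ y * sVar w δ y)⁻¹) k z
      = -2 * sVar w δ z * xiVal w δ z ^ 2 * gS w δ z k
    rw [pd_comp (hasDerivAt_xi (sVar w δ z))
        (differentiableAt_of_smooth (contDiffOn_sVar h h0) (isOpen_dom h h0 δ) hz) k,
      show pd (sVar w δ) k z = gS w δ z k from congr_fun (grad_sVar h h0 hz) k]
    rfl

theorem lap_args (hu : 0 < u z) (hz : z ∈ dom w O δ) (i : Fin 4) :
    lap (args w δ i) z = lArgs w δ z i := by
  have hV := isOpen_dom h h0 δ
  have hne := (regLen_pos hz).ne'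
  have hw : lap w z = 0 := h.trace_pos hu
  fin_cases i
  · show lap (fun y => w y * regLen w δ y) z = w z * lA w δ z + 2 * dot (grad w z) (gA w δ z)
    rw [lap_mul hV ((h.smooth.of_le (by norm_num)).mono inter_subset_left) (contDiffOn_regLen h h0) hz, hw,
      lap_regLen' h h0 hu hz, grad_regLen h h0 hz]
    ring
  · show lap (fun y => 1 - dot (grad w y) (grad w y)) z = -2 * hessSq w z
    have hp : ∀ i, ContDiffOn ℝ 2 (pd w i) O := fun i =>
      (contDiffOn_pd h.smooth h.isOpen i).of_le (by norm_num)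
    have hl : ∀ i, lap (pd w i) z = 0 := fun i => by
      refine Eq.trans (sum_congr rfl fun k _ => ?_) (h.third_trace_pos hu i)
      rw [← third_comm₂ h.smooth h.isOpen hz.1 k i k, ← third_comm₁ h.smooth h.isOpen hz.1 i k k]
      rfl
    have hsq : ∀ i, ContDiffOn ℝ 2 (fun y => pd w i y * pd w i y) O := fun i => (hp i).mul (hp i)
    have e : (fun y => 1 - dot (grad w y) (grad w y))
        = fun y => 1 + ∑ i, (-1) * (pd w i y * pd w i y) := funext fun y => by
      simp only [dot, grad, neg_one_mul, sum_neg_distrib]; ring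
    rw [e]
    have hs : ∀ i, ContDiffOn ℝ 2 (fun y => (-1 : ℝ) * (pd w i y * pd w i y)) O := fun i =>
      contDiffOn_const.mul (hsq i)
    have h1 : ∀ k, hess (fun y => 1 + ∑ i, (-1) * (pd w i y * pd w i y)) k k z
        = hess (fun y => ∑ i, (-1) * (pd w i y * pd w i y)) k k z := fun k => by
      refine pd_congr ?_ k
      filter_upwards [h.isOpen.mem_nhds hz.1] with y hy
      rw [pd_add (differentiableAt_const _) (DifferentiableAt.fun_sum fun i _ =>
        differentiableAt_of_smooth (hs i) h.isOpen hy), pd_const, zero_add]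
    rw [show lap (fun y => 1 + ∑ i, (-1) * (pd w i y * pd w i y)) z
      = lap (fun y => ∑ i, (-1) * (pd w i y * pd w i y)) z from sum_congr rfl fun k _ => h1 k,
      lap_sum _ h.isOpen hs hz.1]
    simp only [lap_mul h.isOpen contDiffOn_const (hsq _) hz.1, lap_mul h.isOpen (hp _) (hp _) hz.1,
      hl, mul_zero, zero_add]
    simp only [lap, hess, pd_const, grad, dot, zero_mul, mul_zero, sum_const_zero, add_zero,
      hessSq, dot2, hessMat, mul_sum]
    exact sum_congr rfl fun i _ => sum_congr rfl fun j _ => by ring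
  · show lap (fun y => cube w y * (regLen w δ y ^ 3)⁻¹) z = _
    have hpos := regLen_pos hz
    have hinv : ContDiffOn ℝ 2 (fun y => (regLen w δ y ^ 3)⁻¹) (dom w O δ) :=
      ((contDiffOn_regLen h h0).pow 3).inv fun y hy => (pow_pos (regLen_pos hy) 3).ne'
    have d1 : ∀ᶠ t in 𝓝 (regLen w δ z),
        HasDerivAt (fun t : ℝ => (t ^ 3)⁻¹) (-3 * (t ^ 4)⁻¹) t := by
      filter_upwards [lt_mem_nhds hpos] with t ht
      refine ((hasDerivAt_pow 3 t).fun_inv (pow_ne_zero 3 ht.ne')).congr_deriv ?_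
      have := ht.ne'
      field_simp
      push_cast
      ring
    have d2 : HasDerivAt (fun t : ℝ => -3 * (t ^ 4)⁻¹) (12 * (regLen w δ z ^ 5)⁻¹) (regLen w δ z) := by
      refine (((hasDerivAt_pow 4 (regLen w δ z)).fun_inv (pow_ne_zero 4 hne)).const_mul (-3)).congr_deriv ?_
      field_simp
      push_cast
      ring
    rw [lap_mul hV ((contDiffOn_cube h).mono inter_subset_left) hinv hz, lap_cube h hu,
      lap_comp (φ := fun t => (t ^ 3)⁻¹) (φ' := fun t => -3 * (t ^ 4)⁻¹) hV (contDiffOn_regLen h h0)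
        hz d1 d2, lap_regLen' h h0 hu hz, grad_regLen h h0 hz,
      show grad (fun y => (regLen w δ y ^ 3)⁻¹) z
        = fun k => -3 * (regLen w δ z ^ 4)⁻¹ * gA w δ z k from funext fun k => by
          rw [grad, pd_comp d1.self_of_nhds (diff_regLen h h0 hz) k, pd_regLen h h0 hz]
          rfl,
      show grad (cube w) z = fun k => 3 * tAA w z k from funext fun k => pd_cube h hz.1 k,
      show dot (fun k => 3 * tAA w z k) (fun k => -3 * (regLen w δ z ^ 4)⁻¹ * gA w δ z k)
        = -9 * (regLen w δ z ^ 4)⁻¹ * dot (tAA w z) (gA w δ z) by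
          simp only [dot, mul_sum]; exact sum_congr rfl fun k _ => by ring]
    simp only [lArgs, Fin.reduceFinMk, Matrix.cons_val]
    field_simp
    ring
  · show lap (fun y => (1 + sVar w δ y * sVar w δ y)⁻¹) z = _
    rw [lap_comp (φ := fun t : ℝ => (1 + t * t)⁻¹) (φ' := fun t => -2 * t * ((1 + t * t)⁻¹) ^ 2) hV
        (contDiffOn_sVar h h0) hz (.of_forall hasDerivAt_xi) (hasDerivAt_xi' _),
      lap_sVar h h0 hu hz, grad_sVar h h0 hz]
    simp only [lArgs, xiVal, Fin.reduceFinMk, Matrix.cons_val]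

theorem grad_comp (hz : z ∈ dom w O δ) {f : (Fin 4 → ℝ) → ℝ} (hf : ContDiff ℝ ∞ f) :
    grad (comp3 f (args w δ)) z = gComp f w δ z := by
  funext k
  rw [grad, pd_comp3 (hf.differentiable (by simp) _) fun i =>
    differentiableAt_of_smooth (contDiffOn_args h h0 i) (isOpen_dom h h0 δ) hz]
  refine sum_congr rfl fun i _ => ?_
  rw [← grad_args h h0 hz i]
  rfl

theorem lap_potential (hc : c.Smooth) (hu : 0 < u z) (hz : z ∈ dom w O δ) :
    lap (potential c w δ) z = lapPotential c w δ z := by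
  rw [show potential c w δ = fun y => sVar w δ y * comp3 c.F (args w δ) y from rfl,
    lap_mul (isOpen_dom h h0 δ) (contDiffOn_sVar h h0) (contDiffOn_comp3 hc.F (contDiffOn_args h h0)) hz,
    lap_comp3 hc.F (isOpen_dom h h0 δ) (contDiffOn_args h h0) hz, lap_sVar h h0 hu hz,
    grad_sVar h h0 hz, grad_comp h h0 hz hc.F]
  simp only [grad_args h h0 hz, lap_args h h0 hu hz]
  simp only [lapPotential, comp3, show (fun i => args w δ i z) = argv w δ z from rfl]
  ring

end derivs

end

end Vale.Agent.P098.Div
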