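import Vale.Agent.P098.Div.Interior

/-!
# P098: an eigen-frame of the Hessian at a point
-/

namespace Vale.Agent.P098.Div

open Vale.Agent.P098.Cone Vale.Agent.P098.Jet
open Finset Matrix

noncomputable section

variable {m : ℕ}

/-- An orthonormal frame that starts with the direction of `z` and diagonalises `A`. -/
structure Frame (A : Fin (m + 1) → Fin (m + 1) → ℝ) (z : Fin (m + 1) → ℝ) where
  /-- the vectors -/
  b : Fin (m + 1) → Fin (m + 1) → ℝ
  /-- the eigenvalues orthogonal to `z` -/
  e : Fin m → ℝ
  complete : ∀ i j, ∑ a, b a i * b a j = if i = j then (1 : ℝ) else 0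
  orth : ∀ a c, dot (b a) (b c) = if a = c then (1 : ℝ) else 0
  first : ∀ i, b 0 i = z i / len z
  diag : ∀ i j, A i j = ∑ k : Fin m, e k * (b k.succ i * b k.succ j)

theorem parseval_of_complete {d : ℕ} {b : Fin d → Fin d → ℝ}
    (hb : ∀ i j, ∑ a, b a i * b a j = if i = j then (1 : ℝ) else 0) (p q : Fin d → ℝ) :
    dot p q = ∑ a, dot (b a) p * dot (b a) q := by
  calc dot p q = ∑ i, ∑ j, p i * q j * (if i = j then (1 : ℝ) else 0) := by
        simp [dot]
    _ = ∑ i, ∑ j, ∑ a, b a i * p i * (b a j * q j) := sum_congr rfl fun i _ =>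
        sum_congr rfl fun j _ => by
          rw [← hb, mul_sum]; exact sum_congr rfl fun a _ => by ring
    _ = _ := by
        simp only [dot, sum_mul, mul_sum]
        rw [sum_comm (γ := Fin d)]
        refine Eq.trans ?_ sum_comm
        refine sum_congr rfl fun j _ => ?_
        rw [sum_comm]

theorem exists_frame {A : Fin (m + 1) → Fin (m + 1) → ℝ} {z : Fin (m + 1) → ℝ} (hz : z ≠ 0)
    (hA : ∀ i j, A i j = A j i) (hAz : ∀ i, app A z i = 0) : Nonempty (Frame A z) := by
  have hr := len_pos hz
  set v : Fin (m + 1) → ℝ := fun i => z i / len z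
  have hvv : dot v v = 1 := by
    simp only [dot, v, div_mul_div_comm, ← sum_div]
    rw [show ∑ i, z i * z i = len z * len z from (len_sq z).symm]
    field_simp
  have hAv : ∀ i, app A v i = 0 := fun i => by
    have := hAz i
    simp only [app, v, mul_div_assoc'] at this ⊢
    rw [← sum_div, this, zero_div]
  set c := dot2 A A + 1 with hc
  have hc1 : dot2 A A < c * c := by nlinarith [dot2_self_nonneg A]
  have hM : (Matrix.of fun i j => A i j + c * (v i * v j)).IsHermitian := by
    ext i j
    simp only [conjTranspose_apply, Matrix.of_apply, star_trivial]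
    rw [hA j i]; ring
  set B := hM.eigenvectorBasis
  set lam := hM.eigenvalues
  set p : Fin (m + 1) → Fin (m + 1) → ℝ := fun a i => B a i
  have horth : ∀ a a', dot (p a) (p a') = if a = a' then (1 : ℝ) else 0 := by
    intro a a'
    have := orthonormal_iff_ite.1 B.orthonormal a a'
    rw [← this]
    simp [PiLp.inner_apply, p, dot, mul_comm]
  have hcomp : ∀ i j, ∑ a, p a i * p a j = if i = j then (1 : ℝ) else 0 := by
    intro i j
    have h1 : Matrix.of p * (Matrix.of p)ᵀ = 1 := by
      ext a a'
      simp only [Matrix.mul_apply, Matrix.transpose_apply, Matrix.of_apply, Matrix.one_apply]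
      exact horth a a'
    have h3 : (Matrix.of p)ᵀ * Matrix.of p = 1 := mul_eq_one_comm.1 h1
    have h2 := congr_fun (congr_fun h3 i) j
    simpa [Matrix.mul_apply, Matrix.transpose_apply, Matrix.of_apply, Matrix.one_apply] using h2
  have heig : ∀ a i, app A (p a) i + c * v i * dot v (p a) = lam a * p a i := by
    intro a i
    have := congr_fun (hM.mulVec_eigenvectorBasis a) i
    simp only [Matrix.mulVec, dotProduct, Matrix.of_apply, Pi.smul_apply, smul_eq_mul] at this
    rw [← this]
    simp only [app, dot, mul_sum, ← sum_add_distrib]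
    exact sum_congr rfl fun j _ => by simp only [p]; ring
  have hdot : ∀ a, (c - lam a) * dot v (p a) = 0 := by
    intro a
    have : dot v (fun i => app A (p a) i + c * v i * dot v (p a)) = lam a * dot v (p a) := by
      simp only [heig]
      simp only [dot, mul_sum]
      exact sum_congr rfl fun i _ => by ring
    rw [show (fun i => app A (p a) i + c * v i * dot v (p a))
      = fun i => 1 * app A (p a) i + c * dot v (p a) * v i from funext fun i => by ring, dot_lin,
      show dot v (fun i => app A (p a) i) = dot (app A v) (p a) from (dot_app hA v (p a)).symm,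
      show dot (app A v) (p a) = 0 by simp [dot, hAv], hvv] at this
    linarith
  obtain ⟨a0, ha0⟩ : ∃ a, dot v (p a) ≠ 0 := by
    by_contra hno
    simp only [not_exists, not_not] at hno
    have := parseval_of_complete hcomp v v
    simp [dot_comm _ v, hno, hvv] at this
  have hla : lam a0 = c := by
    have := (mul_eq_zero.1 (hdot a0)).resolve_right ha0
    linarith
  set α := dot v (p a0)
  set q : Fin (m + 1) → ℝ := fun i => p a0 i - α * v i
  have hq : ∀ i, q i = 0 := by
    have e1 : ∀ i, app A q i = c * q i := fun i => by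
      have := heig a0 i
      rw [hla] at this
      have e : app A q i = app A (p a0) i - α * app A v i := by
        simp only [app, q, mul_sum, ← sum_sub_distrib]
        exact sum_congr rfl fun j _ => by ring
      rw [e, hAv i]
      simp only [q, α] at this ⊢
      linarith
    have e2 : dot (app A q) (app A q) ≤ dot2 A A * dot q q := by
      have h1 : ∀ i, app A q i * app A q i ≤ (∑ j, A i j * A i j) * dot q q := fun i => by
        have := dot_sq_le (A i) q
        simpa [sq, dot, app] using this
      exact (sum_le_sum fun i _ => h1 i).trans_eq (sum_mul _ _ _).symm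
    have e3 : dot (app A q) (app A q) = c * c * dot q q := by
      simp only [dot, e1, mul_sum]; exact sum_congr rfl fun i _ => by ring
    have e4 : dot q q = 0 := by
      have := dot_self_nonneg q
      nlinarith
    exact fun i => mul_self_eq_zero.1
      ((sum_eq_zero_iff_of_nonneg fun j _ => mul_self_nonneg (q j)).1 e4 i (mem_univ i))
  have hα : α * α = 1 := by
    have := horth a0 a0
    rw [if_pos rfl, show p a0 = fun i => α * v i from funext fun i => sub_eq_zero.1 (hq i)] at this
    simp only [dot] at this
    rw [show ∑ i, α * v i * (α * v i) = α * α * dot v v by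
      simp only [dot, mul_sum]; exact sum_congr rfl fun i _ => by ring, hvv, mul_one] at this
    exact this
  set σ := Equiv.swap (0 : Fin (m + 1)) a0
  set b : Fin (m + 1) → Fin (m + 1) → ℝ := fun a i => if a = 0 then v i else p (σ a) i
  have hσ : ∀ k : Fin m, σ k.succ ≠ a0 := fun k e => Fin.succ_ne_zero k (σ.injective
    (e.trans (Equiv.swap_apply_left 0 a0).symm))
  have hperp : ∀ a, a ≠ a0 → dot v (p a) = 0 := by
    intro a ha
    have := horth a0 a
    rw [if_neg fun e => ha e.symm, show p a0 = fun i => α * v i from funext fun i =>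
      sub_eq_zero.1 (hq i)] at this
    simp only [dot, mul_assoc, ← mul_sum] at this
    exact (mul_eq_zero.1 this).resolve_left fun h0 => by rw [h0] at hα; simp at hα
  have hbo : ∀ a a', dot (b a) (b a') = if a = a' then (1 : ℝ) else 0 := by
    intro a a'
    induction a using Fin.cases with
    | zero =>
      induction a' using Fin.cases with
      | zero => simpa [b] using hvv
      | succ k =>
        rw [if_neg (Fin.succ_ne_zero k).symm]
        simpa [b, Fin.succ_ne_zero] using hperp _ (hσ k)
    | succ k =>
      induction a' using Fin.cases with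
      | zero =>
        rw [if_neg (Fin.succ_ne_zero k), dot_comm]
        simpa [b, Fin.succ_ne_zero] using hperp _ (hσ k)
      | succ k' =>
        simp only [b, Fin.succ_ne_zero, if_false]
        rw [horth]
        simp [σ.injective.eq_iff]
  have hbc : ∀ i j, ∑ a, b a i * b a j = if i = j then (1 : ℝ) else 0 := by
    intro i j
    rw [← hcomp i j, ← Equiv.sum_comp σ (fun a => p a i * p a j), Fin.sum_univ_succ, Fin.sum_univ_succ]
    congr 1
    · simp only [b, if_true, σ, Equiv.swap_apply_left,
        show ∀ i, p a0 i = α * v i from fun i => sub_eq_zero.1 (hq i)]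
      linear_combination (-(v i * v j)) * hα
  refine ⟨⟨b, fun k => lam (σ k.succ), hbc, hbo, fun i => by simp [b, v], fun i j => ?_⟩⟩
  have h1 : ∀ k : Fin m, app A (b k.succ) i = lam (σ k.succ) * b k.succ i := fun k => by
    have := heig (σ k.succ) i
    rw [hperp _ (hσ k), mul_zero, add_zero] at this
    simpa [b, Fin.succ_ne_zero] using this
  have h2 : A i j = ∑ a, app A (b a) i * b a j := by
    simp only [app, sum_mul, mul_assoc]
    rw [sum_comm]
    simp only [← mul_sum, hbc, mul_ite, mul_one, mul_zero, sum_ite_eq', mem_univ, if_true]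
  rw [h2, Fin.sum_univ_succ, show app A (b 0) i = 0 by simpa [b] using hAv i, zero_mul, zero_add]
  exact sum_congr rfl fun k _ => by rw [h1]; ring

namespace Frame

variable {A : Fin (m + 1) → Fin (m + 1) → ℝ} {z : Fin (m + 1) → ℝ} (f : Frame A z)
include f

theorem parseval (p q : Fin (m + 1) → ℝ) : dot p q = ∑ a, dot (f.b a) p * dot (f.b a) q :=
  parseval_of_complete f.complete p q

theorem dot2_left (X : Fin (m + 1) → Fin (m + 1) → ℝ) :
    dot2 X A = ∑ k : Fin m, f.e k * ∑ i, ∑ j, X i j * (f.b k.succ i * f.b k.succ j) := by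
  simp only [dot2, f.diag, mul_sum]
  refine Eq.trans (sum_congr rfl fun i _ => sum_comm) ?_
  rw [sum_comm]
  exact sum_congr rfl fun k _ => sum_congr rfl fun i _ => sum_congr rfl fun j _ => by ring

theorem app_eigen (k : Fin m) (i : Fin (m + 1)) : app A (f.b k.succ) i = f.e k * f.b k.succ i := by
  calc app A (f.b k.succ) i
      = ∑ c : Fin m, f.e c * f.b c.succ i * dot (f.b c.succ) (f.b k.succ) := by
        simp only [app, f.diag, sum_mul, dot, mul_sum]
        rw [sum_comm]
        exact sum_congr rfl fun c _ => sum_congr rfl fun j _ => by ring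
    _ = _ := by simp [f.orth]

theorem app_first (i : Fin (m + 1)) : app A (f.b 0) i = 0 := by
  calc app A (f.b 0) i
      = ∑ c : Fin m, f.e c * f.b c.succ i * dot (f.b c.succ) (f.b 0) := by
        simp only [app, f.diag, sum_mul, dot, mul_sum]
        rw [sum_comm]
        exact sum_congr rfl fun c _ => sum_congr rfl fun j _ => by ring
    _ = _ := by simp [f.orth, Fin.succ_ne_zero]

theorem sqMat_eq (i j : Fin (m + 1)) :
    sqMat A i j = ∑ k : Fin m, f.e k ^ 2 * (f.b k.succ i * f.b k.succ j) := by
  calc sqMat A i j = ∑ c, A i c * ∑ k : Fin m, f.e k * (f.b k.succ c * f.b k.succ j) := by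
        simp only [sqMat, ← f.diag]
    _ = ∑ k : Fin m, f.e k * f.b k.succ j * app A (f.b k.succ) i := by
        simp only [app, mul_sum]
        rw [sum_comm]
        exact sum_congr rfl fun k _ => sum_congr rfl fun c _ => by ring
    _ = _ := sum_congr rfl fun k _ => by rw [f.app_eigen]; ring

theorem pairing (k : Fin m) :
    ∑ i, ∑ j, A i j * (f.b k.succ i * f.b k.succ j) = f.e k := by
  calc ∑ i, ∑ j, A i j * (f.b k.succ i * f.b k.succ j) = dot (app A (f.b k.succ)) (f.b k.succ) := by
        simp only [dot, app, sum_mul]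
        exact sum_congr rfl fun i _ => sum_congr rfl fun j _ => by ring
    _ = f.e k * dot (f.b k.succ) (f.b k.succ) := by
        simp only [dot, f.app_eigen, mul_sum]
        exact sum_congr rfl fun i _ => by ring
    _ = _ := by rw [f.orth, if_pos rfl, mul_one]

theorem pairing_sq (k : Fin m) :
    ∑ i, ∑ j, sqMat A i j * (f.b k.succ i * f.b k.succ j) = f.e k ^ 2 := by
  calc ∑ i, ∑ j, sqMat A i j * (f.b k.succ i * f.b k.succ j)
      = ∑ c : Fin m, f.e c ^ 2 * (dot (f.b c.succ) (f.b k.succ) * dot (f.b c.succ) (f.b k.succ)) := by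
        simp only [f.sqMat_eq, dot, sum_mul, mul_sum]
        refine Eq.trans (sum_congr rfl fun i _ => sum_comm) ?_
        rw [sum_comm]
        exact sum_congr rfl fun c _ => sum_congr rfl fun i _ => sum_congr rfl fun j _ => by ring
    _ = _ := by simp [f.orth]

theorem sum_e : ∑ i, A i i = ∑ k, f.e k := by
  simp only [f.diag]
  rw [sum_comm]
  exact sum_congr rfl fun k _ => by
    rw [← mul_sum, show ∑ i, f.b k.succ i * f.b k.succ i = 1 from (f.orth _ _).trans (if_pos rfl),
      mul_one]

theorem sum_e_sq : dot2 A A = ∑ k, f.e k ^ 2 := by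
  rw [f.dot2_left]
  exact sum_congr rfl fun k _ => by rw [f.pairing]; ring

theorem sum_e_cube : dot2 (sqMat A) A = ∑ k, f.e k ^ 3 := by
  rw [f.dot2_left]
  exact sum_congr rfl fun k _ => by rw [f.pairing_sq]; ring

theorem sum_e_four : dot2 (sqMat A) (sqMat A) = ∑ k, f.e k ^ 4 := by
  calc dot2 (sqMat A) (sqMat A)
      = ∑ k : Fin m, f.e k ^ 2 * ∑ i, ∑ j, sqMat A i j * (f.b k.succ i * f.b k.succ j) := by
        simp only [dot2, mul_sum]
        conv_lhs =>
          arg 2; ext i; arg 2; ext j
          rw [f.sqMat_eq i j, sum_mul]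
        refine Eq.trans (sum_congr rfl fun i _ => sum_comm) ?_
        rw [sum_comm]
        exact sum_congr rfl fun k _ => sum_congr rfl fun i _ => sum_congr rfl fun j _ => by
          rw [f.sqMat_eq i j]; ring
    _ = _ := sum_congr rfl fun k _ => by rw [f.pairing_sq]; ring

theorem parseval_sq (g : Fin (m + 1) → ℝ) :
    ∑ i, g i * g i = ∑ a, (∑ i, f.b a i * g i) * ∑ i, f.b a i * g i := f.parseval g g

/-- The squared length of a tensor in the frame. -/
theorem tensor_sq (T : Fin (m + 1) → Fin (m + 1) → Fin (m + 1) → ℝ) :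
    dot3 T T = ∑ a, ∑ c, ∑ e,
      (∑ i, ∑ j, ∑ k, f.b a i * (f.b c j * (f.b e k * T i j k))) ^ 2 := by
  calc dot3 T T = ∑ i, ∑ j, ∑ e, (∑ k, f.b e k * T i j k) * ∑ k, f.b e k * T i j k :=
        sum_congr rfl fun i _ => sum_congr rfl fun j _ => f.parseval_sq _
    _ = ∑ i, ∑ e, ∑ c, (∑ j, f.b c j * ∑ k, f.b e k * T i j k)
          * ∑ j, f.b c j * ∑ k, f.b e k * T i j k := by
        refine sum_congr rfl fun i _ => ?_
        rw [sum_comm]
        exact sum_congr rfl fun e _ => f.parseval_sq _
    _ = ∑ e, ∑ c, ∑ a, (∑ i, f.b a i * ∑ j, f.b c j * ∑ k, f.b e k * T i j k)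
          * ∑ i, f.b a i * ∑ j, f.b c j * ∑ k, f.b e k * T i j k := by
        rw [sum_comm]
        refine sum_congr rfl fun e _ => ?_
        rw [sum_comm]
        exact sum_congr rfl fun c _ => f.parseval_sq _
    _ = _ := by
        rw [sum_comm]
        refine Eq.trans (sum_congr rfl fun c _ => sum_comm) ?_
        rw [sum_comm]
        simp only [mul_sum, ← sq]

/-- The contraction `tr (A T T)` in the frame. -/
theorem tensor_weight (T : Fin (m + 1) → Fin (m + 1) → Fin (m + 1) → ℝ) :
    ∑ i, ∑ j, A i j * ∑ l, ∑ k, T i l k * T j l k = ∑ a : Fin m, f.e a * ∑ c, ∑ e,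
      (∑ i, ∑ j, ∑ k, f.b a.succ i * (f.b c j * (f.b e k * T i j k))) ^ 2 := by
  calc ∑ i, ∑ j, A i j * ∑ l, ∑ k, T i l k * T j l k
      = ∑ a : Fin m, f.e a * ∑ l, ∑ k, (∑ i, f.b a.succ i * T i l k) * ∑ i, f.b a.succ i * T i l k := by
        have e1 : ∑ i, ∑ j, A i j * ∑ l, ∑ k, T i l k * T j l k
            = ∑ l, ∑ k, dot2 (fun i j => T i l k * T j l k) A := by
          simp only [dot2, mul_sum]
          refine Eq.trans (sum_congr rfl fun i _ => sum_comm) ?_
          rw [sum_comm]
          refine sum_congr rfl fun l _ => ?_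
          refine Eq.trans (sum_congr rfl fun i _ => sum_comm) ?_
          rw [sum_comm]
          exact sum_congr rfl fun k _ => sum_congr rfl fun i _ => sum_congr rfl fun j _ => mul_comm _ _
        have e2 : ∀ (a : Fin m) l k, ∑ i, ∑ j, T i l k * T j l k * (f.b a.succ i * f.b a.succ j)
            = (∑ i, f.b a.succ i * T i l k) * ∑ i, f.b a.succ i * T i l k := fun a l k => by
          rw [sum_mul_sum]
          exact sum_congr rfl fun i _ => sum_congr rfl fun j _ => by ring
        simp only [e1, f.dot2_left, e2]
        refine Eq.trans (sum_congr rfl fun l _ => sum_comm) ?_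
        rw [sum_comm]
        exact sum_congr rfl fun a _ => by simp only [mul_sum]
    _ = _ := by
        refine sum_congr rfl fun a _ => congrArg _ ?_
        calc ∑ l, ∑ k, (∑ i, f.b a.succ i * T i l k) * ∑ i, f.b a.succ i * T i l k
            = ∑ l, ∑ e, (∑ k, f.b e k * ∑ i, f.b a.succ i * T i l k)
                * ∑ k, f.b e k * ∑ i, f.b a.succ i * T i l k :=
              sum_congr rfl fun l _ => f.parseval_sq _
          _ = ∑ e, ∑ c, (∑ l, f.b c l * ∑ k, f.b e k * ∑ i, f.b a.succ i * T i l k)
                * ∑ l, f.b c l * ∑ k, f.b e k * ∑ i, f.b a.succ i * T i l k := by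
              rw [sum_comm]
              exact sum_congr rfl fun e _ => f.parseval_sq _
          _ = _ := by
              rw [sum_comm]
              refine sum_congr rfl fun c _ => sum_congr rfl fun e _ => ?_
              rw [← sq]
              congr 1
              simp only [mul_sum]
              refine Eq.trans (sum_congr rfl fun l _ => sum_comm) ?_
              rw [sum_comm]
              exact sum_congr rfl fun i _ => sum_congr rfl fun l _ => sum_congr rfl fun k _ => by ring

end Frame

end

end Vale.Agent.P098.Div
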