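import Vale.Agent.P098.Jet.Test

/-!
# P098: stability tested against a divergence

If `|grad c|^2 + γ c^2 / |x|^2 ≤ div Y` inside and `Y ν + H c^2 ≥ 0` on the free boundary, both up to
errors that vanish in the limit, and `grad c` and `Y` are orthogonal to `x`, then stability gives the
weighted Hardy inequality for the limit of `c` against radial cut-offs.
-/

namespace Vale.Agent.P098.Div

open Vale.Agent.P098.Cone Vale.Agent.P098.Jet
open MeasureTheory Set Filter Topology Finset
open scoped ContDiff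

noncomputable section

variable {d : ℕ} {u w : (Fin d → ℝ) → ℝ} {O : Set (Fin d → ℝ)} {γ : ℝ}

/-- The failure of the interior inequality. -/
def err (γ : ℝ) (c : (Fin d → ℝ) → ℝ) (Y : Fin d → (Fin d → ℝ) → ℝ) (z : Fin d → ℝ) : ℝ :=
  max 0 (γ * (c z ^ 2 * (dot z z)⁻¹) + dot (grad c z) (grad c z) - divg Y z)

/-- A family of test functions and fields that satisfies the inequalities in the limit. -/
structure DivFamily (u w : (Fin d → ℝ) → ℝ) (O : Set (Fin d → ℝ)) (γ : ℝ)
    (c : ℝ → (Fin d → ℝ) → ℝ) (Y : ℝ → Fin d → (Fin d → ℝ) → ℝ) (c0 : (Fin d → ℝ) → ℝ) : Prop where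
  smooth : ∀ δ, 0 < δ → ContDiffOn ℝ 1 (c δ) O ∧ ∀ i, ContDiffOn ℝ 1 (Y δ i) O
  radial : ∀ δ, 0 < δ → ∀ z, 0 < u z →
    dot z (grad (c δ) z) = 0 ∧ dot z (fun i => Y δ i z) = 0
  lim : ∀ z, 0 < u z → Tendsto (fun δ => c δ z) (𝓝[>] 0) (𝓝 (c0 z))
  bound : ∀ K : Set (Fin d → ℝ), IsCompact K → K ⊆ O → ∃ C : ℝ, ∀ᶠ δ in 𝓝[>] (0 : ℝ),
    ∀ z ∈ K, 0 < u z → |c δ z| ≤ C
  dominated : ∀ K : Set (Fin d → ℝ), IsCompact K → K ⊆ O → ∃ D : (Fin d → ℝ) → ℝ,
    IntegrableOn D (K ∩ {z | 0 < u z}) ∧ ∀ᶠ δ in 𝓝[>] (0 : ℝ),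
      ∀ᵐ z ∂volume.restrict (K ∩ {z | 0 < u z}), err γ (c δ) (Y δ) z ≤ D z
  err_lim : ∀ᵐ z ∂volume.restrict {z | 0 < u z},
    Tendsto (fun δ => err γ (c δ) (Y δ) z) (𝓝[>] 0) (𝓝 0)
  boundary : ∀ K : Set (Fin d → ℝ), IsCompact K → K ⊆ O → ∀ e : ℝ, 0 < e →
    ∀ᶠ δ in 𝓝[>] (0 : ℝ), ∀ x ∈ K ∩ frontier {y | 0 < u y},
      -e ≤ dot (fun i => Y δ i x) (grad w x) + meanCurv w x * c δ x ^ 2

/-- Stability tested with `ζ c`, for a fixed function and field. -/
theorem div_core (h : RegularCone u O w) (hP : ∀ y ∈ O, 0 < dot (grad w y) (grad w y))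
    (h0 : (0 : Fin d → ℝ) ∉ O) (hmin : IsMinimizer u) {c : (Fin d → ℝ) → ℝ}
    {Y : Fin d → (Fin d → ℝ) → ℝ} (hc : ContDiffOn ℝ 1 c O) (hY : ∀ i, ContDiffOn ℝ 1 (Y i) O)
    (hrad : ∀ z, 0 < u z → dot z (grad c z) = 0 ∧ dot z (fun i => Y i z) = 0)
    {K : Set (Fin d → ℝ)} (hKc : IsCompact K) (hKO : K ⊆ O) {Cf : ℝ}
    (hflux : ∀ (Z : Fin d → (Fin d → ℝ) → ℝ) (m : ℝ), (∀ i, ContDiff ℝ 1 (Z i)) →
      (∀ i, tsupport (Z i) ⊆ K) → 0 ≤ m →
      (∀ x ∈ K ∩ frontier {y | 0 < u y}, -m ≤ ∑ i, Z i x * pd w i x) →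
      ∫ x in {y | 0 < u y}, divg Z x ≤ Cf * m)
    {ζ : (Fin d → ℝ) → ℝ} (hζ : ContDiff ℝ ∞ ζ) (hζK : tsupport ζ ⊆ K)
    (hζr : ∀ z, 0 < u z → ∀ v, dot z v = 0 → dot (grad ζ z) v = 0)
    {m : ℝ} (hm : 0 ≤ m) (hbd : ∀ x ∈ K ∩ frontier {y | 0 < u y},
      -m ≤ ζ x * ζ x * (dot (fun i => Y i x) (grad w x) + meanCurv w x * c x ^ 2)) :
    γ * ∫ z in {z | 0 < u z}, ζ z * ζ z * (c z ^ 2 * (dot z z)⁻¹)
      ≤ (∫ z in {z | 0 < u z}, dot (grad ζ z) (grad ζ z) * c z ^ 2)
        + (∫ z in {z | 0 < u z}, ζ z * ζ z * err γ c Y z) + Cf * m := by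
  have hz0 : ∀ z ∉ K, ζ z = 0 := fun z hz => image_eq_zero_of_notMem_tsupport fun hh => hz (hζK hh)
  have hζO : tsupport ζ ⊆ O := hζK.trans hKO
  have hζs : tsupport (fun z => ζ z * ζ z) ⊆ O := tsupport_mul_subset_left.trans hζO
  set φ : (Fin d → ℝ) → ℝ := fun z => ζ z * c z
  have hφ : ContDiff ℝ 1 φ := contDiff_cutoff_mul hζ h.isOpen hζO hc
  have hφs : tsupport φ ⊆ tsupport ζ := tsupport_mul_subset_left
  have hst := h.stability hP h0 hmin hφ (hKc.of_isClosed_subset (isClosed_tsupport _) (hφs.trans hζK))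
    (hφs.trans hζO)
  have ha : ∀ i, ContDiffOn ℝ 1 (aField w i) O := fun i =>
    (contDiffOn_aField h.smooth h.isOpen i).of_le (by norm_num)
  set W : Fin d → (Fin d → ℝ) → ℝ := fun i z => ζ z * ζ z * (Y i z - c z * c z * aField w i z)
  have hW : ∀ i, ContDiff ℝ 1 (W i) := fun i =>
    contDiff_cutoff_mul (hζ.mul hζ) h.isOpen hζs ((hY i).sub ((hc.mul hc).mul (ha i)))
  have hWs : ∀ i, tsupport (W i) ⊆ K := fun i =>
    tsupport_subset_of_zero hKc.isClosed fun z hz => by simp [W, hz0 z hz]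
  have hfl : ∫ z in {z | 0 < u z}, divg W z ≤ Cf * m := by
    refine hflux W m hW hWs hm fun x hx => ?_
    obtain ⟨hN, hAN, -⟩ := h.free_boundary h0 hx.2 (hKO hx.1)
    refine (hbd x hx).trans_eq ?_
    have e : ∀ i, W i x * pd w i x = ζ x * ζ x * (Y i x * grad w x i)
        + ζ x * ζ x * c x * c x * meanCurv w x * (grad w x i * grad w x i) := fun i => by
      simp only [W]
      rw [show aField w i x = -meanCurv w x * grad w x i from hAN i]
      simp only [grad]
      ring
    simp only [e, sum_add_distrib, ← mul_sum]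
    rw [show ∑ i, grad w x i * grad w x i = 1 from hN]
    simp only [dot]
    ring
  set I1 : (Fin d → ℝ) → ℝ := fun z => dot (grad ζ z) (grad ζ z) * c z ^ 2
  set I2 : (Fin d → ℝ) → ℝ := fun z => ζ z * ζ z * (divg Y z - dot (grad c z) (grad c z))
  set I3 : (Fin d → ℝ) → ℝ := fun z => ζ z * ζ z * (c z ^ 2 * (dot z z)⁻¹)
  set I4 : (Fin d → ℝ) → ℝ := fun z => ζ z * ζ z * err γ c Y z
  have hζζ : Continuous fun z => ζ z * ζ z := hζ.continuous.mul hζ.continuous
  have hsupp : ∀ f : (Fin d → ℝ) → ℝ, HasCompactSupport fun z => ζ z * ζ z * f z := fun f =>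
    HasCompactSupport.intro hKc fun z hz => by simp [hz0 z hz]
  have hdY : ContinuousOn (divg Y) O := continuousOn_finsetSum _ fun i _ =>
    (contDiffOn_pd (hY i) h.isOpen i).continuousOn
  have hgc : ContinuousOn (fun z => dot (grad c z) (grad c z)) O := continuousOn_finsetSum _ fun i _ =>
    (contDiffOn_pd hc h.isOpen i).continuousOn.mul (contDiffOn_pd hc h.isOpen i).continuousOn
  have hcR : ContinuousOn (fun z => c z ^ 2 * (dot z z)⁻¹) O :=
    (hc.continuousOn.pow 2).mul (contDiff_dot_self.continuous.continuousOn.inv₀ fun z hz =>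
      (dot_self_pos fun e : z = 0 => h0 (e ▸ hz)).ne')
  have herr : ContinuousOn (err γ c Y) O :=
    (show Continuous fun t : ℝ => max 0 t by fun_prop).comp_continuousOn
      (((continuousOn_const.mul hcR).add hgc).sub hdY)
  have hI2 : Integrable I2 :=
    (continuous_mul_of_tsupport hζζ h.isOpen hζs (hdY.sub hgc)).integrable_of_hasCompactSupport (hsupp _)
  have hI3 : Integrable I3 :=
    (continuous_mul_of_tsupport hζζ h.isOpen hζs hcR).integrable_of_hasCompactSupport (hsupp _)
  have hI4 : Integrable I4 :=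
    (continuous_mul_of_tsupport hζζ h.isOpen hζs herr).integrable_of_hasCompactSupport (hsupp _)
  have hgg : Continuous fun z => dot (grad ζ z) (grad ζ z) :=
    continuous_finsetSum _ fun i _ => (contDiff_pd hζ i).continuous.mul (contDiff_pd hζ i).continuous
  have hI1 : Integrable I1 :=
    (continuous_mul_of_tsupport hgg h.isOpen ((tsupport_subset_of_zero (isClosed_tsupport ζ) fun z hz => by
      simp [grad_eq_zero_of_notMem hz, dot]).trans hζO)
      (hc.continuousOn.pow 2)).integrable_of_hasCompactSupport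
      (HasCompactSupport.intro hKc fun z hz => by
        simp [grad_eq_zero_of_notMem (fun hh => hz (hζK hh)), dot])
  have hdW : Integrable (divg W) :=
    (continuous_divg hW).integrable_of_hasCompactSupport (hasCompactSupport_divg hKc hWs)
  have key : ∀ z ∈ {z | 0 < u z}, stabInt w φ z = I1 z - I2 z + divg W z := by
    intro z hz
    have hzO := h.mem_of_pos hz
    have hζd : DifferentiableAt ℝ ζ z := hζ.differentiable (by simp) z
    have hcd : DifferentiableAt ℝ c z := differentiableAt_of_smooth hc h.isOpen hzO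
    have hYd : ∀ i, DifferentiableAt ℝ (Y i) z := fun i =>
      differentiableAt_of_smooth (hY i) h.isOpen hzO
    have had : ∀ i, DifferentiableAt ℝ (aField w i) z := fun i =>
      differentiableAt_of_smooth (ha i) h.isOpen hzO
    obtain ⟨o1, o2⟩ := hrad z hz
    have p1 := hζr z hz _ o1
    have p2 := hζr z hz _ o2
    have e1 : ∀ i, pd φ i z = ζ z * pd c i z + c z * pd ζ i z := fun i => pd_mul hζd hcd i
    have e2 : ∀ i, pd (W i) i z + pd (fun y => φ y * φ y * aField w i y) i z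
        = ζ z * ζ z * pd (Y i) i z + Y i z * (2 * (ζ z * pd ζ i z)) := fun i => by
      have hφd : DifferentiableAt ℝ (fun y => φ y * φ y * aField w i y) z :=
        ((hφ.differentiable (by simp) z).fun_mul (hφ.differentiable (by simp) z)).fun_mul (had i)
      rw [← pd_add ((hW i).differentiable (by simp) z) hφd,
        pd_congr (g := fun y => ζ y * ζ y * Y i y) (.of_forall fun y => by simp only [W, φ]; ring) i,
        pd_mul (hζd.fun_mul hζd) (hYd i), pd_mul hζd hζd]
      ring
    have e3 : stabInt w φ z - divg W z = ∑ i, (pd φ i z * pd φ i z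
        - (pd (W i) i z + pd (fun y => φ y * φ y * aField w i y) i z)) := by
      simp only [stabInt, divg, dot, grad, sum_sub_distrib, sum_add_distrib]
      ring
    have e4 : ∑ i, (pd φ i z * pd φ i z
        - (pd (W i) i z + pd (fun y => φ y * φ y * aField w i y) i z))
        = I1 z - I2 z + 2 * ζ z * c z * dot (grad ζ z) (grad c z)
          - 2 * ζ z * dot (grad ζ z) (fun i => Y i z) := by
      simp only [e1, e2, I1, I2, divg, dot, grad, mul_sum, mul_sub, sum_mul, ← sum_sub_distrib,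
        ← sum_add_distrib]
      exact sum_congr rfl fun i _ => by ring
    rw [← sub_eq_iff_eq_add, e3, e4, p1, p2]
    ring
  have hi12 : IntegrableOn (fun z => I1 z - I2 z) {z | 0 < u z} :=
    hI1.integrableOn.sub hI2.integrableOn
  rw [setIntegral_congr_fun h.isOpen_pos.measurableSet key, integral_add hi12 hdW.integrableOn,
    integral_sub hI1.integrableOn hI2.integrableOn] at hst
  have hle : ∫ z in {z | 0 < u z}, γ * I3 z ≤ ∫ z in {z | 0 < u z}, (I2 z + I4 z) :=
    setIntegral_mono (hI3.integrableOn.const_mul γ) (hI2.integrableOn.add hI4.integrableOn) fun z => by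
      have := mul_le_mul_of_nonneg_left (le_max_right 0
        (γ * (c z ^ 2 * (dot z z)⁻¹) + dot (grad c z) (grad c z) - divg Y z)) (mul_self_nonneg (ζ z))
      simp only [I2, I3, I4, err]
      linarith
  rw [integral_const_mul, integral_add hI2.integrableOn hI4.integrableOn] at hle
  linarith

/-- The weighted Hardy inequality of the limit of a family. -/
theorem div_hardy {c : ℝ → (Fin d → ℝ) → ℝ} {Y : ℝ → Fin d → (Fin d → ℝ) → ℝ}
    {c0 : (Fin d → ℝ) → ℝ} (h : RegularCone u O w)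
    (hP : ∀ y ∈ O, 0 < dot (grad w y) (grad w y)) (h0 : (0 : Fin d → ℝ) ∉ O) (hmin : IsMinimizer u)
    (hF : DivFamily u w O γ c Y c0) {η : (Fin d → ℝ) → ℝ} (hη : ContDiff ℝ ∞ η)
    (hηc : HasCompactSupport η) (hη0 : (0 : Fin d → ℝ) ∉ tsupport η)
    (hηr : ∀ z v, dot z v = 0 → dot (grad η z) v = 0) :
    γ * ∫ z in {z | 0 < u z}, η z * η z * (c0 z ^ 2 * (dot z z)⁻¹)
      ≤ ∫ z in {z | 0 < u z}, dot (grad η z) (grad η z) * c0 z ^ 2 := by
  set K0 := tsupport η ∩ closure {z | 0 < u z}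
  have hK0 : IsCompact K0 := (hηc : IsCompact _).inter_right isClosed_closure
  have hK0O : K0 ⊆ O := fun z hz => h.cover z hz.2 fun e => hη0 (e ▸ hz.1)
  obtain ⟨K, hK, hK0K, hKO⟩ := exists_compact_between hK0 h.isOpen hK0O
  obtain ⟨Cf, hCf, hflux⟩ := h.flux_le hP hK hKO
  obtain ⟨χ, hχ, hχc, hχV, hχ01, hχ1⟩ := exists_cutoff hK0 isOpen_interior hK0K
  set ζ : (Fin d → ℝ) → ℝ := fun z => χ z * η z
  have hζ : ContDiff ℝ ∞ ζ := hχ.mul hη
  have hζK : tsupport ζ ⊆ K := fun z hz => interior_subset (hχV (tsupport_mul_subset_left hz))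
  set S := {z : Fin d → ℝ | 0 < u z}
  have hS : MeasurableSet S := h.isOpen_pos.measurableSet
  have hev : ∀ z, 0 < u z → ζ =ᶠ[𝓝 z] η := fun z hz => by
    by_cases hm : z ∈ tsupport η
    · filter_upwards [eventually_nhdsSet_iff_forall.1 hχ1 z ⟨hm, subset_closure hz⟩] with y hy
      simp [ζ, hy]
    · filter_upwards [(isClosed_tsupport η).isOpen_compl.mem_nhds hm] with y hy
      simp [ζ, image_eq_zero_of_notMem_tsupport hy]
  have eg : ∀ z ∈ S, grad ζ z = grad η z := fun z hz => funext fun i => pd_congr (hev z hz) i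
  have hζr : ∀ z, 0 < u z → ∀ v, dot z v = 0 → dot (grad ζ z) v = 0 := fun z hz v hv => by
    rw [eg z hz]; exact hηr z v hv
  have hζ0 : ∀ z ∉ K, ζ z = 0 := fun z hz => image_eq_zero_of_notMem_tsupport fun hh => hz (hζK hh)
  have hζg0 : ∀ z ∉ K, grad ζ z = 0 := fun z hz => grad_eq_zero_of_notMem fun hh => hz (hζK hh)
  have hζζ : Continuous fun z => ζ z * ζ z := hζ.continuous.mul hζ.continuous
  have hζζs : HasCompactSupport fun z => ζ z * ζ z :=
    HasCompactSupport.intro hK fun z hz => by simp [hζ0 z hz]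
  obtain ⟨B, hB⟩ := hζζ.bounded_above_of_compact_support hζζs
  have hgg : Continuous fun z => dot (grad ζ z) (grad ζ z) :=
    continuous_finsetSum _ fun i _ => (contDiff_pd hζ i).continuous.mul (contDiff_pd hζ i).continuous
  obtain ⟨Bg, hBg⟩ := hgg.bounded_above_of_compact_support (HasCompactSupport.intro hK fun z hz => by
    simp [hζg0 z hz, dot])
  obtain ⟨C, hC⟩ := hF.bound K hK hKO
  obtain ⟨D, hD, hDev⟩ := hF.dominated K hK hKO
  have hRc : ContinuousOn (fun z : Fin d → ℝ => (dot z z)⁻¹) O :=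
    contDiff_dot_self.continuous.continuousOn.inv₀ fun z hz =>
      (dot_self_pos fun e : z = 0 => h0 (e ▸ hz)).ne'
  obtain ⟨BR, hBR⟩ := hK.exists_bound_of_continuousOn (hRc.mono hKO)
  set δs : ℕ → ℝ := fun n => 1 / ((n : ℝ) + 1)
  have hδ : Tendsto δs atTop (𝓝[>] 0) := tendsto_nhdsWithin_iff.2
    ⟨tendsto_one_div_add_atTop_nhds_zero_nat, .of_forall fun n => show (0 : ℝ) < 1 / ((n : ℝ) + 1) from Nat.one_div_pos_of_nat⟩
  have hδ0 : ∀ n, 0 < δs n := fun n => Nat.one_div_pos_of_nat
  set lhs : ℕ → (Fin d → ℝ) → ℝ := fun n z => ζ z * ζ z * (c (δs n) z ^ 2 * (dot z z)⁻¹)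
  set mid : ℕ → (Fin d → ℝ) → ℝ := fun n z => dot (grad ζ z) (grad ζ z) * c (δs n) z ^ 2
  set res : ℕ → (Fin d → ℝ) → ℝ := fun n z => ζ z * ζ z * err γ (c (δs n)) (Y (δs n)) z
  have hne : ∀ z ∈ K, z ≠ 0 := fun z hz e => h0 (e ▸ hKO hz)
  have hconst : ∀ a : ℝ, IntegrableOn (K.indicator fun _ => a) S := fun a =>
    ((integrableOn_const hK.measure_lt_top.ne).integrable_indicator hK.measurableSet).integrableOn
  have hcn : ∀ n, ContinuousOn (c (δs n)) O := fun n => (hF.smooth _ (hδ0 n)).1.continuousOn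
  have hlim1 : Tendsto (fun n => ∫ z in S, lhs n z) atTop
      (𝓝 (∫ z in S, ζ z * ζ z * (c0 z ^ 2 * (dot z z)⁻¹))) := by
    refine tendsto_integral_filter_of_dominated_convergence
      (K.indicator fun _ => max B 0 * (max C 0 ^ 2 * max BR 0)) (.of_forall fun n => ?_) ?_ (hconst _) ?_
    · exact (continuous_mul_of_tsupport hζζ h.isOpen ((tsupport_subset_of_zero hK.isClosed fun z hz =>
        by simp [hζ0 z hz]).trans hKO) (((hcn n).pow 2).mul hRc)).aestronglyMeasurable
    · filter_upwards [hδ.eventually hC] with n hn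
      filter_upwards [ae_restrict_mem hS] with z hz
      by_cases hzK : z ∈ K
      · rw [indicator_of_mem hzK, Real.norm_eq_abs, abs_mul, abs_mul (c (δs n) z ^ 2), abs_pow]
        exact mul_le_mul ((hB z).trans (le_max_left _ _))
          (mul_le_mul (pow_le_pow_left₀ (abs_nonneg _) ((hn z hzK hz).trans (le_max_left _ _)) 2)
            ((hBR z hzK).trans (le_max_left _ _)) (abs_nonneg _) (sq_nonneg _))
          (by positivity) (le_max_right _ _)
      · simp [lhs, hζ0 z hzK, indicator_of_notMem hzK]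
    · filter_upwards [ae_restrict_mem hS] with z hz
      exact ((((hF.lim z hz).comp hδ).pow 2).mul_const _).const_mul _
  have hlim2 : Tendsto (fun n => ∫ z in S, mid n z) atTop
      (𝓝 (∫ z in S, dot (grad ζ z) (grad ζ z) * c0 z ^ 2)) := by
    refine tendsto_integral_filter_of_dominated_convergence
      (K.indicator fun _ => max Bg 0 * max C 0 ^ 2) (.of_forall fun n => ?_) ?_ (hconst _) ?_
    · exact (continuous_mul_of_tsupport hgg h.isOpen ((tsupport_subset_of_zero hK.isClosed fun z hz =>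
        by simp [hζg0 z hz, dot]).trans hKO) ((hcn n).pow 2)).aestronglyMeasurable
    · filter_upwards [hδ.eventually hC] with n hn
      filter_upwards [ae_restrict_mem hS] with z hz
      by_cases hzK : z ∈ K
      · rw [indicator_of_mem hzK, Real.norm_eq_abs, abs_mul, abs_pow]
        exact mul_le_mul ((hBg z).trans (le_max_left _ _))
          (pow_le_pow_left₀ (abs_nonneg _) ((hn z hzK hz).trans (le_max_left _ _)) 2)
          (by positivity) (le_max_right _ _)
      · simp [mid, hζg0 z hzK, indicator_of_notMem hzK, dot]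
    · filter_upwards [ae_restrict_mem hS] with z hz
      exact (((hF.lim z hz).comp hδ).pow 2).const_mul _
  have hlim3 : Tendsto (fun n => ∫ z in S, res n z) atTop (𝓝 (∫ _ in S, (0 : ℝ))) := by
    have hDi : IntegrableOn (K.indicator fun z => max B 0 * D z) S := by
      rw [IntegrableOn, integrable_indicator_iff hK.measurableSet, IntegrableOn,
        Measure.restrict_restrict hK.measurableSet]
      exact hD.const_mul _
    refine tendsto_integral_filter_of_dominated_convergence
      (K.indicator fun z => max B 0 * D z) (.of_forall fun n => ?_) ?_ hDi ?_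
    · obtain ⟨hc, hY⟩ := hF.smooth _ (hδ0 n)
      refine (continuous_mul_of_tsupport hζζ h.isOpen ((tsupport_subset_of_zero hK.isClosed fun z hz =>
        by simp [hζ0 z hz]).trans hKO) ?_).aestronglyMeasurable
      exact (show Continuous fun t : ℝ => max 0 t by fun_prop).comp_continuousOn
        (((continuousOn_const.mul (((hcn n).pow 2).mul hRc)).add
        (continuousOn_finsetSum _ fun i _ => (contDiffOn_pd hc h.isOpen i).continuousOn.mul
          (contDiffOn_pd hc h.isOpen i).continuousOn)).sub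
        (continuousOn_finsetSum _ fun i _ => (contDiffOn_pd (hY i) h.isOpen i).continuousOn))
    · filter_upwards [hδ.eventually hDev] with n hn
      rw [← Measure.restrict_restrict hK.measurableSet,
        ae_restrict_iff' hK.measurableSet] at hn
      filter_upwards [hn] with z hz
      by_cases hzK : z ∈ K
      · rw [indicator_of_mem hzK, Real.norm_eq_abs, abs_mul,
          abs_of_nonneg (show 0 ≤ err γ (c (δs n)) (Y (δs n)) z from le_max_left _ _)]
        exact mul_le_mul ((hB z).trans (le_max_left _ _)) (hz hzK) (le_max_left _ _) (le_max_right _ _)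
      · simp [res, hζ0 z hzK, indicator_of_notMem hzK]
    · filter_upwards [hF.err_lim] with z hz
      simpa using (hz.comp hδ).const_mul (ζ z * ζ z)
  rw [integral_zero] at hlim3
  have main : γ * ∫ z in S, ζ z * ζ z * (c0 z ^ 2 * (dot z z)⁻¹)
      ≤ ∫ z in S, dot (grad ζ z) (grad ζ z) * c0 z ^ 2 := by
    refine le_of_forall_pos_le_add fun ε hε => ?_
    set T := Cf * max B 0 + 1
    have hT : 0 < T := by positivity
    set e := ε / T
    have he : 0 < e := div_pos hε hT
    refine le_of_tendsto_of_tendsto (hlim1.const_mul γ)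
      (g := fun n => (∫ z in S, mid n z) + (∫ z in S, res n z) + Cf * (e * max B 0)) ?_ ?_ |>.trans ?_
      (b := (∫ z in S, dot (grad ζ z) (grad ζ z) * c0 z ^ 2) + 0 + Cf * (e * max B 0))
    · exact (hlim2.add hlim3).add_const _
    · filter_upwards [hδ.eventually (hF.boundary K hK hKO e he)] with n hn
      obtain ⟨hc, hY⟩ := hF.smooth _ (hδ0 n)
      refine div_core h hP h0 hmin hc hY (hF.radial _ (hδ0 n)) hK hKO hflux hζ hζK hζr
        (m := e * max B 0) (by positivity) fun x hx => ?_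
      refine le_trans ?_ (mul_le_mul_of_nonneg_left (hn x hx) (mul_self_nonneg _))
      rw [mul_neg, neg_le_neg_iff, mul_comm]
      exact mul_le_mul_of_nonneg_left (((le_abs_self _).trans (hB x)).trans (le_max_left _ _)) he.le
    · rw [add_zero]
      refine add_le_add_right ?_ _
      calc Cf * (e * max B 0) = e * (Cf * max B 0) := by ring
        _ ≤ e * T := mul_le_mul_of_nonneg_left (by simp [T]) he.le
        _ = ε := div_mul_cancel₀ ε hT.ne'
  have e1 : ∀ z ∈ S, ζ z = η z := fun z hz => (hev z hz).self_of_nhds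
  rwa [setIntegral_congr_fun hS (fun z hz => by simp only [e1 z hz] :
      EqOn (fun z => ζ z * ζ z * (c0 z ^ 2 * (dot z z)⁻¹)) (fun z => η z * η z * (c0 z ^ 2 * (dot z z)⁻¹)) S),
    setIntegral_congr_fun hS (fun z hz => by simp only [eg z hz] :
      EqOn (fun z => dot (grad ζ z) (grad ζ z) * c0 z ^ 2) (fun z => dot (grad η z) (grad η z) * c0 z ^ 2) S)]
    at main

/-- A homogeneous limit of degree zero, with constant above the Hardy constant, vanishes. -/
theorem div_vanish {c : ℝ → (Fin d → ℝ) → ℝ} {Y : ℝ → Fin d → (Fin d → ℝ) → ℝ}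
    {c0 : (Fin d → ℝ) → ℝ} (h : RegularCone u O w)
    (hP : ∀ y ∈ O, 0 < dot (grad w y) (grad w y)) (h0 : (0 : Fin d → ℝ) ∉ O) (hmin : IsMinimizer u)
    (hF : DivFamily u w O γ c Y c0) (hcont : ContinuousOn c0 (clPos u))
    (hhom : ∀ (r : ℝ) (z : Fin d → ℝ), 0 < r → 0 < u z → c0 (r • z) ^ 2 = c0 z ^ 2)
    (hγ : (((d : ℝ) - 2) / 2) ^ 2 < γ) {z : Fin d → ℝ} (hz : 0 < u z) : c0 z = 0 := by
  refine vanish_of_hardy (s := 0) h hcont (fun σ n hn => ?_) (fun r x hr hx => by
    rw [mul_zero, Real.rpow_zero, one_mul]; exact hhom r x hr hx) (by simpa using hγ) hz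
  refine div_hardy h hP h0 hmin hF (cutoff_contDiff σ hn) (cutoff_compact σ hn)
    (zero_notMem_cutoff σ hn) fun y v hv => ?_
  by_cases hy : y = 0
  · subst hy
    rw [grad_eq_zero_of_notMem (zero_notMem_cutoff σ hn)]
    simp [dot]
  have hR := dot_self_pos hy
  have e : ∀ i, pd (cutoff σ n) i y = Real.exp (σ / 2 * Real.log (dot y y)) / (2 * dot y y)
      * (σ * bump (Real.log (dot y y) / 2 / n) + deriv bump (Real.log (dot y y) / 2 / n) / n)
      * (2 * y i) := fun i =>
    (pd_comp (f := fun y : Fin d → ℝ => dot y y) (radial_deriv σ n hR)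
      (contDiff_dot_self.differentiable (by simp) y) i).trans (congrArg _ (pd_dot_self y i))
  show ∑ i, pd (cutoff σ n) i y * v i = 0
  simp only [e, mul_assoc, ← mul_sum]
  rw [show ∑ i, y i * v i = 0 from hv]
  simp

end

end Vale.Agent.P098.Div
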