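import Vale.Agent.P098.Div.Field
import Vale.Agent.P098.Div.Test

/-!
# P098: the interior and boundary expressions of a certificate
-/

namespace Vale.Agent.P098.Div

open Vale.Agent.P098.Cone Vale.Agent.P098.Jet
open Set Filter Topology Finset
open scoped ContDiff

noncomputable section

variable {d : ℕ} {u w : (Fin d → ℝ) → ℝ} {O : Set (Fin d → ℝ)} {δ γ : ℝ} {z : Fin d → ℝ}
  {c : FieldsX}

theorem dot_lin (z p q : Fin d → ℝ) (a b : ℝ) :
    dot z (fun k => a * p k + b * q k) = a * dot z p + b * dot z q := by
  simp only [dot, mul_sum, ← sum_add_distrib]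
  exact sum_congr rfl fun _ _ => by ring

theorem dot_aField (h : RegularCone u O w) (hzO : z ∈ O) (hz : z ∈ closure {y | 0 < u y}) :
    dot z (fun i => aField w i z) = 0 := by
  show dot z (app (hessMat w z) (grad w z)) = 0
  rw [← dot_app (P := hessMat w z) (fun i j => hess_comm_of h.smooth h.isOpen hzO i j)]
  simp [dot, h.app_hess_radial hz hzO]

theorem dot_bField (h : RegularCone u O w) (hzO : z ∈ O) (hz : z ∈ closure {y | 0 < u y}) :
    dot z (fun i => bField w i z) = 0 := by
  show dot z (app (hessMat w z) (fun j => aField w j z)) = 0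
  rw [← dot_app (P := hessMat w z) (fun i j => hess_comm_of h.smooth h.isOpen hzO i j)]
  simp [dot, h.app_hess_radial hz hzO]

theorem dot_pVec (h : RegularCone u O w) (hzO : z ∈ O) (hz : z ∈ closure {y | 0 < u y})
    (hz0 : z ≠ 0) : dot z (fun i => pVec w i z) = 0 := by
  have hR := (dot_self_pos hz0).ne'
  rw [show (fun i => pVec w i z)
      = fun i => 1 * grad w z i + (-(w z * (dot z z)⁻¹)) * z i from funext fun i => by
        simp only [pVec, grad]; ring,
    dot_lin, h.euler hz hzO]
  field_simp
  ring

theorem dot_tA (h : RegularCone u O w) (hz : 0 < u z) : dot z (tA w z) = -hessSq w z := by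
  calc dot z (tA w z) = ∑ k, ∑ i, ∑ j, third w z i j k * z k * hess w i j z := by
        simp only [dot, tA, dot2, hessMat, mul_sum]
        exact sum_congr rfl fun _ _ => sum_congr rfl fun _ _ => sum_congr rfl fun _ _ => by ring
    _ = ∑ i, ∑ j, (∑ k, third w z i j k * z k) * hess w i j z := by
        rw [sum_comm]
        exact sum_congr rfl fun i _ => sum_comm.trans (sum_congr rfl fun j _ => (sum_mul _ _ _).symm)
    _ = _ := by
        simp only [h.third_radial_pos hz, hessSq, dot2, hessMat, neg_mul, sum_neg_distrib]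

theorem dot_tAA (h : RegularCone u O w) (hz : 0 < u z) : dot z (tAA w z) = -cube w z := by
  calc dot z (tAA w z) = ∑ k, ∑ i, ∑ j, third w z i j k * z k * sqMat (hessMat w z) i j := by
        simp only [dot, tAA, dot2, mul_sum]
        exact sum_congr rfl fun _ _ => sum_congr rfl fun _ _ => sum_congr rfl fun _ _ => by ring
    _ = ∑ i, ∑ j, (∑ k, third w z i j k * z k) * sqMat (hessMat w z) i j := by
        rw [sum_comm]
        exact sum_congr rfl fun i _ => sum_comm.trans (sum_congr rfl fun j _ => (sum_mul _ _ _).symm)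
    _ = _ := by
        simp only [h.third_radial_pos hz, sqMat, hessMat, cube, neg_mul, sum_neg_distrib, mul_sum]
        exact congrArg _ (sum_congr rfl fun i _ => sum_congr rfl fun j _ =>
          sum_congr rfl fun k _ => by ring)

section derivs

variable (h : RegularCone u O w) (h0 : (0 : Fin d → ℝ) ∉ O)
include h h0

theorem dot_gA (hu : 0 < u z) (hz : z ∈ dom w O δ) : dot z (gA w δ z) = -regLen w δ z := by
  have hR := (dot_self_pos fun e : z = 0 => h0 (e ▸ hz.1)).ne'
  have hne := (regLen_pos hz).ne'
  rw [show gA w δ z = fun k => (regLen w δ z)⁻¹ * tA w z k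
      + (-(δ * (dot z z ^ 2)⁻¹ / regLen w δ z)) * z k from funext fun k => by
        simp only [gA]; ring,
    dot_lin, dot_tA h hu]
  have := regLen_sq hz
  rw [regSq] at this
  field_simp
  field_simp at this
  linarith

theorem dot_gS (hu : 0 < u z) (hz : z ∈ dom w O δ) : dot z (gS w δ z) = 0 := by
  have hr := (len_pos fun e : z = 0 => h0 (e ▸ hz.1)).ne'
  rw [show gS w δ z = fun k => len z * gA w δ z k + regLen w δ z / len z * z k from funext fun k => by
      simp only [gS]; ring,
    dot_lin, dot_gA h h0 hu hz, ← len_sq]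
  field_simp
  ring

theorem dot_gArgs (hu : 0 < u z) (hz : z ∈ dom w O δ) (i : Fin 4) :
    dot z (gArgs w δ z i) = 0 := by
  have hne := (regLen_pos hz).ne'
  fin_cases i
  · show dot z (fun k => w z * gA w δ z k + regLen w δ z * grad w z k) = 0
    rw [dot_lin, dot_gA h h0 hu hz, h.euler_pos hu]
    ring
  · show dot z (fun k => -2 * aField w k z) = 0
    rw [show (fun k => -2 * aField w k z) = fun k => -2 * aField w k z + 0 * z k from
      funext fun k => by ring, dot_lin, dot_aField h hz.1 (subset_closure hu)]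
    ring
  · show dot z (fun k => 3 * tAA w z k / regLen w δ z ^ 3
      - 3 * cube w z * gA w δ z k / regLen w δ z ^ 4) = 0
    rw [show (fun k => 3 * tAA w z k / regLen w δ z ^ 3
        - 3 * cube w z * gA w δ z k / regLen w δ z ^ 4) = fun k => 3 / regLen w δ z ^ 3 * tAA w z k
          + (-(3 * cube w z / regLen w δ z ^ 4)) * gA w δ z k from funext fun k => by ring,
      dot_lin, dot_tAA h hu, dot_gA h h0 hu hz]
    field_simp
    ring
  · show dot z (fun k => -2 * sVar w δ z * xiVal w δ z ^ 2 * gS w δ z k) = 0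
    rw [show (fun k => -2 * sVar w δ z * xiVal w δ z ^ 2 * gS w δ z k) = fun k =>
        -2 * sVar w δ z * xiVal w δ z ^ 2 * gS w δ z k + 0 * z k from funext fun k => by ring,
      dot_lin, dot_gS h h0 hu hz]
    ring

theorem dot_gComp (hu : 0 < u z) (hz : z ∈ dom w O δ) (f : (Fin 4 → ℝ) → ℝ) :
    dot z (gComp f w δ z) = 0 := by
  simp only [dot, gComp, mul_sum]
  rw [sum_comm]
  refine sum_eq_zero fun i _ => ?_
  simp only [mul_left_comm (z _), ← mul_sum]
  rw [show ∑ k, z k * gArgs w δ z i k = dot z (gArgs w δ z i) from rfl, dot_gArgs h h0 hu hz i,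
    mul_zero]

theorem dot_beta1 (hu : 0 < u z) : dot z (fun i => beta1 w i z) = 0 := by
  have hR := (dot_self_pos fun e : z = 0 => h0 (e ▸ h.mem_of_pos hu)).ne'
  rw [show (fun i => beta1 w i z) = fun i => 1 * tA w z i + hessSq w z * (dot z z)⁻¹ * z i from
    funext fun i => by simp only [beta1]; ring, dot_lin, dot_tA h hu]
  field_simp
  ring

theorem dot_beta2 (hu : 0 < u z) : dot z (fun i => beta2 w i z) = 0 := by
  have hR := (dot_self_pos fun e : z = 0 => h0 (e ▸ h.mem_of_pos hu)).ne'
  rw [show (fun i => beta2 w i z) = fun i => 1 * tAA w z i + cube w z * (dot z z)⁻¹ * z i from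
    funext fun i => by simp only [beta2]; ring, dot_lin, dot_tAA h hu]
  field_simp
  ring

theorem dot_tField (c : FieldsX) (hu : 0 < u z) : dot z (fun i => tField c w δ i z) = 0 := by
  rw [show (fun i => tField c w δ i z)
      = fun i => len z * (regLen w δ z)⁻¹ * comp3 c.b1 (args w δ) z * beta1 w i z
        + len z * (regLen w δ z ^ 2)⁻¹ * comp3 c.b2 (args w δ) z * beta2 w i z from
      funext fun i => by simp only [tField]; ring,
    dot_lin, dot_beta1 h h0 hu, dot_beta2 h h0 hu]
  ring

theorem grad_testFn (hc : c.Smooth) (hz : z ∈ dom w O δ) :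
    grad (testFn c w δ) z = fun k => c.g (argv w δ z) / (2 * √(sVar w δ z)) * gS w δ z k
      + √(sVar w δ z) * gComp c.g w δ z k := by
  have hs := sVar_pos h0 hz
  have hd : DifferentiableAt ℝ (sVar w δ) z :=
    differentiableAt_of_smooth (contDiffOn_sVar h h0) (isOpen_dom h h0 δ) hz
  funext k
  rw [grad, show testFn c w δ = fun y => √(sVar w δ y) * comp3 c.g (args w δ) y from rfl,
    pd_mul (hd.sqrt hs.ne') (differentiableAt_of_smooth
      (contDiffOn_comp3 hc.g (contDiffOn_args h h0)) (isOpen_dom h h0 δ) hz),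
    pd_comp (φ := Real.sqrt) (Real.hasDerivAt_sqrt hs.ne') hd k,
    show pd (sVar w δ) k z = gS w δ z k from congr_fun (grad_sVar h h0 hz) k,
    show pd (comp3 c.g (args w δ)) k z = gComp c.g w δ z k from congr_fun (grad_comp h h0 hz hc.g) k]
  simp only [comp3, show (fun i => args w δ i z) = argv w δ z from rfl]
  ring

theorem gradSq_testFn (hc : c.Smooth) (hz : z ∈ dom w O δ) :
    dot (grad (testFn c w δ) z) (grad (testFn c w δ) z) = gradSqTest c w δ z := by
  have hs := sVar_pos h0 hz
  have hq : √(sVar w δ z) * √(sVar w δ z) = sVar w δ z := Real.mul_self_sqrt hs.le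
  have hne := (Real.sqrt_pos.2 hs).ne'
  rw [grad_testFn h h0 hc hz]
  simp only [gradSqTest, dot, mul_sum, sum_div, ← sum_add_distrib]
  refine sum_congr rfl fun k _ => ?_
  generalize √(sVar w δ z) = q at hq hne
  rw [← hq]
  field_simp
  ring

theorem radial_testFn (hc : c.Smooth) (hu : 0 < u z) (hz : z ∈ dom w O δ) :
    dot z (grad (testFn c w δ) z) = 0 ∧ dot z (fun i => yField c w δ i z) = 0 := by
  have hz0 : z ≠ 0 := fun e => h0 (e ▸ hz.1)
  have hcl := subset_closure (s := {y | 0 < u y}) hu
  refine ⟨?_, ?_⟩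
  · rw [grad_testFn h h0 hc hz, dot_lin, dot_gS h h0 hu hz, dot_gComp h h0 hu hz]
    ring
  · have e1 : grad (potential c w δ) z = fun k => sVar w δ z * gComp c.F w δ z k
        + c.F (argv w δ z) * gS w δ z k := by
      rw [show potential c w δ = fun y => sVar w δ y * comp3 c.F (args w δ) y from rfl,
        grad_mul (differentiableAt_of_smooth (contDiffOn_sVar h h0) (isOpen_dom h h0 δ) hz)
          (differentiableAt_of_smooth (contDiffOn_comp3 hc.F (contDiffOn_args h h0))
            (isOpen_dom h h0 δ) hz)]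
      funext k
      rw [show pd (sVar w δ) k z = gS w δ z k from congr_fun (grad_sVar h h0 hz) k,
        show pd (comp3 c.F (args w δ)) k z = gComp c.F w δ z k from
          congr_fun (grad_comp h h0 hz hc.F) k]
      rfl
    have e0 : dot z (fun i => yField c w δ i z)
        = dot z (fun i => pd (potential c w δ) i z + vField c w δ i z)
          + dot z (fun i => tField c w δ i z) := by
      simp only [dot, yField, ← sum_add_distrib]
      exact sum_congr rfl fun _ _ => by ring
    rw [e0, dot_tField h h0 c hu, add_zero]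
    have e2 : (fun i => pd (potential c w δ) i z + vField c w δ i z)
        = fun i => 1 * grad (potential c w δ) z i + len z * (regLen w δ z * regLen w δ z * comp3 c.al (args w δ) z * pVec w i z
        + regLen w δ z * comp3 c.be (args w δ) z * aField w i z
        + comp3 c.ga (args w δ) z * bField w i z) := funext fun i => by
      simp only [vField, one_mul]
      rfl
    rw [e2, dot_lin, e1, dot_lin, dot_gS h h0 hu hz, dot_gComp h h0 hu hz]
    have e3 : dot z (fun i => regLen w δ z * regLen w δ z * comp3 c.al (args w δ) z * pVec w i z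
        + regLen w δ z * comp3 c.be (args w δ) z * aField w i z
        + comp3 c.ga (args w δ) z * bField w i z)
      = regLen w δ z * regLen w δ z * comp3 c.al (args w δ) z * dot z (fun i => pVec w i z)
        + regLen w δ z * comp3 c.be (args w δ) z * dot z (fun i => aField w i z)
        + comp3 c.ga (args w δ) z * dot z (fun i => bField w i z) := by
      simp only [dot, mul_sum, ← sum_add_distrib]
      exact sum_congr rfl fun _ _ => by ring
    rw [e3, dot_pVec h hz.1 hcl hz0, dot_aField h hz.1 hcl, dot_bField h hz.1 hcl]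
    ring

theorem divg_pVec (hu : 0 < u z) :
    ∑ i, pd (pVec w i) i z = -(((d : ℝ) - 1) * w z * (dot z z)⁻¹) := by
  have hzO := h.mem_of_pos hu
  have hz0 : z ≠ 0 := fun e => h0 (e ▸ hzO)
  have hR := (dot_self_pos hz0).ne'
  have hw := differentiableAt_of_smooth h.smooth h.isOpen hzO
  have hr : DifferentiableAt ℝ (fun y : Fin d → ℝ => dot y y) z :=
    contDiff_dot_self.differentiable (by simp) z
  have hp : ∀ i, DifferentiableAt ℝ (pd w i) z := fun i =>
    differentiableAt_of_smooth (contDiffOn_pd h.smooth h.isOpen i) h.isOpen hzO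
  have step : ∀ i, pd (pVec w i) i z = hess w i i z
      - (dot z z)⁻¹ * (grad w z i * z i + w z) + 2 * w z * (dot z z ^ 2)⁻¹ * (z i * z i) := by
    intro i
    rw [show pVec w i = fun y => pd w i y - w y * y i * (dot y y)⁻¹ from rfl,
      pd_sub (hp i) ((hw.fun_mul (differentiableAt_apply i z)).fun_mul (hr.fun_inv hR)),
      pd_mul (hw.fun_mul (differentiableAt_apply i z)) (hr.fun_inv hR),
      pd_mul hw (differentiableAt_apply i z), pd_coord, if_pos rfl,
      (pd_comp (f := fun y : Fin d → ℝ => dot y y) (φ := fun t => t⁻¹) (hasDerivAt_inv hR) hr i).trans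
        (congrArg _ (pd_dot_self z i))]
    simp only [hess, grad]
    ring
  simp only [step, sum_sub_distrib, sum_add_distrib, ← mul_sum, h.trace_pos hu, sum_const, card_univ,
    Fintype.card_fin, nsmul_eq_mul]
  rw [show ∑ i, grad w z i * z i = w z from (dot_comm _ _).trans (h.euler_pos hu),
    show ∑ i, z i * z i = dot z z from rfl]
  field_simp
  ring

omit h0 in
theorem divg_aField (hu : 0 < u z) : ∑ i, pd (aField w i) i z = hessSq w z := by
  have hzO := h.mem_of_pos hu
  simp only [pd_aField h.smooth h.isOpen hzO, sum_add_distrib]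
  have e : ∑ i, ∑ j, third w z i j i * pd w j z = 0 := by
    rw [sum_comm]
    refine sum_eq_zero fun j _ => ?_
    rw [← sum_mul, show ∑ i, third w z i j i = ∑ i, third w z i i j from sum_congr rfl fun i _ =>
      third_comm₂ h.smooth h.isOpen hzO i j i, h.third_trace_pos hu j, zero_mul]
  rw [e, zero_add]
  exact sum_congr rfl fun i _ => sum_congr rfl fun j _ => by
    simp only [hessMat]
    rw [hess_comm_of h.smooth h.isOpen hzO j i]

omit h0 in
theorem divg_bField (hu : 0 < u z) :
    ∑ i, pd (bField w i) i z = dot (grad w z) (tA w z) + cube w z := by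
  have hzO := h.mem_of_pos hu
  have hh : ∀ i j, DifferentiableAt ℝ (hess w i j) z := fun i j =>
    differentiableAt_of_smooth (contDiffOn_hess h.smooth h.isOpen i j) h.isOpen hzO
  have ha : ∀ j, DifferentiableAt ℝ (aField w j) z := fun j =>
    differentiableAt_of_smooth (contDiffOn_aField h.smooth h.isOpen j) h.isOpen hzO
  have step : ∀ i, pd (bField w i) i z
      = ∑ j, (hess w i j z * pd (aField w j) i z + aField w j z * third w z i j i) := fun i => by
    rw [show bField w i = fun y => ∑ j, hess w i j y * aField w j y from rfl,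
      pd_sum _ (F := fun j y => hess w i j y * aField w j y) fun j _ => (hh i j).mul (ha j)]
    exact sum_congr rfl fun j _ => pd_mul (hh i j) (ha j) i
  have e : ∑ i, ∑ j, aField w j z * third w z i j i = 0 := by
    rw [sum_comm]
    refine sum_eq_zero fun j _ => ?_
    rw [← mul_sum, show ∑ i, third w z i j i = ∑ i, third w z i i j from sum_congr rfl fun i _ =>
      third_comm₂ h.smooth h.isOpen hzO i j i, h.third_trace_pos hu j, mul_zero]
  simp only [step, sum_add_distrib, e, add_zero, pd_aField h.smooth h.isOpen hzO, mul_sum, mul_add]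
  congr 1
  · simp only [dot, tA, dot2, mul_sum]
    refine Eq.trans (sum_congr rfl fun i _ => sum_comm) ?_
    rw [sum_comm]
    refine sum_congr rfl fun k _ => sum_congr rfl fun i _ => sum_congr rfl fun j _ => ?_
    rw [third_comm₂ h.smooth h.isOpen hzO i j k, third_comm₁ h.smooth h.isOpen hzO i k j,
      third_comm₂ h.smooth h.isOpen hzO k i j, third_comm₁ h.smooth h.isOpen hzO k j i]
    simp only [hessMat, grad]
    ring
  · simp only [cube]
    refine sum_congr rfl fun i _ => ?_
    rw [sum_comm]
    exact sum_congr rfl fun k _ => sum_congr rfl fun j _ => by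
      rw [hess_comm_of h.smooth h.isOpen hzO i k]
      ring

omit h0 in
theorem divg_tA (hu : 0 < u z) :
    ∑ k, pd (fun y => tA w y k) k z = dot3 (third w z) (third w z) := by
  have hzO := h.mem_of_pos hu
  have hh : ∀ i j, DifferentiableAt ℝ (hess w i j) z := fun i j =>
    differentiableAt_of_smooth (contDiffOn_hess h.smooth h.isOpen i j) h.isOpen hzO
  have ht : ∀ i j k, DifferentiableAt ℝ (fun y => third w y i j k) z := fun i j k =>
    differentiableAt_of_smooth (contDiffOn_third h.smooth h.isOpen i j k) h.isOpen hzO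
  have step : ∀ k, pd (fun y => tA w y k) k z = ∑ i, ∑ j,
      (hess (hess w i j) k k z * hess w i j z + third w z i j k * third w z i j k) := fun k => by
    rw [show (fun y => tA w y k) = fun y => ∑ i, ∑ j, third w y i j k * hess w i j y from rfl,
      pd_sum _ (F := fun i y => ∑ j, third w y i j k * hess w i j y) fun i _ =>
        DifferentiableAt.fun_sum fun j _ => (ht i j k).fun_mul (hh i j)]
    refine sum_congr rfl fun i _ => ?_
    rw [pd_sum _ (F := fun j y => third w y i j k * hess w i j y) fun j _ =>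
      (ht i j k).fun_mul (hh i j)]
    refine sum_congr rfl fun j _ => ?_
    rw [pd_mul (ht i j k) (hh i j)]
    simp only [third, hess]
    ring
  simp only [step, sum_add_distrib]
  have e1 : ∑ k, ∑ i, ∑ j, hess (hess w i j) k k z * hess w i j z = 0 := by
    rw [sum_comm]
    refine sum_eq_zero fun i _ => ?_
    rw [sum_comm]
    refine sum_eq_zero fun j _ => ?_
    rw [← sum_mul, show ∑ k, hess (hess w i j) k k z = 0 from h.laplace_hess hu i j, zero_mul]
  rw [e1, zero_add, dot3]
  rw [sum_comm]
  exact sum_congr rfl fun i _ => sum_comm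

theorem divg_beta1 (hu : 0 < u z) : ∑ k, pd (beta1 w k) k z
    = dot3 (third w z) (third w z) + ((d : ℝ) - 4) * hessSq w z * (dot z z)⁻¹ := by
  have hzO := h.mem_of_pos hu
  have hz0 : z ≠ 0 := fun e => h0 (e ▸ hzO)
  have hR := (dot_self_pos hz0).ne'
  have hr : DifferentiableAt ℝ (fun y : Fin d → ℝ => dot y y) z :=
    contDiff_dot_self.differentiable (by simp) z
  have hS : DifferentiableAt ℝ (hessSq w) z :=
    differentiableAt_of_smooth (contDiffOn_hessSq h.smooth h.isOpen) h.isOpen hzO
  have hpS : ∀ k, pd (hessSq w) k z = 2 * tA w z k := fun k => by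
    rw [show hessSq w = regSq w 0 from funext fun y => by simp [regSq],
      pd_regSq h.smooth h.isOpen hzO hz0, tA]
    ring
  have step : ∀ k, pd (beta1 w k) k z = pd (fun y => tA w y k) k z
      + 2 * (dot z z)⁻¹ * (z k * tA w z k) + hessSq w z * (dot z z)⁻¹
      - 2 * hessSq w z * (dot z z ^ 2)⁻¹ * (z k * z k) := fun k => by
    rw [show beta1 w k = fun y => tA w y k + hessSq w y * y k * (dot y y)⁻¹ from rfl,
      pd_add (differentiableAt_of_smooth (contDiffOn_tA h k) h.isOpen hzO)
        ((hS.fun_mul (differentiableAt_apply k z)).fun_mul (hr.fun_inv hR)),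
      pd_mul (hS.fun_mul (differentiableAt_apply k z)) (hr.fun_inv hR),
      pd_mul hS (differentiableAt_apply k z), pd_coord, if_pos rfl, hpS,
      (pd_comp (f := fun y : Fin d → ℝ => dot y y) (φ := fun t => t⁻¹) (hasDerivAt_inv hR) hr k).trans
        (congrArg _ (pd_dot_self z k))]
    ring
  simp only [step, sum_add_distrib, sum_sub_distrib, ← mul_sum, divg_tA h hu, sum_const, card_univ,
    Fintype.card_fin, nsmul_eq_mul]
  rw [show ∑ k, z k * tA w z k = -hessSq w z from dot_tA h hu,
    show ∑ k, z k * z k = dot z z from rfl]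
  field_simp
  ring

theorem divg_beta2 (hu : 0 < u z) : ∑ k, pd (beta2 w k) k z
    = 2 * (∑ i, ∑ j, hess w i j z * ∑ l, ∑ k, third w z i l k * third w z j l k)
      + ((d : ℝ) - 5) * cube w z * (dot z z)⁻¹ := by
  have hzO := h.mem_of_pos hu
  have hz0 : z ≠ 0 := fun e => h0 (e ▸ hzO)
  have hR := (dot_self_pos hz0).ne'
  have hr : DifferentiableAt ℝ (fun y : Fin d → ℝ => dot y y) z :=
    contDiff_dot_self.differentiable (by simp) z
  have hC : DifferentiableAt ℝ (cube w) z :=
    differentiableAt_of_smooth (contDiffOn_cube h) h.isOpen hzO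
  have ht : ∀ k, pd (fun y => tAA w y k) k z = 1 / 3 * hess (cube w) k k z := fun k => by
    have ev : (fun y => tAA w y k) =ᶠ[𝓝 z] fun y => 1 / 3 * pd (cube w) k y := by
      filter_upwards [h.isOpen.mem_nhds hzO] with y hy
      rw [pd_cube h hy, tAA]
      ring
    rw [pd_congr ev, pd_mul (differentiableAt_const _)
      (differentiableAt_of_smooth (contDiffOn_pd (contDiffOn_cube h) h.isOpen k) h.isOpen hzO),
      pd_const, hess]
    ring
  have step : ∀ k, pd (beta2 w k) k z = 1 / 3 * hess (cube w) k k z
      + 3 * (dot z z)⁻¹ * (z k * tAA w z k) + cube w z * (dot z z)⁻¹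
      - 2 * cube w z * (dot z z ^ 2)⁻¹ * (z k * z k) := fun k => by
    rw [show beta2 w k = fun y => tAA w y k + cube w y * y k * (dot y y)⁻¹ from rfl,
      pd_add (differentiableAt_of_smooth (contDiffOn_tAA h k) h.isOpen hzO)
        ((hC.fun_mul (differentiableAt_apply k z)).fun_mul (hr.fun_inv hR)),
      pd_mul (hC.fun_mul (differentiableAt_apply k z)) (hr.fun_inv hR),
      pd_mul hC (differentiableAt_apply k z), pd_coord, if_pos rfl, ht, pd_cube h hzO,
      (pd_comp (f := fun y : Fin d → ℝ => dot y y) (φ := fun t => t⁻¹) (hasDerivAt_inv hR) hr k).trans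
        (congrArg _ (pd_dot_self z k))]
    simp only [tAA]
    ring
  simp only [step, sum_add_distrib, sum_sub_distrib, ← mul_sum, sum_const, card_univ,
    Fintype.card_fin, nsmul_eq_mul]
  rw [show ∑ k, hess (cube w) k k z = _ from lap_cube h hu,
    show ∑ k, z k * tAA w z k = -cube w z from dot_tAA h hu,
    show ∑ k, z k * z k = dot z z from rfl]
  field_simp
  ring

theorem divg_tField (hc : c.Smooth) (hu : 0 < u z) (hz : z ∈ dom w O δ) :
    ∑ i, pd (tField c w δ i) i z = divTri c w δ z := by
  have hV := isOpen_dom h h0 δ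
  have hz0 : z ≠ 0 := fun e => h0 (e ▸ hz.1)
  have hne := (regLen_pos hz).ne'
  have hd : ∀ {f : (Fin d → ℝ) → ℝ} {n : ℕ}, ContDiffOn ℝ (n + 1 : ℕ) f (dom w O δ) →
      DifferentiableAt ℝ f z :=
    fun hf => (hf.differentiableOn (by simp)).differentiableAt (hV.mem_nhds hz)
  have hdO : ∀ {f : (Fin d → ℝ) → ℝ} {n : ℕ}, ContDiffOn ℝ (n + 1 : ℕ) f O → DifferentiableAt ℝ f z :=
    fun hf => (hf.differentiableOn (by simp)).differentiableAt (h.isOpen.mem_nhds hz.1)
  set a := regLen w δ z
  set B1 := c.b1 (argv w δ z)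
  set B2 := c.b2 (argv w δ z)
  have step : ∀ i, pd (tField c w δ i) i z
      = len z * (a⁻¹ * (gComp c.b1 w δ z i * beta1 w i z)
          - B1 * (a ^ 2)⁻¹ * (gA w δ z i * beta1 w i z) + B1 * a⁻¹ * pd (beta1 w i) i z
          + (a ^ 2)⁻¹ * (gComp c.b2 w δ z i * beta2 w i z)
          - 2 * B2 * (a ^ 3)⁻¹ * (gA w δ z i * beta2 w i z) + B2 * (a ^ 2)⁻¹ * pd (beta2 w i) i z)
        + (len z)⁻¹ * (a⁻¹ * B1 * (z i * beta1 w i z) + (a ^ 2)⁻¹ * B2 * (z i * beta2 w i z)) := by
    intro i
    have dl := diff_regLen h h0 hz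
    have dB1 := hd (contDiffOn_comp3 hc.b1 (contDiffOn_args (δ := δ) h h0))
    have dB2 := hd (contDiffOn_comp3 hc.b2 (contDiffOn_args (δ := δ) h h0))
    have db1 := hdO (contDiffOn_beta1 h h0 i)
    have db2 := hdO (contDiffOn_beta2 h h0 i)
    have di1 := dl.fun_inv hne
    have di2 := (dl.fun_pow 2).fun_inv (pow_ne_zero 2 hne)
    rw [show tField c w δ i = fun y => len y * ((regLen w δ y)⁻¹ * comp3 c.b1 (args w δ) y
        * beta1 w i y + (regLen w δ y ^ 2)⁻¹ * comp3 c.b2 (args w δ) y * beta2 w i y) from rfl,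
      pd_mul (hdO (contDiffOn_len h0))
        (((di1.fun_mul dB1).fun_mul db1).fun_add ((di2.fun_mul dB2).fun_mul db2)),
      pd_add ((di1.fun_mul dB1).fun_mul db1) ((di2.fun_mul dB2).fun_mul db2),
      pd_mul (di1.fun_mul dB1) db1, pd_mul di1 dB1, pd_mul (di2.fun_mul dB2) db2, pd_mul di2 dB2,
      pd_comp (φ := fun t => t⁻¹) (hasDerivAt_inv hne) dl i,
      pd_comp (φ := fun t => (t ^ 2)⁻¹)
        ((hasDerivAt_pow 2 (regLen w δ z)).fun_inv (pow_ne_zero 2 hne)) dl i,
      pd_len hz0, show pd (regLen w δ) i z = gA w δ z i from congr_fun (grad_regLen h h0 hz) i,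
      show pd (comp3 c.b1 (args w δ)) i z = gComp c.b1 w δ z i from
        congr_fun (grad_comp h h0 hz hc.b1) i,
      show pd (comp3 c.b2 (args w δ)) i z = gComp c.b2 w δ z i from
        congr_fun (grad_comp h h0 hz hc.b2) i]
    simp only [comp3, show (fun i => args w δ i z) = argv w δ z from rfl, a, B1, B2]
    push_cast
    field_simp
    ring
  simp only [step, sum_add_distrib, sum_sub_distrib, ← mul_sum, divg_beta1 h h0 hu,
    divg_beta2 h h0 hu]
  rw [show ∑ i, z i * beta1 w i z = 0 from dot_beta1 h h0 hu,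
    show ∑ i, z i * beta2 w i z = 0 from dot_beta2 h h0 hu]
  simp only [divTri, dot, a, B1, B2]
  ring

/-- The interior expression is what the test needs. -/
theorem interior_eq (hc : c.Smooth) (hu : 0 < u z) (hz : z ∈ dom w O δ) :
    divg (yField c w δ) z - dot (grad (testFn c w δ) z) (grad (testFn c w δ) z)
      - γ * (testFn c w δ z ^ 2 * (dot z z)⁻¹) = interior γ c w δ z := by
  have hV := isOpen_dom h h0 δ
  have hz0 : z ≠ 0 := fun e => h0 (e ▸ hz.1)
  have hcl := subset_closure (s := {y | 0 < u y}) hu
  have hs := sVar_pos h0 hz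
  have hP : ContDiffOn ℝ 2 (potential c w δ) (dom w O δ) := contDiffOn_potential h h0 hc
  have hd : ∀ {f : (Fin d → ℝ) → ℝ} {n : ℕ}, ContDiffOn ℝ (n + 1 : ℕ) f (dom w O δ) →
      DifferentiableAt ℝ f z :=
    fun hf => (hf.differentiableOn (by simp)).differentiableAt (hV.mem_nhds hz)
  have hdO : ∀ {f : (Fin d → ℝ) → ℝ} {n : ℕ}, ContDiffOn ℝ (n + 1 : ℕ) f O → DifferentiableAt ℝ f z :=
    fun hf => (hf.differentiableOn (by simp)).differentiableAt (h.isOpen.mem_nhds hz.1)
  have e1 : divg (yField c w δ) z = lapPotential c w δ z + ∑ i, pd (vField c w δ i) i z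
      + ∑ i, pd (tField c w δ i) i z := by
    rw [← lap_potential h h0 hc hu hz, lap, ← sum_add_distrib, ← sum_add_distrib]
    refine sum_congr rfl fun i _ => (pd_add ((hd (contDiffOn_pd hP hV i)).fun_add
      (hd (contDiffOn_vField h h0 hc i))) (hd (contDiffOn_tField h h0 hc i)) i).trans ?_
    rw [pd_add (hd (contDiffOn_pd hP hV i)) (hd (contDiffOn_vField h h0 hc i)) i]
    rfl
  set a := regLen w δ z
  set Al := c.al (argv w δ z)
  set Be := c.be (argv w δ z)
  set Ga := c.ga (argv w δ z)
  have step : ∀ i, pd (vField c w δ i) i z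
      = len z * (2 * a * Al * (gA w δ z i * pVec w i z) + a * a * (gComp c.al w δ z i * pVec w i z)
          + a * a * Al * pd (pVec w i) i z
          + Be * (gA w δ z i * aField w i z) + a * (gComp c.be w δ z i * aField w i z)
          + a * Be * pd (aField w i) i z
          + gComp c.ga w δ z i * bField w i z + Ga * pd (bField w i) i z)
        + (len z)⁻¹ * (a * a * Al * (z i * pVec w i z) + a * Be * (z i * aField w i z)
          + Ga * (z i * bField w i z)) := by
    intro i
    have dl := diff_regLen h h0 hz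
    have dA := hd (contDiffOn_comp3 hc.al (contDiffOn_args (δ := δ) h h0))
    have dB := hd (contDiffOn_comp3 hc.be (contDiffOn_args (δ := δ) h h0))
    have dG := hd (contDiffOn_comp3 hc.ga (contDiffOn_args (δ := δ) h h0))
    have dp := hdO (contDiffOn_pVec h h0 i)
    have da := hdO (contDiffOn_aField h.smooth h.isOpen i)
    have db := hdO (contDiffOn_bField h i)
    rw [show vField c w δ i = fun y => len y * (regLen w δ y * regLen w δ y * comp3 c.al (args w δ) y
        * pVec w i y + regLen w δ y * comp3 c.be (args w δ) y * aField w i y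
        + comp3 c.ga (args w δ) y * bField w i y) from rfl,
      pd_mul (hdO (contDiffOn_len h0))
        (((((dl.fun_mul dl).fun_mul dA).fun_mul dp).fun_add ((dl.fun_mul dB).fun_mul da)).fun_add
          (dG.fun_mul db)),
      pd_add ((((dl.fun_mul dl).fun_mul dA).fun_mul dp).fun_add ((dl.fun_mul dB).fun_mul da))
          (dG.fun_mul db),
      pd_add (((dl.fun_mul dl).fun_mul dA).fun_mul dp) ((dl.fun_mul dB).fun_mul da),
      pd_mul ((dl.fun_mul dl).fun_mul dA) dp, pd_mul (dl.fun_mul dl) dA, pd_mul dl dl,
      pd_mul (dl.fun_mul dB) da, pd_mul dl dB, pd_mul dG db, pd_len hz0, pd_regLen h h0 hz,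
      show pd (comp3 c.al (args w δ)) i z = gComp c.al w δ z i from
        congr_fun (grad_comp h h0 hz hc.al) i,
      show pd (comp3 c.be (args w δ)) i z = gComp c.be w δ z i from
        congr_fun (grad_comp h h0 hz hc.be) i,
      show pd (comp3 c.ga (args w δ)) i z = gComp c.ga w δ z i from
        congr_fun (grad_comp h h0 hz hc.ga) i]
    simp only [comp3, show (fun i => args w δ i z) = argv w δ z from rfl, gA, tA, a, Al, Be, Ga]
    ring
  have e2 : ∑ i, pd (vField c w δ i) i z = divRest c w δ z := by
    simp only [step, sum_add_distrib, ← mul_sum, divg_pVec h h0 hu, divg_aField h hu,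
      divg_bField h hu]
    rw [show ∑ i, z i * pVec w i z = 0 from dot_pVec h hz.1 hcl hz0,
      show ∑ i, z i * aField w i z = 0 from dot_aField h hz.1 hcl,
      show ∑ i, z i * bField w i z = 0 from dot_bField h hz.1 hcl]
    simp only [divRest, dot, a, Al, Be, Ga]
    ring
  rw [e1, e2, divg_tField h h0 hc hu hz, gradSq_testFn h h0 hc hz, interior, testFn, mul_pow, Real.sq_sqrt hs.le]
  simp only [comp3, show (fun i => args w δ i z) = argv w δ z from rfl]

end derivs

/-- The trace of the fourth power of the Hessian. -/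
def quart (w : (Fin d → ℝ) → ℝ) (z : Fin d → ℝ) : ℝ :=
  dot2 (sqMat (hessMat w z)) (sqMat (hessMat w z))

/-- The normal derivative of the regularised length. -/
def nA (w : (Fin d → ℝ) → ℝ) (δ : ℝ) (z : Fin d → ℝ) : ℝ :=
  (-cube w z - 2 * meanCurv w z * hessSq w z) / regLen w δ z

/-- The normal derivatives of the arguments. -/
def nArgs (w : (Fin d → ℝ) → ℝ) (δ : ℝ) (z : Fin d → ℝ) : Fin 4 → ℝ :=
  ![regLen w δ z, 2 * meanCurv w z,
    3 * (-quart w z - meanCurv w z * cube w z + hessSq w z * meanCurv w z ^ 2) / regLen w δ z ^ 3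
      - 3 * cube w z * nA w δ z / regLen w δ z ^ 4,
    -2 * sVar w δ z * xiVal w δ z ^ 2 * (len z * nA w δ z)]

/-- The boundary expression `Y ν + H G^2`. -/
def flux (c : FieldsX) (w : (Fin d → ℝ) → ℝ) (δ : ℝ) (z : Fin d → ℝ) : ℝ :=
  c.F (argv w δ z) * (len z * nA w δ z) + sVar w δ z * ∑ i, pd c.F i (argv w δ z) * nArgs w δ z i
    + len z * (regLen w δ z * regLen w δ z * c.al (argv w δ z)
      - regLen w δ z * meanCurv w z * c.be (argv w δ z) + meanCurv w z ^ 2 * c.ga (argv w δ z))
    + len z * ((regLen w δ z)⁻¹ * c.b1 (argv w δ z)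
        * (-cube w z - 2 * meanCurv w z * hessSq w z)
      + (regLen w δ z ^ 2)⁻¹ * c.b2 (argv w δ z)
        * (-quart w z - meanCurv w z * cube w z + hessSq w z * meanCurv w z ^ 2))
    + meanCurv w z * (sVar w δ z * c.g (argv w δ z) ^ 2)

theorem flux_eq (h : RegularCone u O w) (h0 : (0 : Fin d → ℝ) ∉ O) (hc : c.Smooth)
    (hy : z ∈ frontier {y | 0 < u y}) (hz : z ∈ dom w O δ) :
    dot (fun i => yField c w δ i z) (grad w z) + meanCurv w z * testFn c w δ z ^ 2
      = flux c w δ z := by
  obtain ⟨hN, hAN, -⟩ := h.free_boundary h0 hy hz.1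
  obtain ⟨hq, -, hT⟩ := third_normal h h0 hy hz.1
  have hcl := RegularCone.mem_closure_of_frontier hy
  have hw0 : w z = 0 := by rw [h.w_eq hcl hz.1, h.u_eq_zero_of_frontier hy]
  set N := grad w z with hNdef
  set H := meanCurv w z with hHdef
  set A := hessMat w z with hAdef
  have hA : ∀ i j, A i j = A j i := fun i j => hess_comm_of h.smooth h.isOpen hz.1 i j
  have hxN : dot z N = 0 := by rw [h.euler hcl hz.1, hw0]
  have hNz : ∑ k, z k * N k = 0 := hxN
  have hT' : ∀ i l, ∑ k, third w z i l k * N k = -(∑ k, A i k * A k l) - H * A i l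
      + dot2 A A * N i * N l + N i * qvec w z l + qvec w z i * N l := hT
  have hP : ∀ P : Fin d → Fin d → ℝ, (∀ i j, P i j = P j i) → ∀ h' : ℝ,
      (∀ i, app P N i = h' * N i) →
      dot (fun k => dot2 (fun i j => third w z i j k) P) N
        = -dot2 (sqMat A) P - H * dot2 A P + dot2 A A * h' := by
    intro P hPs h' hPN
    calc dot (fun k => dot2 (fun i j => third w z i j k) P) N
        = ∑ i, ∑ l, (∑ k, third w z i l k * N k) * P i l := by
          simp only [dot, dot2, sum_mul]
          rw [sum_comm]
          exact sum_congr rfl fun i _ => sum_comm.trans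
            (sum_congr rfl fun l _ => sum_congr rfl fun k _ => by ring)
      _ = ∑ i, ∑ l, (-(sqMat A i l * P i l) - H * (A i l * P i l)
            + dot2 A A * (N i * (P i l * N l)) + qvec w z l * (P l i * N i)
            + qvec w z i * (P i l * N l)) := sum_congr rfl fun i _ => sum_congr rfl fun l _ => by
          rw [hT', hPs l i, sqMat]; ring
      _ = -dot2 (sqMat A) P - H * dot2 A P + dot2 A A * (h' * dot N N)
            + (∑ i, ∑ l, qvec w z l * (P l i * N i)) + h' * dot (qvec w z) N := by
          simp only [sum_add_distrib, sum_sub_distrib, sum_neg_distrib, ← mul_sum]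
          congr 1
          · congr 2
            simp only [dot, show ∀ i, ∑ l, P i l * N l = h' * N i from hPN, mul_sum]
            exact sum_congr rfl fun i _ => by ring
          · simp only [show ∀ i, ∑ l, P i l * N l = h' * N i from hPN, dot, mul_sum]
            exact sum_congr rfl fun i _ => by ring
      _ = _ := by
          rw [sum_comm]
          simp only [← mul_sum, show ∀ i, ∑ l, P i l * N l = h' * N i from hPN]
          rw [show ∑ y, qvec w z y * (h' * N y) = h' * dot (qvec w z) N by
            simp only [dot, mul_sum]; exact sum_congr rfl fun i _ => by ring, hq, hN]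
          ring
  have hAAN : ∀ i, app (sqMat A) N i = H ^ 2 * N i := fun i => by
    calc app (sqMat A) N i = ∑ k, A i k * app A N k := by
          simp only [app, sqMat, sum_mul, mul_sum]
          rw [sum_comm]
          exact sum_congr rfl fun k _ => sum_congr rfl fun j _ => by ring
      _ = -H * app A N i := by
          show ∑ k, A i k * app A N k = -H * ∑ k, A i k * N k
          rw [mul_sum]
          exact sum_congr rfl fun k _ => by rw [hAN k]; ring
      _ = _ := by rw [hAN i]; ring
  have hsq : ∀ i j, sqMat A i j = sqMat A j i := fun i j =>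
    sum_congr rfl fun k _ => by rw [hA i k, hA k j]; ring
  have hcube : dot2 (sqMat A) A = cube w z := by
    simp only [dot2, sqMat, cube, sum_mul, hAdef, hessMat]
  have htA : dot (tA w z) N = -cube w z - 2 * H * hessSq w z := by
    refine (hP A hA (-H) hAN).trans ?_
    rw [hcube, show dot2 A A = hessSq w z from rfl]
    ring
  have htAA : dot (tAA w z) N = -quart w z - H * cube w z + hessSq w z * H ^ 2 := by
    refine (hP (sqMat A) hsq (H ^ 2) hAAN).trans ?_
    rw [dot2_symm A, hcube]
    rfl
  have hgA : dot (gA w δ z) N = nA w δ z := by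
    simp only [gA, dot, div_mul_eq_mul_div, ← sum_div, sub_mul, sum_sub_distrib, mul_assoc, ← mul_sum,
      hNz]
    rw [show ∑ i, tA w z i * N i = dot (tA w z) N from rfl, htA, nA]
    simp only [hHdef, mul_zero, sub_zero]
  have hgS : dot (gS w δ z) N = len z * nA w δ z := by
    rw [dot_comm, show gS w δ z = fun k => len z * gA w δ z k + regLen w δ z / len z * z k from
      funext fun k => by simp only [gS]; ring, dot_lin, dot_comm N, hgA, dot_comm N, hxN]
    ring
  have hgArgs : ∀ i, dot (gArgs w δ z i) N = nArgs w δ z i := by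
    intro i
    fin_cases i
    · show dot (fun k => w z * gA w δ z k + regLen w δ z * N k) N = regLen w δ z
      rw [dot_comm, dot_lin, hw0, hN]; ring
    · show dot (fun k => -2 * aField w k z) N = 2 * H
      rw [dot_comm, show (fun k => -2 * aField w k z) = fun k => (2 * H) * N k + 0 * N k from
        funext fun k => by rw [show aField w k z = -H * N k from hAN k]; ring, dot_lin, hN]
      ring
    · show dot (fun k => 3 * tAA w z k / regLen w δ z ^ 3
        - 3 * cube w z * gA w δ z k / regLen w δ z ^ 4) N = _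
      rw [dot_comm, show (fun k => 3 * tAA w z k / regLen w δ z ^ 3
          - 3 * cube w z * gA w δ z k / regLen w δ z ^ 4) = fun k => 3 / regLen w δ z ^ 3 * tAA w z k
            + (-(3 * cube w z / regLen w δ z ^ 4)) * gA w δ z k from funext fun k => by ring,
        dot_lin, dot_comm N, htAA, dot_comm N, hgA]
      simp only [nArgs, Fin.reduceFinMk, Matrix.cons_val, hHdef]
      ring
    · show dot (fun k => -2 * sVar w δ z * xiVal w δ z ^ 2 * gS w δ z k) N
        = -2 * sVar w δ z * xiVal w δ z ^ 2 * (len z * nA w δ z)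
      rw [← hgS]
      simp only [dot, mul_sum]
      exact sum_congr rfl fun _ _ => by ring
  have hgF : dot (gComp c.F w δ z) N = ∑ i, pd c.F i (argv w δ z) * nArgs w δ z i := by
    simp only [← hgArgs, dot, gComp, sum_mul, mul_sum]
    rw [sum_comm]
    exact sum_congr rfl fun i _ => sum_congr rfl fun k _ => by ring
  have hp : ∑ i, pVec w i z * N i = 1 := by
    simp only [pVec, hw0, zero_mul, sub_zero]
    exact hN
  have ha : ∑ i, aField w i z * N i = -H := by
    simp only [show ∀ i, aField w i z = -H * N i from hAN, mul_assoc, ← mul_sum]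
    rw [show ∑ i, N i * N i = 1 from hN]; ring
  have hb : ∑ i, bField w i z * N i = H ^ 2 := by
    have e : ∀ i, bField w i z = H ^ 2 * N i := fun i => by
      show ∑ j, A i j * aField w j z = _
      simp only [show ∀ j, aField w j z = -H * N j from hAN, mul_left_comm (A i _), ← mul_sum]
      rw [show ∑ j, A i j * N j = -H * N i from hAN i]; ring
    simp only [e, mul_assoc, ← mul_sum]
    rw [show ∑ i, N i * N i = 1 from hN, mul_one]
  have epot : ∀ i, pd (potential c w δ) i z
      = sVar w δ z * gComp c.F w δ z i + c.F (argv w δ z) * gS w δ z i := fun i => by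
    rw [show potential c w δ = fun y => sVar w δ y * comp3 c.F (args w δ) y from rfl,
      pd_mul (differentiableAt_of_smooth (contDiffOn_sVar h h0) (isOpen_dom h h0 δ) hz)
        (differentiableAt_of_smooth (contDiffOn_comp3 hc.F (contDiffOn_args h h0))
          (isOpen_dom h h0 δ) hz),
      show pd (sVar w δ) i z = gS w δ z i from congr_fun (grad_sVar h h0 hz) i,
      show pd (comp3 c.F (args w δ)) i z = gComp c.F w δ z i from
        congr_fun (grad_comp h h0 hz hc.F) i]
    rfl
  have hb1 : ∑ i, beta1 w i z * N i = -cube w z - 2 * H * hessSq w z := by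
    rw [← htA]
    simp only [beta1, dot, add_mul, sum_add_distrib, add_eq_left]
    calc ∑ i, hessSq w z * z i * (dot z z)⁻¹ * N i
        = hessSq w z * (dot z z)⁻¹ * ∑ i, z i * N i := by
          rw [mul_sum]; exact sum_congr rfl fun _ _ => by ring
      _ = 0 := by rw [hNz, mul_zero]
  have hb2 : ∑ i, beta2 w i z * N i = -quart w z - H * cube w z + hessSq w z * H ^ 2 := by
    rw [← htAA]
    simp only [beta2, dot, add_mul, sum_add_distrib, add_eq_left]
    calc ∑ i, cube w z * z i * (dot z z)⁻¹ * N i
        = cube w z * (dot z z)⁻¹ * ∑ i, z i * N i := by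
          rw [mul_sum]; exact sum_congr rfl fun _ _ => by ring
      _ = 0 := by rw [hNz, mul_zero]
  rw [testFn, mul_pow, Real.sq_sqrt (sVar_pos h0 hz).le]
  simp only [dot, yField, vField, tField, epot, comp3, show (fun i => args w δ i z) = argv w δ z from rfl,
    add_mul, mul_add, sum_add_distrib, mul_assoc, ← mul_sum, hp, ha, hb, hb1, hb2]
  rw [show ∑ i, gComp c.F w δ z i * N i = dot (gComp c.F w δ z) N from rfl,
    show ∑ i, gS w δ z i * N i = dot (gS w δ z) N from rfl, hgF, hgS, flux]
  ring

end

end Vale.Agent.P098.Div
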