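import Vale.Agent.P098.Div.Interior

/-!
# P098: the weighted square of the third derivatives is integrable

The Laplacian of the regularised length of the Hessian dominates `|T|^2 / a` by the improved Kato
inequality, so Fatou's lemma bounds the integral of `|T|^2 / |A|`; in particular the third derivatives
vanish almost everywhere on the zero set of the Hessian.
-/

namespace Vale.Agent.P098.Div

open Vale.Agent.P098.Cone Vale.Agent.P098.Jet
open MeasureTheory Set Filter Topology Finset
open scoped ContDiff ENNReal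

noncomputable section

variable {d : ℕ} {u w : (Fin d → ℝ) → ℝ} {O : Set (Fin d → ℝ)} {z : Fin d → ℝ} {δ : ℝ}

theorem dot_add_sq_le (p q : Fin d → ℝ) {η : ℝ} (hη : 0 < η) :
    dot (fun k => p k - q k) (fun k => p k - q k) ≤ (1 + η) * dot p p + (1 + η⁻¹) * dot q q := by
  simp only [dot, mul_sum, ← sum_add_distrib]
  refine sum_le_sum fun k _ => ?_
  have e : (1 + η) * (p k * p k) + (1 + η⁻¹) * (q k * q k) - (p k - q k) * (p k - q k)
      = η⁻¹ * (η * p k + q k) ^ 2 := by field_simp; ring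
  linarith [mul_nonneg (inv_nonneg.2 hη.le) (sq_nonneg (η * p k + q k))]

/-- The improved Kato inequality. -/
theorem kato_tA (h : RegularCone u O w) (hz : 0 < u z) :
    dot (tA w z) (tA w z) ≤ (1 - 4 / (3 * ((d : ℝ) + 2))) * hessSq w z
      * dot3 (third w z) (third w z) := by
  have hzO := h.mem_of_pos hz
  set A := hessMat w z
  set T := third w z
  set v := tA w z
  set q := app A v
  set I : Fin d → Fin d → ℝ := fun i j => if i = j then 1 else 0
  set β := 2 / ((d : ℝ) + 2)
  have hd2 : 0 < (d : ℝ) + 2 := by positivity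
  have hA : ∀ i j, A i j = A j i := fun i j => hess_comm_of h.smooth h.isOpen hzO i j
  have hI : ∀ i j, I i j = I j i := fun i j => by simp [I, eq_comm]
  have hT1 := third_comm₁ h.smooth h.isOpen hzO
  have hT2 := third_comm₂ h.smooth h.isOpen hzO
  set S : Fin d → Fin d → Fin d → ℝ := fun i j k => sym3 A v i j k - β * sym3 I q i j k
  have hTS : dot3 T S = 3 * dot v v := by
    have e : dot3 T S = dot3 T (sym3 A v) - β * dot3 T (sym3 I q) := by
      simp only [dot3, S, mul_sub, sum_sub_distrib, mul_sum]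
      congr 1
      exact sum_congr rfl fun i _ => sum_congr rfl fun j _ => sum_congr rfl fun k _ => by ring
    have e2 : ∀ k, dot2 (fun i j => T i j k) I = 0 := fun k => by
      simp only [dot2, I, mul_ite, mul_one, mul_zero, Finset.sum_ite_eq, Finset.mem_univ, if_true]
      exact h.third_trace_pos hz k
    rw [e, dot3_sym3 hT1 hT2, dot3_sym3 hT1 hT2,
      show ∑ k, dot2 (fun i j => T i j k) I * q k = 0 from
        sum_eq_zero fun k _ => by rw [e2 k, zero_mul]]
    simp only [mul_zero, sub_zero]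
    rfl
  have hIv : ∀ p, app I p = p := fun p => funext fun i => by simp [app, I]
  have hIA : dot2 A I = 0 := by
    simp only [dot2, I, mul_ite, mul_one, mul_zero, Finset.sum_ite_eq, Finset.mem_univ, if_true]
    exact h.trace_pos hz
  have hII : dot2 I I = (d : ℝ) := by
    simp [dot2, I]
  have hSS : dot3 S S = 3 * dot2 A A * dot v v + (6 - 12 / ((d : ℝ) + 2)) * dot q q := by
    have e : dot3 S S = dot3 (sym3 A v) (sym3 A v) - 2 * β * dot3 (sym3 A v) (sym3 I q)
        + β ^ 2 * dot3 (sym3 I q) (sym3 I q) := by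
      simp only [dot3, S, mul_sum, ← sum_sub_distrib, ← sum_add_distrib]
      exact sum_congr rfl fun i _ => sum_congr rfl fun j _ => sum_congr rfl fun k _ => by ring
    rw [e, sym3_dot3 hA hA, sym3_dot3 hA hI, sym3_dot3 hI hI, hIA, hII]
    simp only [hIv]
    rw [show dot (app A q) v = dot q q from dot_app hA q v, show app A v = q from rfl]
    simp only [β]
    field_simp
    ring
  have hq : dot q q ≤ dot2 A A * dot v v := by
    refine (sum_le_sum fun i _ => ?_).trans_eq (sum_mul _ _ _).symm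
    have := dot_sq_le (A i) v
    simpa [sq, q, dot, app] using this
  have hcoef : 0 ≤ 6 - 12 / ((d : ℝ) + 2) := by
    rw [sub_nonneg, div_le_iff₀ hd2]
    linarith [(Nat.cast_nonneg d : (0 : ℝ) ≤ d)]
  have hcs := dot3_sq_le T S
  rw [hTS, hSS] at hcs
  have hT0 := dot3_self_nonneg T
  rcases (dot_self_nonneg v).eq_or_lt with h0 | h0
  · rw [← h0]
    refine mul_nonneg (mul_nonneg ?_ (dot2_self_nonneg _)) hT0
    rw [sub_nonneg, div_le_one (by positivity)]
    linarith [(Nat.cast_nonneg d : (0 : ℝ) ≤ d)]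
  refine le_of_mul_le_mul_left ?_ (mul_pos (by norm_num : (0 : ℝ) < 9) h0)
  calc 9 * dot v v * dot v v = (3 * dot v v) ^ 2 := by ring
    _ ≤ dot3 T T * (3 * dot2 A A * dot v v + (6 - 12 / ((d : ℝ) + 2)) * (dot2 A A * dot v v)) :=
        hcs.trans (mul_le_mul_of_nonneg_left
          (add_le_add_right (mul_le_mul_of_nonneg_left hq hcoef) _) hT0)
    _ = _ := by
        rw [show hessSq w z = dot2 A A from rfl]
        field_simp
        ring

theorem delta_le (hz : z ∈ dom w O δ) :
    δ * (dot z z)⁻¹ ≤ regLen w δ z * regLen w δ z := by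
  rw [regLen_sq hz, regSq]
  have : 0 ≤ hessSq w z := dot2_self_nonneg _
  linarith

theorem hessSq_le_regLen (hδ : 0 ≤ δ) (hz : z ∈ dom w O δ) :
    hessSq w z ≤ regLen w δ z * regLen w δ z := by
  rw [regLen_sq hz, regSq]
  linarith [mul_nonneg hδ (inv_nonneg.2 (dot_self_nonneg z))]

/-- The lower bound of the Laplacian of the regularised length. -/
theorem lA_lower (h : RegularCone u O w) (h0 : (0 : Fin d → ℝ) ∉ O) (hu : 0 < u z) (hδ : 0 < δ) :
    2 / (3 * ((d : ℝ) + 2)) * (dot3 (third w z) (third w z) / regLen w δ z)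
      - ((d : ℝ) + 1 + 3 * ((d : ℝ) + 2) / 2) * (regLen w δ z * (dot z z)⁻¹) ≤ lA w δ z := by
  have hzO := h.mem_of_pos hu
  have hz : z ∈ dom w O δ := by rwa [dom_of_pos h0 hδ]
  have ha := regLen_pos hz
  have hR := dot_self_pos fun e : z = 0 => h0 (e ▸ hzO)
  set a := regLen w δ z
  set T2 := dot3 (third w z) (third w z)
  set θ := 4 / (3 * ((d : ℝ) + 2)) with hθ
  have hθ0 : 0 < θ := by positivity
  have hθ1 : θ ≤ 1 := by
    rw [hθ, div_le_one (by positivity)]; linarith [(Nat.cast_nonneg d : (0 : ℝ) ≤ d)]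
  have hB := delta_le hz
  have hg : a * a * dot (gA w δ z) (gA w δ z)
      ≤ (1 + θ / 2) * dot (tA w z) (tA w z) + (1 + (θ / 2)⁻¹) * (δ * (dot z z)⁻¹ * (δ * (dot z z ^ 2)⁻¹)) := by
    have e : a * a * dot (gA w δ z) (gA w δ z) = dot (fun k => tA w z k - δ * (dot z z ^ 2)⁻¹ * z k)
        (fun k => tA w z k - δ * (dot z z ^ 2)⁻¹ * z k) := by
      simp only [dot, gA, mul_sum, a]
      refine sum_congr rfl fun k _ => ?_
      have := (regLen_pos hz).ne'
      field_simp
    rw [e]
    refine (dot_add_sq_le _ _ (half_pos hθ0)).trans_eq ?_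
    congr 2
    rw [show dot (fun k => δ * (dot z z ^ 2)⁻¹ * z k) (fun k => δ * (dot z z ^ 2)⁻¹ * z k)
      = δ * (dot z z ^ 2)⁻¹ * (δ * (dot z z ^ 2)⁻¹) * dot z z by
        simp only [dot, mul_sum]; exact sum_congr rfl fun k _ => by ring]
    field_simp
  have hk := kato_tA h hu
  have hhs := hessSq_le_regLen hδ.le hz
  have h1 : dot (gA w δ z) (gA w δ z) ≤ (1 + θ / 2) * (1 - θ) * T2
      + (1 + (θ / 2)⁻¹) * (δ * (dot z z ^ 2)⁻¹) := by
    refine le_of_mul_le_mul_left ?_ (mul_pos ha ha)
    refine hg.trans ?_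
    rw [mul_add]
    refine add_le_add ?_ ?_
    · calc (1 + θ / 2) * dot (tA w z) (tA w z) ≤ (1 + θ / 2) * ((1 - θ) * hessSq w z * T2) :=
            mul_le_mul_of_nonneg_left hk (by positivity)
        _ ≤ (1 + θ / 2) * ((1 - θ) * (a * a) * T2) := by
            refine mul_le_mul_of_nonneg_left (mul_le_mul_of_nonneg_right
              (mul_le_mul_of_nonneg_left hhs (sub_nonneg.2 hθ1)) (dot3_self_nonneg _)) (by positivity)
        _ = _ := by ring
    · calc (1 + (θ / 2)⁻¹) * (δ * (dot z z)⁻¹ * (δ * (dot z z ^ 2)⁻¹))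
          ≤ (1 + (θ / 2)⁻¹) * (a * a * (δ * (dot z z ^ 2)⁻¹)) := by
            gcongr
        _ = _ := by ring
  have h2 : δ * (dot z z ^ 2)⁻¹ ≤ a * a * (dot z z)⁻¹ := by
    rw [sq, mul_inv, ← mul_assoc]
    exact mul_le_mul_of_nonneg_right hB (inv_nonneg.2 hR.le)
  have hC : 0 ≤ (d : ℝ) + 1 + (θ / 2)⁻¹ := by positivity
  have h3 := mul_le_mul_of_nonneg_left h2 hC
  have h4 : θ / 2 * T2 - ((d : ℝ) + 1 + (θ / 2)⁻¹) * (a * a * (dot z z)⁻¹)
      ≤ T2 + δ * (4 - (d : ℝ)) * (dot z z ^ 2)⁻¹ - dot (gA w δ z) (gA w δ z) := by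
    have : 0 ≤ θ * θ / 2 * T2 := mul_nonneg (by positivity) (dot3_self_nonneg _)
    have : 0 ≤ 4 * (δ * (dot z z ^ 2)⁻¹) := by positivity
    linarith
  refine le_trans (le_of_eq ?_) (div_le_div_of_nonneg_right h4 ha.le)
  simp only [hθ, T2, a]
  have := ha.ne'
  field_simp
  ring

/-- The integral bound, uniform in the regularisation. -/
theorem third_bound (h : RegularCone u O w) (hP : ∀ y ∈ O, 0 < dot (grad w y) (grad w y))
    (h0 : (0 : Fin d → ℝ) ∉ O) {ζ : (Fin d → ℝ) → ℝ} (hζ : ContDiff ℝ ∞ ζ)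
    (hζc : HasCompactSupport ζ) (hζO : tsupport ζ ⊆ O) :
    ∃ C : ℝ, ∀ δ, 0 < δ → δ ≤ 1 → IntegrableOn
        (fun z => ζ z * ζ z * (dot3 (third w z) (third w z) / regLen w δ z)) {z | 0 < u z} ∧
      ∫ z in {z | 0 < u z}, ζ z * ζ z * (dot3 (third w z) (third w z) / regLen w δ z) ≤ C := by
  set K := tsupport ζ
  have hK : IsCompact K := hζc
  obtain ⟨Cf, hCf, hflux⟩ := h.flux_le hP hK hζO
  set S := {z : Fin d → ℝ | 0 < u z}
  have hS : MeasurableSet S := h.isOpen_pos.measurableSet
  have hne : ∀ z ∈ O, dot z z ≠ 0 := fun z hz => (dot_self_pos fun e : z = 0 => h0 (e ▸ hz)).ne'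
  set g : (Fin d → ℝ) → ℝ := fun z => (regSq w 1 z + 1) * (1 + (dot z z)⁻¹)
  set τ : (Fin d → ℝ) → ℝ := fun z => √(dot3 (third w z) (third w z))
  have hTc : ContinuousOn (fun z => dot3 (third w z) (third w z)) O :=
    continuousOn_finsetSum _ fun i _ => continuousOn_finsetSum _ fun j _ =>
      continuousOn_finsetSum _ fun k _ => (contDiffOn_third h.smooth h.isOpen i j k).continuousOn.mul
        (contDiffOn_third h.smooth h.isOpen i j k).continuousOn
  have hRc : ContinuousOn (fun z : Fin d → ℝ => (dot z z)⁻¹) O :=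
    contDiff_dot_self.continuous.continuousOn.inv₀ hne
  have hgc : ContinuousOn g O :=
    ((contDiffOn_regSq h.smooth h.isOpen h0 1).continuousOn.add continuousOn_const).mul
      (continuousOn_const.add hRc)
  set G : (Fin d → ℝ) → ℝ := fun z => τ z + g z * ‖z‖
  have hGc : ContinuousOn G O := hTc.sqrt.add (hgc.mul continuous_norm.continuousOn)
  have hzk : ∀ (z : Fin d → ℝ) (k : Fin d), |z k| ≤ ‖z‖ := fun z k => by
    rw [← Real.norm_eq_abs]; exact norm_le_pi_norm z k
  -- on the compact support the gradient and the length are bounded uniformly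
  have hbase : ∀ δ, 0 < δ → δ ≤ 1 → ∀ z ∈ K, regLen w δ z ≤ g z
      ∧ ∀ k, |gA w δ z k| ≤ G z := by
    intro δ hδ hδ1 z hz
    have hzd : z ∈ dom w O δ := by rw [dom_of_pos h0 hδ]; exact hζO hz
    have ha := regLen_pos hzd
    have hR := dot_self_pos fun e : z = 0 => h0 (e ▸ hζO hz)
    have h1 : regSq w δ z ≤ regSq w 1 z := by
      simp only [regSq]
      have := mul_le_mul_of_nonneg_right hδ1 (inv_nonneg.2 hR.le)
      linarith
    have h2 : regLen w δ z ≤ regSq w 1 z + 1 := by
      have := regLen_sq hzd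
      nlinarith [mul_self_nonneg (regLen w δ z - 1)]
    have h3 : regLen w δ z ≤ g z := by
      refine h2.trans (le_mul_of_one_le_right ?_ (by linarith [inv_nonneg.2 hR.le]))
      linarith [(regSq_pos hδ (fun e : z = 0 => h0 (e ▸ hζO hz)) : 0 < regSq w δ z)]
    refine ⟨h3, fun k => ?_⟩
    have h4 : |tA w z k| ≤ regLen w δ z * τ z := by
      rw [← Real.sqrt_sq ha.le, ← Real.sqrt_mul (sq_nonneg _)]
      refine Real.abs_le_sqrt ((dot2_sq_le _ _).trans ?_)
      rw [mul_comm]
      refine mul_le_mul ((hessSq_le_regLen hδ.le hzd).trans_eq (sq _).symm) ?_ (dot2_self_nonneg _)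
        (sq_nonneg _)
      simp only [dot2, dot3]
      exact sum_le_sum fun i _ => sum_le_sum fun j _ =>
        single_le_sum (f := fun l => third w z i j l * third w z i j l)
          (fun l _ => mul_self_nonneg _) (Finset.mem_univ k)
    have h5 : δ * (dot z z ^ 2)⁻¹ ≤ regLen w δ z * regLen w δ z * (dot z z)⁻¹ := by
      rw [sq, mul_inv, ← mul_assoc]
      exact mul_le_mul_of_nonneg_right (delta_le hzd) (inv_nonneg.2 hR.le)
    rw [gA, abs_div, abs_of_pos ha, div_le_iff₀ ha]
    refine (abs_sub _ _).trans ?_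
    rw [show G z * regLen w δ z = regLen w δ z * τ z + regLen w δ z * g z * ‖z‖ by
      simp only [G]; ring]
    refine add_le_add h4 ?_
    rw [abs_mul, abs_of_nonneg (by positivity : 0 ≤ δ * (dot z z ^ 2)⁻¹)]
    refine mul_le_mul (h5.trans ?_) (hzk z k) (abs_nonneg _) (mul_nonneg ha.le (ha.le.trans h3))
    rw [mul_assoc]
    refine mul_le_mul_of_nonneg_left ?_ ha.le
    refine mul_le_mul h2 (by linarith) (inv_nonneg.2 hR.le) ?_
    linarith [regLen_pos hzd]
  obtain ⟨BG, hBG⟩ := hK.exists_bound_of_continuousOn (hGc.mono hζO)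
  obtain ⟨Ba, hBa⟩ := hK.exists_bound_of_continuousOn ((hgc.mul hRc).mono hζO)
  obtain ⟨BP, hBP⟩ := hK.exists_bound_of_continuousOn
    (f := fun z => ∑ k, |pd w k z|) ((continuousOn_finsetSum _ fun k _ =>
      (contDiffOn_pd h.smooth h.isOpen k).continuousOn.abs).mono hζO)
  obtain ⟨Bζ, hBζ⟩ := hK.exists_bound_of_continuousOn (f := ζ) hζ.continuous.continuousOn
  obtain ⟨Bd, hBd⟩ := hK.exists_bound_of_continuousOn (f := fun z => ∑ k, |pd ζ k z|)
    (continuous_finsetSum _ fun k _ => (contDiff_pd hζ k).continuous.abs).continuousOn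
  set c := 2 / (3 * ((d : ℝ) + 2))
  have hc : 0 < c := by positivity
  set C0 := (d : ℝ) + 1 + 3 * ((d : ℝ) + 2) / 2
  have hC0 : 0 ≤ C0 := by positivity
  set E := C0 * (max Bζ 0 ^ 2 * max Ba 0) + 2 * max Bζ 0 * (max BG 0 * max Bd 0)
  set m := max Bζ 0 ^ 2 * (max BG 0 * max BP 0)
  refine ⟨(Cf * m + E * (volume (K ∩ S)).toReal) / c, fun δ hδ hδ1 => ?_⟩
  have hdom : dom w O δ = O := dom_of_pos h0 hδ
  have hreg : ContDiffOn ℝ 2 (regLen w δ) O := hdom ▸ contDiffOn_regLen h h0
  set Z : Fin d → (Fin d → ℝ) → ℝ := fun i z => ζ z * ζ z * pd (regLen w δ) i z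
  have hζs : tsupport (fun z => ζ z * ζ z) ⊆ O := tsupport_mul_subset_left.trans hζO
  have hZ : ∀ i, ContDiff ℝ 1 (Z i) := fun i =>
    contDiff_cutoff_mul (hζ.mul hζ) h.isOpen hζs (contDiffOn_pd hreg h.isOpen i)
  have hz0 : ∀ z ∉ K, ζ z = 0 := fun z hz => image_eq_zero_of_notMem_tsupport hz
  have hZs : ∀ i, tsupport (Z i) ⊆ K := fun i =>
    tsupport_subset_of_zero hK.isClosed fun z hz => by simp [Z, hz0 z hz]
  have hzeta2 : ∀ z ∈ K, ζ z * ζ z ≤ max Bζ 0 ^ 2 := fun z hz => by
    have := (hBζ z hz).trans (le_max_left Bζ 0)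
    rw [Real.norm_eq_abs] at this
    rw [← abs_mul_abs_self, sq]
    exact mul_le_mul this this (abs_nonneg _) (le_max_right _ _)
  have hfl : ∫ z in S, divg Z z ≤ Cf * m := by
    refine hflux Z m hZ hZs (by positivity) fun x hx => ?_
    have hxd : x ∈ dom w O δ := by rw [hdom]; exact hζO hx.1
    obtain ⟨-, hg⟩ := hbase δ hδ hδ1 x hx.1
    refine (neg_le_neg ?_).trans (neg_abs_le _)
    simp only [Z, mul_assoc, ← mul_sum,
      show ∀ i, pd (regLen w δ) i x = gA w δ x i from fun i => congr_fun (grad_regLen h h0 hxd) i]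
    rw [← mul_assoc, abs_mul, abs_of_nonneg (mul_self_nonneg _)]
    refine mul_le_mul (hzeta2 x hx.1) ?_ (abs_nonneg _) (sq_nonneg _)
    refine (abs_sum_le_sum_abs _ _).trans ?_
    calc ∑ i, |gA w δ x i * pd w i x| ≤ ∑ i, max BG 0 * |pd w i x| := sum_le_sum fun i _ => by
          rw [abs_mul]
          exact mul_le_mul_of_nonneg_right
            ((hg i).trans (((le_abs_self _).trans (hBG x hx.1)).trans (le_max_left _ _))) (abs_nonneg _)
      _ ≤ max BG 0 * max BP 0 := by
          rw [← mul_sum]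
          exact mul_le_mul_of_nonneg_left
            (((le_abs_self _).trans (hBP x hx.1)).trans (le_max_left _ _)) (le_max_right _ _)
  set f : (Fin d → ℝ) → ℝ := fun z => ζ z * ζ z * (dot3 (third w z) (third w z) / regLen w δ z)
  have hfc : Continuous f := continuous_mul_of_tsupport (hζ.continuous.mul hζ.continuous) h.isOpen hζs
    (hTc.div hreg.continuousOn fun z hz => (regLen_pos (by rwa [hdom])).ne')
  have hfi : Integrable f := hfc.integrable_of_hasCompactSupport
    (HasCompactSupport.intro hK fun z hz => by simp [f, hz0 z hz])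
  have hdi : Integrable (divg Z) :=
    (continuous_divg hZ).integrable_of_hasCompactSupport (hasCompactSupport_divg hK hZs)
  have hki : IntegrableOn (K.indicator fun _ => E) S :=
    ((integrableOn_const hK.measure_lt_top.ne).integrable_indicator hK.measurableSet).integrableOn
  refine ⟨hfi.integrableOn, ?_⟩
  have hle : ∫ z in S, c * f z ≤ ∫ z in S, (divg Z z + K.indicator (fun _ => E) z) := by
    refine setIntegral_mono_on (hfi.integrableOn.const_mul c) (hdi.integrableOn.add hki) hS
      fun z hz => ?_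
    by_cases hzK : z ∈ K
    · have hzd : z ∈ dom w O δ := by rw [hdom]; exact hζO hzK
      obtain ⟨hga, hg⟩ := hbase δ hδ hδ1 z hzK
      have e : divg Z z = ζ z * ζ z * lA w δ z + 2 * ζ z * dot (grad ζ z) (gA w δ z) := by
        have hζd : DifferentiableAt ℝ ζ z := hζ.differentiable (by simp) z
        have e1 : ∀ i, pd (Z i) i z = ζ z * ζ z * hess (regLen w δ) i i z
            + 2 * ζ z * (pd ζ i z * gA w δ z i) := fun i => by
          rw [show Z i = fun y => ζ y * ζ y * pd (regLen w δ) i y from rfl,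
            pd_mul (hζd.fun_mul hζd) (differentiableAt_of_smooth (contDiffOn_pd hreg h.isOpen i)
              h.isOpen (hζO hzK)), pd_mul hζd hζd, pd_regLen h h0 hzd]
          simp only [hess, gA, tA]
          ring
        simp only [divg, e1, sum_add_distrib, ← mul_sum]
        rw [← lap_regLen' h h0 hz hzd]
        rfl
      rw [indicator_of_mem hzK, e]
      have h1 := mul_le_mul_of_nonneg_left (lA_lower h h0 hz hδ) (mul_self_nonneg (ζ z))
      have h2 : ζ z * ζ z * (C0 * (regLen w δ z * (dot z z)⁻¹)) ≤ C0 * (max Bζ 0 ^ 2 * max Ba 0) := by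
        rw [mul_left_comm]
        refine mul_le_mul_of_nonneg_left (mul_le_mul (hzeta2 z hzK) ?_ ?_ (sq_nonneg _)) hC0
        · exact ((mul_le_mul_of_nonneg_right hga (inv_nonneg.2 (dot_self_nonneg z))).trans
            ((le_abs_self _).trans (hBa z hzK))).trans (le_max_left _ _)
        · exact mul_nonneg (regLen_pos hzd).le (inv_nonneg.2 (dot_self_nonneg z))
      have h3 : |2 * ζ z * dot (grad ζ z) (gA w δ z)| ≤ 2 * max Bζ 0 * (max BG 0 * max Bd 0) := by
        rw [abs_mul, abs_mul, abs_two]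
        refine mul_le_mul (mul_le_mul_of_nonneg_left ((hBζ z hzK).trans (le_max_left _ _)) two_pos.le)
          ?_ (abs_nonneg _) (by positivity)
        refine (abs_sum_le_sum_abs _ _).trans ?_
        calc ∑ i, |grad ζ z i * gA w δ z i| ≤ ∑ i, |pd ζ i z| * max BG 0 := sum_le_sum fun i _ => by
              rw [abs_mul]
              exact mul_le_mul_of_nonneg_left
                ((hg i).trans (((le_abs_self _).trans (hBG z hzK)).trans (le_max_left _ _))) (abs_nonneg _)
          _ ≤ max BG 0 * max Bd 0 := by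
              rw [← sum_mul, mul_comm]
              exact mul_le_mul_of_nonneg_left
                (((le_abs_self _).trans (hBd z hzK)).trans (le_max_left _ _)) (le_max_right _ _)
      have := (abs_le.1 h3).1
      simp only [f, c, C0, E] at h1 h2 ⊢
      linarith
    · rw [indicator_of_notMem hzK, add_zero,
        show divg Z z = 0 from sum_eq_zero fun i _ =>
          image_eq_zero_of_notMem_tsupport fun hh => hzK (hZs i (tsupport_pd _ _ hh))]
      simp [f, hz0 z hzK]
  rw [integral_const_mul, integral_add hdi.integrableOn hki,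
    setIntegral_indicator hK.measurableSet, setIntegral_const, smul_eq_mul, Set.inter_comm,
    Measure.real] at hle
  rw [le_div_iff₀ hc]
  linarith

/-- On compact subsets of the positivity set `|T|^2 / |A|` is integrable, and `T` vanishes almost
everywhere where `A` does. -/
theorem third_integrable (h : RegularCone u O w) (hP : ∀ y ∈ O, 0 < dot (grad w y) (grad w y))
    (h0 : (0 : Fin d → ℝ) ∉ O) {K : Set (Fin d → ℝ)} (hK : IsCompact K) (hKO : K ⊆ O) :
    IntegrableOn (fun z => dot3 (third w z) (third w z) / regLen w 0 z) (K ∩ {z | 0 < u z}) ∧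
      ∀ᵐ z ∂volume.restrict (K ∩ {z | 0 < u z}),
        hessSq w z = 0 → dot3 (third w z) (third w z) = 0 := by
  obtain ⟨ζ, hζ, hζc, hζO, hζ01, hζ1⟩ := exists_cutoff hK h.isOpen hKO
  obtain ⟨C, hC⟩ := third_bound h hP h0 hζ hζc hζO
  set μ := volume.restrict (K ∩ {z : Fin d → ℝ | 0 < u z})
  have hKS : MeasurableSet (K ∩ {z : Fin d → ℝ | 0 < u z}) :=
    hK.measurableSet.inter h.isOpen_pos.measurableSet
  set δs : ℕ → ℝ := fun n => 1 / ((n : ℝ) + 1)
  have hδ0 : ∀ n, 0 < δs n := fun n => Nat.one_div_pos_of_nat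
  have hδ1 : ∀ n, δs n ≤ 1 := fun n => div_le_one_of_le₀ (by simp) (by positivity)
  have hδ : Tendsto δs atTop (𝓝 0) := tendsto_one_div_add_atTop_nhds_zero_nat
  have hTc : ContinuousOn (fun z => dot3 (third w z) (third w z)) O :=
    continuousOn_finsetSum _ fun i _ => continuousOn_finsetSum _ fun j _ =>
      continuousOn_finsetSum _ fun k _ => (contDiffOn_third h.smooth h.isOpen i j k).continuousOn.mul
        (contDiffOn_third h.smooth h.isOpen i j k).continuousOn
  set f : ℕ → (Fin d → ℝ) → ℝ := fun n z => dot3 (third w z) (third w z) / regLen w (δs n) z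
  have hfm : ∀ n, AEStronglyMeasurable (f n) μ := fun n =>
    ((hTc.div ((dom_of_pos h0 (hδ0 n)) ▸ contDiffOn_regLen h h0).continuousOn fun z hz =>
      (regLen_pos (show z ∈ dom w O (δs n) by rw [dom_of_pos h0 (hδ0 n)]; exact hz)).ne').mono
        (inter_subset_left.trans hKO)).aestronglyMeasurable hKS
  have hf0 : ∀ n z, 0 ≤ f n z := fun n z => div_nonneg (dot3_self_nonneg _) (Real.sqrt_nonneg _)
  have hbd : ∀ n, ∫⁻ z, ENNReal.ofReal (f n z) ∂μ ≤ ENNReal.ofReal C := by
    intro n
    obtain ⟨hi, hle⟩ := hC (δs n) (hδ0 n) (hδ1 n)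
    have hge : ∀ᵐ z ∂μ, ζ z * ζ z * f n z = f n z := by
      filter_upwards [ae_restrict_mem hKS] with z hz
      rw [hζ1.self_of_nhdsSet _ hz.1, one_mul, one_mul]
    have hsub : IntegrableOn (fun z => ζ z * ζ z * f n z) (K ∩ {z | 0 < u z}) :=
      hi.mono_set Set.inter_subset_right
    have hfi : Integrable (f n) μ := hsub.congr hge
    rw [← ofReal_integral_eq_lintegral_ofReal hfi (.of_forall (hf0 n))]
    refine ENNReal.ofReal_le_ofReal (le_trans ?_ hle)
    rw [← integral_congr_ae hge]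
    exact setIntegral_mono_set hi
      (.of_forall fun z => mul_nonneg (mul_self_nonneg _) (hf0 n z))
      (.of_forall fun z hz => hz.2)
  have hfm' : ∀ n, AEMeasurable (fun z => ENNReal.ofReal (f n z)) μ := fun n =>
    (hfm n).aemeasurable.ennreal_ofReal
  have hfatou : ∫⁻ z, liminf (fun n => ENNReal.ofReal (f n z)) atTop ∂μ ≤ ENNReal.ofReal C :=
    (lintegral_liminf_le' hfm').trans (liminf_le_of_le (by isBoundedDefault) fun b hb => by
      obtain ⟨n, hn⟩ := hb.exists
      exact hn.trans (hbd n))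
  have hfin : ∀ᵐ z ∂μ, liminf (fun n => ENNReal.ofReal (f n z)) atTop < (⊤ : ℝ≥0∞) :=
    ae_lt_top' ⟨_, Measurable.liminf fun n => (hfm' n).measurable_mk, by
      filter_upwards [ae_all_iff.2 fun n => (hfm' n).ae_eq_mk] with z hz
      exact liminf_congr (.of_forall hz)⟩ (hfatou.trans_lt ENNReal.ofReal_lt_top).ne
  have hreg : ∀ z, Tendsto (fun n => regLen w (δs n) z) atTop (𝓝 (regLen w 0 z)) := fun z => by
    refine (Real.continuous_sqrt.tendsto _).comp ?_
    simp only [regSq]
    exact (hδ.mul_const _).const_add _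
  have hzero : ∀ᵐ z ∂μ, hessSq w z = 0 → dot3 (third w z) (third w z) = 0 := by
    filter_upwards [hfin, ae_restrict_mem hKS] with z hz hzK hA
    by_contra hT
    have hT' : 0 < dot3 (third w z) (third w z) := (dot3_self_nonneg _).lt_of_ne' hT
    have h1 : Tendsto (fun n => f n z) atTop atTop := by
      refine Tendsto.const_mul_atTop hT' (Tendsto.inv_tendsto_nhdsGT_zero (tendsto_nhdsWithin_iff.2
        ⟨?_, .of_forall fun n => regLen_pos (show z ∈ dom w O (δs n) by
          rw [dom_of_pos h0 (hδ0 n)]; exact hKO hzK.1)⟩))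
      have := hreg z
      rwa [show regLen w 0 z = 0 by simp [regLen, regSq, hA]] at this
    have h2 : Tendsto (fun n => ENNReal.ofReal (f n z)) atTop (𝓝 ⊤) :=
      ENNReal.tendsto_ofReal_atTop.comp h1
    rw [h2.liminf_eq] at hz
    exact lt_irrefl _ hz
  have hlim : ∀ᵐ z ∂μ, Tendsto (fun n => f n z) atTop
      (𝓝 (dot3 (third w z) (third w z) / regLen w 0 z)) := by
    filter_upwards [hzero] with z hz
    by_cases hA : hessSq w z = 0
    · simp [f, hz hA]
    · exact tendsto_const_nhds.div (hreg z) (Real.sqrt_pos.2 (by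
        rw [regSq, zero_mul, add_zero]; exact (dot2_self_nonneg _).lt_of_ne' hA)).ne'
  refine ⟨⟨aestronglyMeasurable_of_tendsto_ae atTop hfm hlim, ?_⟩, hzero⟩
  have hnn : ∀ᵐ z ∂μ, 0 ≤ dot3 (third w z) (third w z) / regLen w 0 z :=
    .of_forall fun z => div_nonneg (dot3_self_nonneg _) (Real.sqrt_nonneg _)
  rw [hasFiniteIntegral_iff_ofReal hnn]
  refine lt_of_le_of_lt (le_trans (le_of_eq ?_) hfatou) ENNReal.ofReal_lt_top
  refine lintegral_congr_ae ?_
  filter_upwards [hlim] with z hz
  exact ((ENNReal.continuous_ofReal.tendsto _).comp hz).liminf_eq.symm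

end

end Vale.Agent.P098.Div
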