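import Vale.Agent.P098.Div.Calculus

/-!
# P098: a scale invariant certificate is a certificate of the wider kind
-/

namespace Vale.Agent.P098.Div

open Vale.Agent.P098.Cone Vale.Agent.P098.Jet
open Finset
open scoped ContDiff

noncomputable section

variable {m : ℕ} {γ : ℝ} {c : Fields} {φ : ℝ → ℝ} {f : (Fin 3 → ℝ) → ℝ}

/-- A function of `(w, D, t)` as a function of `(w, D, t, ξ)`. -/
def lift (f : (Fin 3 → ℝ) → ℝ) : (Fin 4 → ℝ) → ℝ := comp3 f fun i v => v i.castSucc

theorem contDiff_lift (hf : ContDiff ℝ ∞ f) : ContDiff ℝ ∞ (lift f) :=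
  hf.comp (contDiff_pi.2 fun i => contDiff_apply ℝ ℝ i.castSucc)

theorem pd_lift (hf : ContDiff ℝ ∞ f) (i : Fin 3) : pd (lift f) i.castSucc = lift (pd f i) := by
  funext v
  rw [lift, pd_comp3 (hf.differentiable (by simp) _) fun j => differentiableAt_apply j.castSucc v]
  simp [pd_coord, lift, comp3]

theorem pd_lift_last (hf : ContDiff ℝ ∞ f) : pd (lift f) (Fin.last 3) = fun _ => 0 := by
  funext v
  rw [lift, pd_comp3 (hf.differentiable (by simp) _) fun j => differentiableAt_apply j.castSucc v]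
  exact sum_eq_zero fun i _ => by rw [pd_coord, if_neg (Fin.castSucc_lt_last i).ne', mul_zero]

theorem along_lift (hf : ContDiff ℝ ∞ f) (v b : Fin 4 → ℝ) :
    along (lift f) v b = along f (fun i => v i.castSucc) (fun i => b i.castSucc) := by
  simp only [along, Fin.sum_univ_castSucc (n := 3), pd_lift hf, pd_lift_last hf, zero_mul, add_zero]
  rfl

theorem along₂_lift (hf : ContDiff ℝ ∞ f) (v b : Fin 4 → ℝ) :
    along₂ (lift f) v b = along₂ f (fun i => v i.castSucc) (fun i => b i.castSucc) := by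
  have h1 : ∀ i j : Fin 3, hess (lift f) i.castSucc j.castSucc v
      = hess f i j (fun i => v i.castSucc) := fun i j => by
    show pd (pd (lift f) i.castSucc) j.castSucc v = _
    rw [pd_lift hf, pd_lift (contDiff_pd hf i)]
    rfl
  have h2 : ∀ i : Fin 3, hess (lift f) i.castSucc (Fin.last 3) v = 0 := fun i => by
    show pd (pd (lift f) i.castSucc) (Fin.last 3) v = _
    rw [pd_lift hf, pd_lift_last (contDiff_pd hf i)]
  have h3 : ∀ j : Fin 4, hess (lift f) (Fin.last 3) j v = 0 := fun j => by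
    show pd (pd (lift f) (Fin.last 3)) j v = _
    rw [pd_lift_last hf, pd_const]
  simp only [along₂, Fin.sum_univ_castSucc (n := 3), h1, h2, h3, zero_mul, add_zero, sum_const_zero]

/-- The functions of a scale invariant certificate. -/
def Fields.liftX (c : Fields) : FieldsX where
  g := lift c.g
  F := lift c.F
  al := lift c.al
  be := lift c.be
  ga := lift c.ga
  b1 := fun _ => 0
  b2 := fun _ => 0

theorem castSucc_ptX (l : Fin m → ℝ) (w D ξ : ℝ) :
    (fun i => ptX l w D ξ (Fin.castSucc i)) = pt l w D := by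
  funext i; fin_cases i <;> rfl

theorem castSucc_stepX (l : Fin m → ℝ) (w ξ : ℝ) (k : Fin m) (x : Fin m → ℝ) (π : ℝ) :
    (fun i => stepX l w ξ k x π (Fin.castSucc i)) = step l w k x π := by
  funext i; fin_cases i <;> rfl

theorem lift_ptX (f : (Fin 3 → ℝ) → ℝ) (l : Fin m → ℝ) (w D ξ : ℝ) :
    lift f (ptX l w D ξ) = f (pt l w D) := by
  rw [lift, comp3, castSucc_ptX]

theorem pd_liftX (hf : ContDiff ℝ ∞ f) (l : Fin m → ℝ) (w D ξ : ℝ) :
    pd (lift f) 0 (ptX l w D ξ) = pd f 0 (pt l w D) ∧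
    pd (lift f) 1 (ptX l w D ξ) = pd f 1 (pt l w D) ∧
    pd (lift f) 2 (ptX l w D ξ) = pd f 2 (pt l w D) ∧
    pd (lift f) 3 (ptX l w D ξ) = 0 := by
  refine ⟨?_, ?_, ?_, ?_⟩
  · rw [show (0 : Fin 4) = (0 : Fin 3).castSucc from rfl, pd_lift hf, lift_ptX]
  · rw [show (1 : Fin 4) = (1 : Fin 3).castSucc from rfl, pd_lift hf, lift_ptX]
  · rw [show (2 : Fin 4) = (2 : Fin 3).castSucc from rfl, pd_lift hf, lift_ptX]
  · rw [show (3 : Fin 4) = Fin.last 3 from rfl, pd_lift_last hf]

/-- A scale invariant certificate is a certificate of the wider kind. -/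
theorem certifies_liftX (hc : Certifies m γ c φ) : CertifiesX m γ c.liftX φ := by
  have hs := hc.smooth
  refine ⟨⟨contDiff_lift hs.g, contDiff_lift hs.F, contDiff_lift hs.al, contDiff_lift hs.be,
    contDiff_lift hs.ga, contDiff_const, contDiff_const⟩, hc.hardy, ?_, ?_, ?_, ?_⟩
  · intro l hl w D hd ξ hξ k x π hx
    obtain ⟨-, f1, -, f3⟩ := pd_liftX hs.F l w D ξ
    obtain ⟨f0, -, f2, -⟩ := pd_liftX hs.F l w D ξ
    have hz : ∀ (v b : Fin 4 → ℝ), along (fun _ => (0 : ℝ)) v b = 0 := fun v b => by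
      simp [along, pd_const]
    have eq : quadX c.liftX l w D ξ k x π = Div.quad c l w D k x π := by
      simp only [quadX, Div.quad, Fields.liftX, f0, f2, f3, lift_ptX, along_lift hs.F, along₂_lift hs.F,
        along_lift hs.al, along_lift hs.be, along_lift hs.ga, along_lift hs.g, hz, castSucc_ptX,
        castSucc_stepX]
      ring
    have ec : constX c.liftX l w D ξ = Div.const c l w D := by
      simp only [constX, Div.const, Fields.liftX, f1, f3, lift_ptX]
      ring
    have ee : endX γ c.liftX l w D ξ = (m : ℝ) * c.F (pt l w D)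
        - γ * c.g (pt l w D) ^ 2 - (m : ℝ) * w * c.al (pt l w D) - w * c.ga (pt l w D) := by
      simp only [endX, Fields.liftX, lift_ptX]
      ring
    rw [eq, ec, ee]
    have hA := mul_nonneg (sub_nonneg.2 hξ.2.2) (hc.quad l hl w D hd k x π hx)
    have hB := mul_nonneg (mul_nonneg hξ.1.le (sq_nonneg π)) (hc.endpoint l hl w D hd)
    exact (mul_nonneg_iff_of_pos_left (sub_pos.2 hd.2.2.1)).1 (by linarith)
  · intro l hl w D hd ξ _ i j k hij hjk hik
    obtain ⟨f0, -, f2, f3⟩ := pd_liftX hs.F l w D ξ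
    have := hc.triple l hl w D hd i j k hij hjk hik
    simp only [Fields.liftX, f0, f2, f3, lift_ptX]
    linarith
  · intro l hl ξ _ _ k hk
    obtain ⟨f0, f1, f2, f3⟩ := pd_liftX hs.F l 0 0 ξ
    have := hc.bdry l hl k hk
    simp only [Fields.liftX, f0, f1, f2, f3, lift_ptX]
    linarith
  · intro l hl w D hd ξ _
    simpa only [Fields.liftX, lift_ptX] using hc.nonzero l hl w D hd

end

end Vale.Agent.P098.Div
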