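import Vale.Agent.P098.Div.Bound
import Vale.Agent.P098.Div.Estimates
import Vale.Agent.P098.Div.Kato
import Vale.Agent.P098.Div.Lift

/-!
# P098: flatness from a certificate with vector fields

The test function `G = s ^ (1/2) g` and the field of a certificate, regularised at the zeros of the
Hessian, form a family to which stability applies. Hence `G` vanishes on every minimising regular cone,
and the cone is a half-space solution.
-/

namespace Vale.Agent.P098.Div

open Vale.Agent.P098.Cone Vale.Agent.P098.Jet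
open MeasureTheory Set Filter Topology Asymptotics
open scoped ContDiff

noncomputable section

section limits

variable {d : ℕ} {u w : (Fin d → ℝ) → ℝ} {O K : Set (Fin d → ℝ)} {γ : ℝ} {c : FieldsX}
  {z : Fin d → ℝ}

theorem bound_of {f : ℝ × (Fin d → ℝ) → ℝ} {i j : ℕ} (hf : f =O[params K] size w i j) :
    ∃ C, 0 ≤ C ∧ ∀ δ, 0 < δ → δ ≤ 1 → ∀ y ∈ K, |f (δ, y)| ≤ C * |size w i j (δ, y)| := by
  obtain ⟨C, hC⟩ := hf.bound
  rw [params, eventually_principal] at hC
  exact ⟨max C 0, le_max_right _ _, fun δ h1 h2 y hy => (hC (δ, y) ⟨⟨h1, h2⟩, hy⟩).trans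
    (mul_le_mul_of_nonneg_right (le_max_left _ _) (norm_nonneg _))⟩

theorem size_len_eq (δ : ℝ) (y : Fin d → ℝ) : |size w 1 0 (δ, y)| = regLen w δ y := by
  rw [size, pow_one, pow_zero, mul_one]
  exact abs_of_nonneg (Real.sqrt_nonneg _)

theorem regLen_mono {δ δ' : ℝ} (h : δ ≤ δ') (y : Fin d → ℝ) : regLen w δ y ≤ regLen w δ' y :=
  Real.sqrt_le_sqrt ((add_le_add_iff_left _).2
    (mul_le_mul_of_nonneg_right h (inv_nonneg.2 (dot_self_nonneg y))))

theorem tendsto_regLen (z : Fin d → ℝ) :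
    Tendsto (fun δ => regLen w δ z) (𝓝[>] 0) (𝓝 (regLen w 0 z)) :=
  ((continuous_const.add (continuous_id.mul continuous_const)).sqrt.tendsto (0 : ℝ)).mono_left
    nhdsWithin_le_nhds

theorem regLen_zero (hA : hessSq w z = 0) : regLen w 0 z = 0 := by simp [regLen, regSq, hA]

theorem testFn_zero (hA : hessSq w z = 0) : testFn c w 0 z = 0 := by
  simp [testFn, sVar, regLen_zero hA]

theorem tendsto_domJ {f : ℝ × (Fin d → ℝ) → ℝ} (h : RegularCone u O w)
    (h0 : (0 : Fin d → ℝ) ∉ O) (hf : ContinuousOn f (domJ w O)) (hz : z ∈ O) (hs : 0 < hessSq w z) :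
    Tendsto (fun δ => f (δ, z)) (𝓝[>] 0) (𝓝 (f (0, z))) :=
  (hf.continuousAt ((isOpen_domJ h h0).mem_nhds ⟨hz, by simpa [regSq] using hs⟩)).tendsto.comp
    (((continuous_id.prodMk continuous_const).tendsto (0 : ℝ)).mono_left nhdsWithin_le_nhds)

variable (h : RegularCone u O w) (h0 : (0 : Fin d → ℝ) ∉ O) (hc : c.Smooth)
include h h0 hc

theorem lim_testFn (hz : z ∈ O) :
    Tendsto (fun δ => testFn c w δ z) (𝓝[>] 0) (𝓝 (testFn c w 0 z)) := by
  rcases (dot2_self_nonneg (hessMat w z)).eq_or_lt' with hA | hA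
  · rw [testFn_zero (c := c) hA]
    obtain ⟨C, hC0, hC⟩ := bound_of
      (size_testFn h h0 isCompact_singleton (singleton_subset_iff.2 hz) hc)
    have hlim : Tendsto (fun δ => √(C * regLen w δ z)) (𝓝[>] 0) (𝓝 0) := by
      simpa [regLen_zero hA] using ((tendsto_regLen (w := w) z).const_mul C).sqrt
    refine squeeze_zero_norm' ?_ hlim
    filter_upwards [Ioc_mem_nhdsGT one_pos] with δ hδ
    have := hC δ hδ.1 hδ.2 z rfl
    rw [size_len_eq] at this
    exact Real.abs_le_sqrt ((le_abs_self _).trans this)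
  · exact tendsto_domJ h h0 (cont_testFn h h0 hc) hz hA

theorem testFn_bounded (hK : IsCompact K) (hKO : K ⊆ O) :
    ∃ C : ℝ, ∀ᶠ δ in 𝓝[>] (0 : ℝ), ∀ y ∈ K, 0 < u y → |testFn c w δ y| ≤ C := by
  obtain ⟨C, -, hC⟩ := bound_of
    (size_mono h h0 hK hKO hc (size_testFn h h0 hK hKO hc) zero_le_one le_rfl)
  refine ⟨√C, ?_⟩
  filter_upwards [Ioc_mem_nhdsGT one_pos] with δ hδ y hy _
  have := hC δ hδ.1 hδ.2 y hy
  simp only [size, pow_zero, mul_one, abs_one] at this
  exact Real.abs_le_sqrt ((le_abs_self _).trans this)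

theorem continuousOn_testFn_zero (hclO : clPos u ⊆ O) :
    ContinuousOn (fun y => testFn c w 0 y) (clPos u) := by
  intro z hz
  refine ContinuousAt.continuousWithinAt ?_
  have hzO := hclO hz
  rcases (dot2_self_nonneg (hessMat w z)).eq_or_lt' with hA | hA
  · obtain ⟨r, hr, hrO⟩ := Metric.nhds_basis_closedBall.mem_iff.1 (h.isOpen.mem_nhds hzO)
    obtain ⟨C, -, hC⟩ := bound_of (size_testFn h h0 (isCompact_closedBall z r) hrO hc)
    have hle : ∀ y ∈ Metric.closedBall z r, testFn c w 0 y ^ 2 ≤ C * regLen w 0 y := by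
      intro y hy
      refine le_of_tendsto_of_tendsto ((lim_testFn h h0 hc (hrO hy)).pow 2)
        ((tendsto_regLen y).const_mul C) ?_
      filter_upwards [Ioc_mem_nhdsGT one_pos] with δ hδ
      have := hC δ hδ.1 hδ.2 y hy
      rw [size_len_eq] at this
      exact (le_abs_self _).trans this
    rw [ContinuousAt, testFn_zero (c := c) hA]
    have hlim : Tendsto (fun y => √(C * regLen w 0 y)) (𝓝 z) (𝓝 0) := by
      have := ((((contDiffOn_regSq h.smooth h.isOpen h0 0).continuousOn.sqrt).continuousAt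
        (h.isOpen.mem_nhds hzO)).const_mul C).sqrt.tendsto
      rwa [show C * √(regSq w 0 z) = 0 by rw [← regLen, regLen_zero hA, mul_zero],
        Real.sqrt_zero] at this
    refine squeeze_zero_norm' ?_ hlim
    filter_upwards [Metric.closedBall_mem_nhds z hr] with y hy
    exact Real.abs_le_sqrt (hle y hy)
  · exact ((cont_testFn h h0 hc).continuousAt
      ((isOpen_domJ h h0).mem_nhds ⟨hzO, by simpa [regSq, hessSq] using hA⟩)).comp
      (continuous_const.prodMk continuous_id).continuousAt (x := z)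

omit hc in
theorem err_eq (hc : c.Smooth) {δ : ℝ} (hδ : 0 < δ) (hu : 0 < u z) :
    err γ (testFn c w δ) (yField c w δ) z = max 0 (-interior γ c w δ z) := by
  rw [err, ← interior_eq h h0 hc hu (by rw [dom_of_pos h0 hδ]; exact h.mem_of_pos hu)]
  congr 1
  ring

theorem testFn_dominated (hP : ∀ y ∈ O, 0 < dot (grad w y) (grad w y)) (hK : IsCompact K)
    (hKO : K ⊆ O) : ∃ D : (Fin d → ℝ) → ℝ,
      IntegrableOn D (K ∩ {y | 0 < u y}) ∧ ∀ᶠ δ in 𝓝[>] (0 : ℝ),
        ∀ᵐ y ∂volume.restrict (K ∩ {y | 0 < u y}), err γ (testFn c w δ) (yField c w δ) y ≤ D y := by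
  obtain ⟨C, hC0, hC⟩ := bound_of (size_interior h h0 hK hKO hc γ)
  obtain ⟨hint, hzero⟩ := third_integrable h hP h0 hK hKO
  refine ⟨fun y => 2 * C * (dot3 (third w y) (third w y) / regLen w 0 y + regLen w 1 y),
    (hint.add ((((contDiffOn_regSq h.smooth h.isOpen h0 1).continuousOn.sqrt.mono hKO)
      |>.integrableOn_compact hK).mono_set inter_subset_left)).const_mul _, ?_⟩
  filter_upwards [Ioc_mem_nhdsGT one_pos] with δ hδ
  filter_upwards [hzero, ae_restrict_mem (hK.measurableSet.inter h.isOpen_pos.measurableSet)]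
    with y hy hyK
  rw [err_eq h h0 hc hδ.1 hyK.2]
  set T := dot3 (third w y) (third w y)
  set a := regLen w δ y
  have hT : 0 ≤ T := dot3_self_nonneg _
  have ha : 0 < a := Real.sqrt_pos.2 (regSq_pos hδ.1 fun e => h0 (e ▸ hKO hyK.1))
  have h1 : T / a ≤ T / regLen w 0 y := by
    rcases (dot2_self_nonneg (hessMat w y)).eq_or_lt' with hA | hA
    · simp [show T = 0 from hy hA]
    · exact div_le_div_of_nonneg_left hT (Real.sqrt_pos.2 (by
        rw [regSq, zero_mul, add_zero]; exact hA)) (regLen_mono hδ.1.le y)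
  have h2 : |size w 1 2 (δ, y)| ≤ 2 * (T / a + a) := by
    have e : size w 1 2 (δ, y) = (√T + a) ^ 2 / a := by
      show a ^ 1 * ((√T + a) / a) ^ 2 = _
      field_simp
    have e2 : 2 * (T / a + a) = 2 * (T + a ^ 2) / a := by field_simp
    rw [e, e2, abs_of_nonneg (div_nonneg (sq_nonneg _) ha.le)]
    refine div_le_div_of_nonneg_right ?_ ha.le
    linarith [sq_nonneg (√T - a), Real.sq_sqrt hT]
  refine max_le ?_ (((neg_le_abs _).trans (hC δ hδ.1 hδ.2 y hyK.1)).trans ?_)
  · exact mul_nonneg (mul_nonneg two_pos.le hC0)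
      (add_nonneg (div_nonneg hT (Real.sqrt_nonneg _)) (Real.sqrt_nonneg _))
  · calc C * |size w 1 2 (δ, y)| ≤ C * (2 * (T / a + a)) := mul_le_mul_of_nonneg_left h2 hC0
      _ ≤ C * (2 * (T / regLen w 0 y + regLen w 1 y)) := mul_le_mul_of_nonneg_left
          (mul_le_mul_of_nonneg_left (add_le_add h1 (regLen_mono hδ.2 y)) two_pos.le) hC0
      _ = _ := by ring

omit hc in
/-- The third derivatives vanish almost everywhere on the zero set of the Hessian. -/
theorem third_zero_ae (hP : ∀ y ∈ O, 0 < dot (grad w y) (grad w y)) :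
    ∀ᵐ y ∂volume.restrict {y | 0 < u y},
      hessSq w y = 0 → dot3 (third w y) (third w y) = 0 := by
  set Kn : ℕ → Set (Fin d → ℝ) := fun n =>
    Metric.closedBall 0 n ∩ {y | 1 / ((n : ℝ) + 1) ≤ u y}
  have hsub : ∀ n, Kn n ⊆ {y | 0 < u y} := fun n y hy =>
    lt_of_lt_of_le (by positivity) (show 1 / ((n : ℝ) + 1) ≤ u y from hy.2)
  have e : {y | 0 < u y} = ⋃ n, Kn n := by
    refine Subset.antisymm (fun y hy => ?_) (iUnion_subset hsub)
    obtain ⟨n, hn⟩ := exists_nat_gt (max ‖y‖ (1 / u y))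
    refine mem_iUnion.2 ⟨n, ?_, ?_⟩
    · exact mem_closedBall_zero_iff.2 ((le_max_left _ _).trans hn.le)
    · show 1 / ((n : ℝ) + 1) ≤ u y
      rw [div_le_iff₀ (by positivity), ← div_le_iff₀' hy]
      exact ((le_max_right _ _).trans hn.le).trans (by linarith)
  rw [e, ae_restrict_iUnion_iff]
  intro n
  have := (third_integrable h hP h0 (K := Kn n)
    ((isCompact_closedBall 0 _).inter_right (isClosed_le continuous_const h.continuous))
    fun y hy => h.mem_of_pos (hsub n hy)).2
  rwa [inter_eq_left.2 (hsub n)] at this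

theorem testFn_err_lim (hP : ∀ y ∈ O, 0 < dot (grad w y) (grad w y))
    (hpos : ∀ y, 0 < u y → 0 < hessSq w y → 0 ≤ interior γ c w 0 y) :
    ∀ᵐ y ∂volume.restrict {y | 0 < u y},
      Tendsto (fun δ => err γ (testFn c w δ) (yField c w δ) y) (𝓝[>] 0) (𝓝 0) := by
  filter_upwards [third_zero_ae h h0 hP, ae_restrict_mem h.isOpen_pos.measurableSet] with y hy hu
  have hyO := h.mem_of_pos hu
  refine Tendsto.congr' (f₁ := fun δ => max 0 (-interior γ c w δ y)) ?_ ?_
  · filter_upwards [self_mem_nhdsWithin] with δ (hδ : 0 < δ)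
    exact (err_eq h h0 hc hδ hu).symm
  rcases (dot2_self_nonneg (hessMat w y)).eq_or_lt' with hA | hA
  · obtain ⟨C, hC0, hC⟩ := bound_of
      (size_interior h h0 isCompact_singleton (singleton_subset_iff.2 hyO) hc γ)
    have hlim : Tendsto (fun δ => C * regLen w δ y) (𝓝[>] 0) (𝓝 0) := by
      simpa [regLen_zero hA] using (tendsto_regLen (w := w) y).const_mul C
    refine squeeze_zero' (.of_forall fun δ => le_max_left _ _) ?_ hlim
    filter_upwards [Ioc_mem_nhdsGT one_pos] with δ hδ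
    have hi := hC δ hδ.1 hδ.2 y rfl
    have ha : 0 < regLen w δ y := Real.sqrt_pos.2 (regSq_pos hδ.1 fun e => h0 (e ▸ hyO))
    have e : |size w 1 2 (δ, y)| = regLen w δ y := by
      rw [size, hy hA, Real.sqrt_zero, zero_add, div_self ha.ne', one_pow, mul_one, pow_one,
        abs_of_pos ha]
    rw [e] at hi
    exact max_le (mul_nonneg hC0 ha.le) ((neg_le_abs _).trans hi)
  · have h1 := (tendsto_const_nhds (x := (0 : ℝ))).max
      (tendsto_domJ h h0 (cont_interior h h0 hc γ) hyO hA).neg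
    rwa [max_eq_left (neg_nonpos.2 (hpos y hu hA))] at h1

theorem testFn_boundary
    (hpos : ∀ y ∈ frontier {y | 0 < u y}, y ∈ O → 0 < hessSq w y → 0 ≤ flux c w 0 y)
    (hK : IsCompact K) (hKO : K ⊆ O) {e : ℝ} (he : 0 < e) :
    ∀ᶠ δ in 𝓝[>] (0 : ℝ), ∀ y ∈ K ∩ frontier {y | 0 < u y},
      -e ≤ dot (fun i => yField c w δ i y) (grad w y) + meanCurv w y * testFn c w δ y ^ 2 := by
  obtain ⟨C, hC0, hC⟩ := bound_of (size_flux h h0 hK hKO hc)
  have key : ∀ᶠ δ in 𝓝 (0 : ℝ), ∀ y ∈ K ∩ frontier {y | 0 < u y},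
      0 < δ → δ ≤ 1 → y ∈ K → -e ≤ flux c w δ y := by
    refine (hK.inter_right isClosed_frontier).eventually_forall_of_forall_eventually fun y hy => ?_
    have hyO := hKO hy.1
    rcases (dot2_self_nonneg (hessMat w y)).eq_or_lt' with hA | hA
    · have hlim : Tendsto (fun p : ℝ × (Fin d → ℝ) => C * |regSq w p.1 p.2|)
          (𝓝 ((0 : ℝ), y)) (𝓝 0) := by
        have hat : ContinuousAt (fun p : ℝ × (Fin d → ℝ) => regSq w p.1 p.2) ((0 : ℝ), y) :=
          (cont_regSq h h0).continuousAt ((isOpen_univ.prod h.isOpen).mem_nhds ⟨trivial, hyO⟩)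
        have := (hat.tendsto.abs.const_mul C)
        rwa [show regSq w (0 : ℝ) y = 0 by simp [regSq, show hessSq w y = 0 from hA], abs_zero,
          mul_zero] at this
      filter_upwards [hlim.eventually (Iio_mem_nhds he)] with p hp hp1 hp2 hpK
      have hb := hC p.1 hp1 hp2 p.2 hpK
      have hle : |size w 2 0 (p.1, p.2)| = |regSq w p.1 p.2| := by
        rw [size, pow_zero, mul_one, regLen, Real.sq_sqrt
          (regSq_pos hp1 fun e => h0 (e ▸ hKO hpK)).le]
      rw [hle] at hb
      linarith [neg_abs_le (flux c w p.1 p.2), show C * |regSq w p.1 p.2| < e from hp]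
    · have hat := (cont_flux h h0 hc).continuousAt
        ((isOpen_domJ h h0).mem_nhds (show ((0 : ℝ), y) ∈ domJ w O from
          ⟨hyO, by simpa [regSq, hessSq] using hA⟩))
      filter_upwards [hat.tendsto.eventually (Ioi_mem_nhds
        (show -e < flux c w 0 y by linarith [hpos y hy.2 hyO hA]))] with p hp _ _ _
      exact le_of_lt hp
  filter_upwards [key.filter_mono nhdsWithin_le_nhds, Ioc_mem_nhdsGT one_pos] with δ hk hδ y hy
  rw [flux_eq h h0 hc hy.2 (by rw [dom_of_pos h0 hδ.1]; exact hKO hy.1)]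
  exact hk y hy hδ.1 hδ.2 hy.1

omit h0 hc in
theorem testFn_smul (hz : 0 < u z) {r : ℝ} (hr : 0 < r) :
    testFn c w 0 (r • z) = testFn c w 0 z := by
  obtain ⟨h1, h2⟩ := grad_smul h hz hr
  have hl : len (r • z) = r * len z := by
    rw [len, len, show dot (r • z) (r • z) = r ^ 2 * dot z z by
      simp only [dot, Pi.smul_apply, smul_eq_mul, Finset.mul_sum]
      exact Finset.sum_congr rfl fun _ _ => by ring,
      Real.sqrt_mul (sq_nonneg r), Real.sqrt_sq hr.le]
  have hS : hessSq w (r • z) = r⁻¹ ^ 2 * hessSq w z := by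
    simp only [hessSq, dot2, hessMat, h.hess_smul hz hr, Finset.mul_sum]
    exact Finset.sum_congr rfl fun i _ => Finset.sum_congr rfl fun j _ => by ring
  have ha : regLen w 0 (r • z) = r⁻¹ * regLen w 0 z := by
    simp only [regLen, regSq, zero_mul, add_zero, hS]
    rw [Real.sqrt_mul (sq_nonneg _), Real.sqrt_sq (inv_nonneg.2 hr.le)]
  have hcu : cube w (r • z) = r⁻¹ ^ 3 * cube w z := by
    simp only [cube, h.hess_smul hz hr, Finset.mul_sum]
    exact Finset.sum_congr rfl fun i _ => Finset.sum_congr rfl fun j _ =>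
      Finset.sum_congr rfl fun k _ => by ring
  have e : (fun i => args w 0 i (r • z)) = fun i => args w 0 i z := by
    funext i
    fin_cases i
    · show w (r • z) * regLen w 0 (r • z) = w z * regLen w 0 z
      rw [h1, ha]; field_simp
    · show 1 - dot (grad w (r • z)) (grad w (r • z)) = 1 - dot (grad w z) (grad w z)
      rw [h2]
    · show cube w (r • z) * (regLen w 0 (r • z) ^ 3)⁻¹ = cube w z * (regLen w 0 z ^ 3)⁻¹
      rw [hcu, ha, mul_pow, mul_inv]
      field_simp
    · show (1 + len (r • z) * regLen w 0 (r • z) * (len (r • z) * regLen w 0 (r • z)))⁻¹ = _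
      rw [hl, ha]
      simp only [args, xiVal, sVar, Matrix.cons_val, Fin.reduceFinMk]
      field_simp
  simp only [testFn, comp3, sVar, e, hl, ha]
  field_simp

end limits

section main

variable {m : ℕ} {u w : (Fin (m + 1) → ℝ) → ℝ} {O : Set (Fin (m + 1) → ℝ)} {γ : ℝ} {c : FieldsX}
  {φ : ℝ → ℝ}

/-- A certificate gives a family to which stability applies. -/
theorem divFamily_of_certifies (hm : 1 ≤ m) (h : RegularCone u O w)
    (hP : ∀ y ∈ O, 0 < dot (grad w y) (grad w y)) (h0 : (0 : Fin (m + 1) → ℝ) ∉ O)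
    (hφ : Profile m φ) (hc : CertifiesX m γ c φ) :
    DivFamily u w O γ (fun δ => testFn c w δ) (fun δ => yField c w δ) (testFn c w 0) where
  smooth := fun δ hδ => by
    rw [← dom_of_pos (w := w) h0 hδ]
    exact ⟨(contDiffOn_testFn h h0 hc.smooth).of_le (by norm_num), contDiffOn_yField h h0 hc.smooth⟩
  radial := fun δ hδ z hu =>
    radial_testFn h h0 hc.smooth hu (by rw [dom_of_pos h0 hδ]; exact h.mem_of_pos hu)
  lim := fun z hu => lim_testFn h h0 hc.smooth (h.mem_of_pos hu)
  bound := fun K hK hKO => testFn_bounded h h0 hc.smooth hK hKO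
  dominated := fun K hK hKO => testFn_dominated h h0 hc.smooth hP hK hKO
  err_lim := testFn_err_lim h h0 hc.smooth hP fun y hu hs => by
    obtain ⟨f⟩ := exists_frame (A := hessMat w y) (fun e : y = 0 => h0 (e ▸ h.mem_of_pos hu))
      (fun i j => hess_comm_of h.smooth h.isOpen (h.mem_of_pos hu) i j)
      (h.app_hess_radial (subset_closure hu) (h.mem_of_pos hu))
    exact interior_nonneg f h h0 hu hs hc
      (inDom_of_pos h h0 hm hu hs (profile_bound h h0 hm hφ y hu))
  boundary := fun K hK hKO e he =>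
    testFn_boundary h h0 hc.smooth (fun y hy hyO hs => flux_nonneg h h0 hm hc hy hyO hs) hK hKO he

/-- A certificate makes every minimising regular cone in dimension `m + 1` a half-space solution. -/
theorem flat_of_certifiesX (hm : 1 ≤ m) (h : RegularCone u O w) (hmin : IsMinimizer u) (hne : u ≠ 0)
    (hφ : Profile m φ) (hc : CertifiesX m γ c φ) :
    ∃ e : Fin (m + 1) → ℝ, ∑ i, e i ^ 2 = 1 ∧ ∀ x, u x = max (∑ i, e i * x i) 0 := by
  have hs := h.shrink
  refine hs.flat_of_hess (by omega) (fun z hz i k => ?_) hne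
  have hz0 := fun h0 : (0 : Fin (m + 1) → ℝ) ∈
      {y | y ∈ O ∧ 0 < dot (grad w y) (grad w y) ∧ y ≠ 0} => h0.2.2 rfl
  have hF := divFamily_of_certifies hm hs (fun _ hy => hy.2.1) hz0 hφ hc
  have h0c : testFn c w 0 z = 0 := div_vanish hs (fun _ hy => hy.2.1) hz0 hmin hF
    (continuousOn_testFn_zero hs hz0 hc.smooth fun y hy => hs.cover y hy.1 hy.2)
    (fun r y hr hy => by rw [testFn_smul (c := c) hs hy hr])
    (by
      have e : (((m + 1 : ℕ) : ℝ) - 2) / 2 = ((m : ℝ) - 1) / 2 := by push_cast; ring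
      rw [e]; exact hc.hardy) hz
  rcases (dot2_self_nonneg (hessMat w z)).eq_or_lt' with hA | hA
  · have h1 := (Finset.sum_eq_zero_iff_of_nonneg fun a _ =>
      Finset.sum_nonneg fun b _ => mul_self_nonneg (hess w a b z)).1
      (show ∑ a, ∑ b, hess w a b z * hess w a b z = 0 from hA) i (Finset.mem_univ i)
    exact mul_self_eq_zero.1
      ((Finset.sum_eq_zero_iff_of_nonneg fun b _ => mul_self_nonneg (hess w i b z)).1 h1 k
        (Finset.mem_univ k))
  · exfalso
    have hzO := hs.mem_of_pos hz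
    have hcl := subset_closure (s := {y | 0 < u y}) hz
    obtain ⟨f⟩ := exists_frame (A := hessMat w z) (fun e : z = 0 => hz0 (e ▸ hzO))
      (fun a b => hess_comm_of hs.smooth hs.isOpen hzO a b) (hs.app_hess_radial hcl hzO)
    have hg := hc.nonzero _ (spectrum f hA hs hcl hzO) _ _
      (inDom_of_pos hs hz0 hm hz hA (profile_bound hs hz0 hm hφ z hz)) _
      (inX_of_pos f hs hz0 hz hA)
    rw [← argv_zero f hA] at hg
    exact mul_ne_zero (Real.sqrt_pos.2 (sVar_pos hz0 (mem_dom_zero hzO hA))).ne' hg h0c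

/-- A scale invariant certificate makes every minimising regular cone a half-space solution. -/
theorem flat_of_certifies {c : Fields} (hm : 1 ≤ m) (h : RegularCone u O w) (hmin : IsMinimizer u)
    (hne : u ≠ 0) (hφ : Profile m φ) (hc : Certifies m γ c φ) :
    ∃ e : Fin (m + 1) → ℝ, ∑ i, e i ^ 2 = 1 ∧ ∀ x, u x = max (∑ i, e i * x i) 0 :=
  flat_of_certifiesX hm h hmin hne hφ (certifies_liftX hc)

end main

end

end Vale.Agent.P098.Div
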