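import Mathlib
import Vale.Agent.P098.Div.Calculus

/-!
# P098: certificates given by lists of monomials in `(w, D, t, ξ)`
-/

namespace Vale.Agent.P098.Div

open Vale.Agent.P098.Cone
open scoped ContDiff

noncomputable section

/-- A monomial `q w ^ i D ^ j t ^ a ξ ^ c`. -/
structure Mono where
  i : ℕ
  j : ℕ
  a : ℕ
  c : ℕ
  q : ℚ

/-- The value of a monomial. -/
def Mono.val (p : Mono) (v : Fin 4 → ℝ) : ℝ :=
  (p.q : ℝ) * v 0 ^ p.i * v 1 ^ p.j * v 2 ^ p.a * v 3 ^ p.c

/-- The partial derivative of a monomial. -/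
def Mono.der (p : Mono) : Fin 4 → Mono :=
  ![⟨p.i - 1, p.j, p.a, p.c, p.q * p.i⟩, ⟨p.i, p.j - 1, p.a, p.c, p.q * p.j⟩,
    ⟨p.i, p.j, p.a - 1, p.c, p.q * p.a⟩, ⟨p.i, p.j, p.a, p.c - 1, p.q * p.c⟩]

/-- A polynomial given by its monomials. -/
def pev : List Mono → (Fin 4 → ℝ) → ℝ
  | [] => fun _ => 0
  | p :: L => fun v => p.val v + pev L v

theorem contDiff_val (p : Mono) : ContDiff ℝ ∞ p.val := by
  unfold Mono.val
  fun_prop

theorem contDiff_pev : ∀ L : List Mono, ContDiff ℝ ∞ (pev L)
  | [] => contDiff_const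
  | p :: L => (contDiff_val p).add (contDiff_pev L)

theorem pd_pow_coord (n : ℕ) (b k : Fin 4) (v : Fin 4 → ℝ) :
    pd (fun y => y b ^ n) k v = if k = b then (n : ℝ) * v b ^ (n - 1) else 0 := by
  rw [pd_comp (φ := fun t => t ^ n) (hasDerivAt_pow n (v b)) (differentiableAt_apply b v), pd_coord]
  split_ifs <;> simp

theorem pd_val (p : Mono) (k : Fin 4) (v : Fin 4 → ℝ) : pd p.val k v = (p.der k).val v := by
  have d : ∀ (n : ℕ) (b : Fin 4), DifferentiableAt ℝ (fun y : Fin 4 → ℝ => y b ^ n) v :=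
    fun n b => (differentiableAt_apply b v).fun_pow n
  have h0 := (differentiableAt_const (c := (p.q : ℝ)) (x := v)).fun_mul (d p.i 0)
  have h1 := h0.fun_mul (d p.j 1)
  have h2 := h1.fun_mul (d p.a 2)
  rw [show p.val = fun y => (p.q : ℝ) * y 0 ^ p.i * y 1 ^ p.j * y 2 ^ p.a * y 3 ^ p.c from rfl,
    pd_mul h2 (d p.c 3), pd_mul h1 (d p.a 2), pd_mul h0 (d p.j 1),
    pd_mul (differentiableAt_const _) (d p.i 0)]
  simp only [pd_pow_coord, pd_const]
  fin_cases k <;> simp [Mono.der, Mono.val] <;> ring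

theorem pd_pev : ∀ (L : List Mono) (k : Fin 4), pd (pev L) k = pev (L.map fun p => p.der k)
  | [], k => funext fun v => pd_const 0 k
  | p :: L, k => funext fun v => by
    show pd (fun y => p.val y + pev L y) k v = (p.der k).val v + pev (L.map fun p => p.der k) v
    rw [pd_add ((contDiff_val p).differentiable (by simp) v)
      ((contDiff_pev L).differentiable (by simp) v), pd_val, pd_pev L k]

/-- The certificate with polynomial fields and no potential. -/
def polyFields (g al be ga b1 b2 : List Mono) : FieldsX where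
  g := pev g
  F := pev []
  al := pev al
  be := pev be
  ga := pev ga
  b1 := pev b1
  b2 := pev b2

theorem smooth_polyFields (g al be ga b1 b2 : List Mono) :
    (polyFields g al be ga b1 b2).Smooth :=
  ⟨contDiff_pev g, contDiff_pev [], contDiff_pev al, contDiff_pev be, contDiff_pev ga,
    contDiff_pev b1, contDiff_pev b2⟩

end

end Vale.Agent.P098.Div
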