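import Mathlib
import Vale.Agent.P098.Div.Bound

/-!
# P098: a profile in dimension six

One step of the maximum principle takes the linear profile `93/50 D` to `18/25 D - 71/200 D ^ 2`.
-/

namespace Vale.Agent.P098.Div

open scoped ContDiff

noncomputable section

/-- The profile used in dimension six. -/
def phiSix (D : ℝ) : ℝ := 18 / 25 * D - 71 / 200 * D ^ 2

theorem hasDerivAt_phiSix (D : ℝ) : HasDerivAt phiSix (18 / 25 - 71 / 100 * D) D := by
  refine (((hasDerivAt_id' D).const_mul (18 / 25 : ℝ)).sub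
    ((hasDerivAt_pow 2 D).const_mul (71 / 200 : ℝ))).congr_deriv ?_
  push_cast
  ring

theorem deriv_phiSix : deriv phiSix = fun D => 18 / 25 - 71 / 100 * D :=
  funext fun D => (hasDerivAt_phiSix D).deriv

theorem deriv2_phiSix (D : ℝ) : deriv (deriv phiSix) D = -(71 / 100) := by
  rw [deriv_phiSix]
  have := ((hasDerivAt_id' D).const_mul (71 / 100 : ℝ)).const_sub (18 / 25 : ℝ)
  simpa using this.deriv

theorem band_phiSix : BandOK 5 phiSix fun D => 93 / 50 * D := by
  intro l hl W D hdom hlt k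
  obtain ⟨hW, hD, hD1, hW2⟩ := hdom
  have hl2 := spectrum_sq_le hl k
  push_cast at hl2
  have hκ := katoConst_pos (m := 5) (l k)
  have hκe : katoConst 5 (l k) = 1 / 3 + 10 / 21 * l k ^ 2 := by
    rw [katoConst]; push_cast; ring
  rw [deriv2_phiSix, congr_fun deriv_phiSix D]
  set L := l k
  set κ := katoConst 5 L
  set p := 18 / 25 - 71 / 100 * D
  have hp : 0 < p := by simp only [p]; linarith
  refine ⟨hp, ?_⟩
  set A := 2 * p + (1 - D) * (2 - 8 * κ + 71 / 25 * L ^ 2)
  have e : 2 * p * W ^ 2 + (1 - D) * (2 * W ^ 2 - 8 * W * (W + p * L)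
      + 2 * (W + p * L) ^ 2 / κ - 4 * -(71 / 100) * L ^ 2 * W ^ 2)
      = W ^ 2 * A + (1 - D) * (2 / κ * (W + p * L - 2 * κ * W) ^ 2) := by
    simp only [A]
    field_simp
    ring
  rw [e]
  have hsq : 0 ≤ (1 - D) * (2 / κ * (W + p * L - 2 * κ * W) ^ 2) :=
    mul_nonneg (by linarith) (mul_nonneg (by positivity) (sq_nonneg _))
  have hA : A = 36 / 25 - 71 / 50 * D - (1 - D) * (2 / 3 + 509 / 525 * L ^ 2) := by
    simp only [A, p, hκe]; ring
  rcases le_or_gt (1 / 8) D with hbig | hsmall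
  · have h1 := mul_le_mul_of_nonneg_left (show 2 / 3 + 509 / 525 * L ^ 2 ≤ 3786 / 2625 by linarith)
      (show 0 ≤ 1 - D by linarith)
    have : 0 < A := by rw [hA]; linarith
    linarith [mul_pos (pow_pos hW 2) this]
  rcases le_or_gt (L ^ 2) (1 / 2) with hLs | hLb
  · have h1 := mul_le_mul_of_nonneg_left (show 2 / 3 + 509 / 525 * L ^ 2 ≤ 6 / 5 by linarith)
      (show 0 ≤ 1 - D by linarith)
    have : 0 < A := by rw [hA]; linarith
    linarith [mul_pos (pow_pos hW 2) this]
  have hW1 : W ≤ 49 / 100 := by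
    have h' : W ^ 2 ≤ 93 / 50 * D := hW2
    exact abs_le_of_sq_le_sq' (by linarith) (by norm_num) |>.2
  have hp1 : 63 / 100 ≤ p := by simp only [p]; linarith
  have hk1 : κ ≤ 5 / 7 := by rw [hκe]; linarith
  have hk2 : 4 / 7 ≤ κ := by rw [hκe]; linarith
  have hfar : 1 / 20 ≤ (W + p * L - 2 * κ * W) ^ 2 := by
    rcases le_or_gt 0 L with hLp | hLn
    · have h1 : 7 / 10 ≤ L := (abs_le_of_sq_le_sq' (show (7 / 10 : ℝ) ^ 2 ≤ L ^ 2 by linarith) hLp).2
      have h2 := mul_le_mul hp1 h1 (by norm_num) hp.le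
      have h3 := mul_le_mul (show 2 * κ - 1 ≤ 3 / 7 by linarith) hW1 hW.le (by norm_num)
      have h4 : 23 / 100 ≤ W + p * L - 2 * κ * W := by linarith
      have h5 := pow_le_pow_left₀ (by norm_num) h4 2
      linarith
    · have h1 : 7 / 10 ≤ -L :=
        (abs_le_of_sq_le_sq' (show (7 / 10 : ℝ) ^ 2 ≤ (-L) ^ 2 by linarith [neg_sq L]) (by linarith)).2
      have h2 := mul_le_mul hp1 h1 (by norm_num) hp.le
      have h3 := mul_nonneg (show 0 ≤ 2 * κ - 1 by linarith) hW.le
      have h4 : 23 / 100 ≤ -(W + p * L - 2 * κ * W) := by linarith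
      have h5 := pow_le_pow_left₀ (by norm_num) h4 2
      linarith
  have h2κ : 2 ≤ 2 / κ := by rw [le_div_iff₀ hκ]; linarith
  have hB : 1 / 20 ≤ (1 - D) * (2 / κ * (W + p * L - 2 * κ * W) ^ 2) := by
    have := mul_le_mul (show (1 / 2 : ℝ) ≤ 1 - D by linarith)
      (mul_le_mul h2κ hfar (by norm_num) (by positivity)) (by norm_num) (by linarith)
    linarith
  have h1 := mul_le_mul_of_nonneg_left (show 2 / 3 + 509 / 525 * L ^ 2 ≤ 3786 / 2625 by linarith)
    (show 0 ≤ 1 - D by linarith)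
  have hA' : -(1 / 100) ≤ A := by rw [hA]; linarith
  have h6 : W ^ 2 ≤ 1 := (pow_le_pow_left₀ hW.le hW1 2).trans (by norm_num)
  have h7 := mul_le_mul_of_nonneg_left hA' (sq_nonneg W)
  linarith

/-- `phiSix` bounds `u |D^2 u|` in dimension six. -/
theorem profile_phiSix : Profile 5 phiSix := by
  refine Profile.step phiSix _ (Profile.linear (93 / 50) ?_) ?_ ?_ band_phiSix
  · push_cast; norm_num
  · unfold phiSix; fun_prop
  · intro D h0 h1
    have := mul_le_mul_of_nonneg_left h1.le h0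
    unfold phiSix
    linarith

end

end Vale.Agent.P098.Div
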