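import Vale.Agent.P098.Div.Calculus
import Vale.Agent.P098.Jet.Gradient

/-!
# P098: the scale invariant functions of the jet and their derivatives
-/

namespace Vale.Agent.P098.Div

open Vale.Agent.P098.Cone Vale.Agent.P098.Jet
open Set Filter Topology Finset
open scoped ContDiff

noncomputable section

variable {d : ℕ} {u w : (Fin d → ℝ) → ℝ} {O : Set (Fin d → ℝ)} {δ : ℝ} {z : Fin d → ℝ}

/-- The length of the point. -/
def len (z : Fin d → ℝ) : ℝ := √(dot z z)

/-- The regularised length of the Hessian. -/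
def regLen (w : (Fin d → ℝ) → ℝ) (δ : ℝ) (z : Fin d → ℝ) : ℝ := √(regSq w δ z)

/-- The square of a matrix. -/
def sqMat (A : Fin d → Fin d → ℝ) (i j : Fin d) : ℝ := ∑ k, A i k * A k j

/-- The trace of the cube of the Hessian. -/
def cube (w : (Fin d → ℝ) → ℝ) (z : Fin d → ℝ) : ℝ :=
  ∑ i, ∑ j, ∑ k, hess w i k z * hess w k j z * hess w i j z

/-- `|x| |A|`, regularised. -/
def sVar (w : (Fin d → ℝ) → ℝ) (δ : ℝ) (z : Fin d → ℝ) : ℝ := len z * regLen w δ z

/-- `1 / (1 + s ^ 2)`. -/
def xiVal (w : (Fin d → ℝ) → ℝ) (δ : ℝ) (z : Fin d → ℝ) : ℝ :=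
  (1 + sVar w δ z * sVar w δ z)⁻¹

/-- The arguments `(w, D, t, ξ)` of the functions of a certificate. -/
def args (w : (Fin d → ℝ) → ℝ) (δ : ℝ) : Fin 4 → (Fin d → ℝ) → ℝ :=
  ![fun z => w z * regLen w δ z, fun z => 1 - dot (grad w z) (grad w z),
    fun z => cube w z * (regLen w δ z ^ 3)⁻¹, fun z => xiVal w δ z]

theorem one_add_sq_ne (s : ℝ) : 1 + s * s ≠ 0 := by
  have := mul_self_nonneg s
  linarith

/-- Where the regularised length does not vanish. -/
def dom (w : (Fin d → ℝ) → ℝ) (O : Set (Fin d → ℝ)) (δ : ℝ) : Set (Fin d → ℝ) :=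
  O ∩ regSq w δ ⁻¹' Ioi 0

theorem lap_sum {ι : Type*} (s : Finset ι) {F : ι → (Fin d → ℝ) → ℝ} {V : Set (Fin d → ℝ)}
    (hV : IsOpen V) (hF : ∀ i, ContDiffOn ℝ 2 (F i) V) (hz : z ∈ V) :
    lap (fun y => ∑ i ∈ s, F i y) z = ∑ i ∈ s, lap (F i) z := by
  have step : ∀ k, hess (fun y => ∑ i ∈ s, F i y) k k z = ∑ i ∈ s, hess (F i) k k z := by
    intro k
    have ev : (fun y => pd (fun y => ∑ i ∈ s, F i y) k y) =ᶠ[𝓝 z]
        fun y => ∑ i ∈ s, pd (F i) k y := by
      filter_upwards [hV.mem_nhds hz] with y hy using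
        pd_sum s (fun i _ => differentiableAt_of_smooth (hF i) hV hy) k
    rw [hess, pd_congr ev, pd_sum s (F := fun i y => pd (F i) k y)
      (fun i _ => differentiableAt_of_smooth (contDiffOn_pd (hF i) hV k) hV hz)]
    rfl
  simp only [lap, step]
  rw [sum_comm]

theorem len_pos (hz : z ≠ 0) : 0 < len z := Real.sqrt_pos.2 (dot_self_pos hz)

theorem len_sq (z : Fin d → ℝ) : len z * len z = dot z z := Real.mul_self_sqrt (dot_self_nonneg z)

theorem contDiffOn_len (h0 : (0 : Fin d → ℝ) ∉ O) : ContDiffOn ℝ 2 (len (d := d)) O :=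
  contDiff_two_dot_self.contDiffOn.sqrt fun y hy => (dot_self_pos fun e : y = 0 => h0 (e ▸ hy)).ne'

theorem pd_len (hz : z ≠ 0) (k : Fin d) : pd len k z = z k / len z := by
  have hR := dot_self_pos hz
  refine (pd_comp (f := fun y : Fin d → ℝ => dot y y) (φ := Real.sqrt) (Real.hasDerivAt_sqrt hR.ne')
    (contDiff_dot_self.differentiable (by simp) z) k).trans ?_
  rw [pd_dot_self, len]
  field_simp

theorem lap_len (hz : z ≠ 0) : lap len z = ((d : ℝ) - 1) / len z := by
  have hr := len_pos hz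
  have step : ∀ k, hess len k k z = 1 / len z - z k * z k / len z ^ 3 := by
    intro k
    have ev : (fun y => pd len k y) =ᶠ[𝓝 z] fun y => y k * invLen y := by
      filter_upwards [isOpen_compl_singleton.mem_nhds hz] with y hy
      rw [pd_len hy, invLen, len, div_eq_mul_inv]
    rw [hess, pd_congr ev, pd_mul (differentiableAt_apply k z) (differentiableAt_invLen hz),
      pd_invLen hz, pd_coord, if_pos rfl, invLen, ← len]
    field_simp
    ring
  simp only [lap, step, sum_sub_distrib, ← sum_div, sum_const, card_univ, Fintype.card_fin,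
    nsmul_eq_mul]
  rw [show ∑ k, z k * z k = len z * len z from (len_sq z).symm]
  field_simp

theorem isOpen_dom (h : RegularCone u O w) (h0 : (0 : Fin d → ℝ) ∉ O) (δ : ℝ) :
    IsOpen (dom w O δ) :=
  (contDiffOn_regSq h.smooth h.isOpen h0 δ).continuousOn.isOpen_inter_preimage h.isOpen isOpen_Ioi

theorem dom_of_pos (h0 : (0 : Fin d → ℝ) ∉ O) (hδ : 0 < δ) : dom w O δ = O :=
  inter_eq_left.2 fun z hz => regSq_pos hδ fun e : z = 0 => h0 (e ▸ hz)

theorem regLen_pos (hz : z ∈ dom w O δ) : 0 < regLen w δ z := Real.sqrt_pos.2 hz.2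

theorem regLen_sq (hz : z ∈ dom w O δ) : regLen w δ z * regLen w δ z = regSq w δ z :=
  Real.mul_self_sqrt (le_of_lt hz.2)

theorem contDiffOn_regLen (h : RegularCone u O w) (h0 : (0 : Fin d → ℝ) ∉ O) :
    ContDiffOn ℝ 2 (regLen w δ) (dom w O δ) :=
  ((contDiffOn_regSq h.smooth h.isOpen h0 δ).mono inter_subset_left).sqrt fun _ hy => ne_of_gt hy.2

theorem contDiffOn_cube (h : RegularCone u O w) : ContDiffOn ℝ 2 (cube w) O :=
  ContDiffOn.sum fun i _ => ContDiffOn.sum fun j _ => ContDiffOn.sum fun k _ =>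
    ((contDiffOn_hess h.smooth h.isOpen i k).mul (contDiffOn_hess h.smooth h.isOpen k j)).mul
      (contDiffOn_hess h.smooth h.isOpen i j)

theorem contDiffOn_sVar (h : RegularCone u O w) (h0 : (0 : Fin d → ℝ) ∉ O) :
    ContDiffOn ℝ 2 (sVar w δ) (dom w O δ) :=
  ((contDiffOn_len h0).mono inter_subset_left).mul (contDiffOn_regLen h h0)

theorem contDiffOn_args (h : RegularCone u O w) (h0 : (0 : Fin d → ℝ) ∉ O) (i : Fin 4) :
    ContDiffOn ℝ 2 (args w δ i) (dom w O δ) := by
  fin_cases i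
  · exact ((h.smooth.of_le (by norm_num)).mono inter_subset_left).mul (contDiffOn_regLen h h0)
  · exact contDiffOn_const.sub ((ContDiffOn.sum fun i _ => ((contDiffOn_pd h.smooth h.isOpen i).mul
      (contDiffOn_pd h.smooth h.isOpen i)).of_le (by norm_num)).mono inter_subset_left)
  · exact ((contDiffOn_cube h).mono inter_subset_left).mul
      (((contDiffOn_regLen h h0).pow 3).inv fun y hy => (pow_pos (regLen_pos hy) 3).ne')
  · exact (contDiffOn_const.add ((contDiffOn_sVar h h0).mul (contDiffOn_sVar h h0))).inv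
      fun y _ => one_add_sq_ne _

theorem pd_regLen (h : RegularCone u O w) (h0 : (0 : Fin d → ℝ) ∉ O) (hz : z ∈ dom w O δ)
    (k : Fin d) : pd (regLen w δ) k z
      = (dot2 (fun i j => third w z i j k) (hessMat w z) - δ * (dot z z ^ 2)⁻¹ * z k)
        / regLen w δ z := by
  have hz0 : z ≠ 0 := fun e => h0 (e ▸ hz.1)
  refine (pd_comp (f := regSq w δ) (φ := Real.sqrt) (Real.hasDerivAt_sqrt (ne_of_gt hz.2))
    (differentiableAt_of_smooth (contDiffOn_regSq h.smooth h.isOpen h0 δ) h.isOpen hz.1) k).trans ?_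
  rw [pd_regSq h.smooth h.isOpen hz.1 hz0, regLen]
  field_simp
  ring

theorem lap_regLen (h : RegularCone u O w) (h0 : (0 : Fin d → ℝ) ∉ O) (hz : 0 < u z)
    (hzd : z ∈ dom w O δ) : lap (regLen w δ) z
      = (dot3 (third w z) (third w z) + δ * (4 - (d : ℝ)) * (dot z z ^ 2)⁻¹
          - dot (grad (regLen w δ) z) (grad (regLen w δ) z)) / regLen w δ z := by
  have hB : 0 < regSq w δ z := hzd.2
  have h2 : HasDerivAt (fun t : ℝ => 1 / (2 * √t)) (-(1 / (4 * (√(regSq w δ z)) ^ 3)))
      (regSq w δ z) := by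
    refine ((((Real.hasDerivAt_sqrt hB.ne').const_mul 2).fun_inv
      (by positivity)).congr_deriv ?_).congr_of_eventuallyEq (.of_forall fun t => one_div _)
    field_simp
    ring
  refine (lap_comp (φ := Real.sqrt) (φ' := fun t => 1 / (2 * √t)) (isOpen_dom h h0 δ)
    ((contDiffOn_regSq h.smooth h.isOpen h0 δ).mono inter_subset_left) hzd ?_ h2).trans ?_
  · filter_upwards [lt_mem_nhds hB] with t ht using Real.hasDerivAt_sqrt ht.ne'
  have eg : dot (grad (regSq w δ) z) (grad (regSq w δ) z)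
      = 4 * regSq w δ z * dot (grad (regLen w δ) z) (grad (regLen w δ) z) := by
    simp only [dot, grad, mul_sum]
    refine sum_congr rfl fun k _ => ?_
    rw [pd_regLen h h0 hzd, pd_regSq h.smooth h.isOpen hzd.1 (fun e => h0 (e ▸ hzd.1)),
      ← regLen_sq hzd]
    field_simp [(regLen_pos hzd).ne']
    ring
  rw [eg, show lap (regSq w δ) z = _ from h.laplace_regSq h0 hz δ, ← regLen_sq hzd,
    Real.sqrt_mul_self (regLen_pos hzd).le]
  have := (regLen_pos hzd).ne'
  field_simp
  ring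

theorem pd_cube (h : RegularCone u O w) (hz : z ∈ O) (k : Fin d) :
    pd (cube w) k z = 3 * dot2 (fun i j => third w z i j k) (sqMat (hessMat w z)) := by
  have hh : ∀ i j, DifferentiableAt ℝ (hess w i j) z := fun i j =>
    differentiableAt_of_smooth (contDiffOn_hess h.smooth h.isOpen i j) h.isOpen hz
  have hA : ∀ i j, hessMat w z i j = hessMat w z j i := hess_comm_of h.smooth h.isOpen hz
  have hT : ∀ i j l, third w z i j l = third w z j i l := third_comm₁ h.smooth h.isOpen hz
  rw [show cube w = fun y => ∑ i, ∑ j, ∑ l, hess w i l y * hess w l j y * hess w i j y from rfl,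
    pd_sum _ (F := fun i y => ∑ j, ∑ l, hess w i l y * hess w l j y * hess w i j y) fun i _ =>
      DifferentiableAt.fun_sum fun j _ => DifferentiableAt.fun_sum fun l _ =>
        ((hh i l).fun_mul (hh l j)).fun_mul (hh i j)]
  simp only [pd_sum _ (F := fun j y => ∑ l, hess w _ l y * hess w l j y * hess w _ j y) fun j _ =>
      DifferentiableAt.fun_sum fun l _ => ((hh _ l).fun_mul (hh l j)).fun_mul (hh _ j),
    pd_sum _ (F := fun l y => hess w _ l y * hess w l _ y * hess w _ _ y) fun l _ =>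
      ((hh _ l).fun_mul (hh l _)).fun_mul (hh _ _),
    pd_mul ((hh _ _).fun_mul (hh _ _)) (hh _ _), pd_mul (hh _ _) (hh _ _)]
  set A := hessMat w z
  set T := fun i j => third w z i j k
  show ∑ i, ∑ j, ∑ l, (A i l * A l j * T i j + A i j * (A i l * T l j + A l j * T i l))
    = 3 * dot2 T (sqMat A)
  have e1 : ∑ i, ∑ j, ∑ l, A i l * A l j * T i j = dot2 T (sqMat A) := by
    simp only [dot2, sqMat, mul_sum]
    exact sum_congr rfl fun i _ => sum_congr rfl fun j _ => sum_congr rfl fun l _ => by ring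
  have e2 : ∑ i, ∑ j, ∑ l, A i j * (A i l * T l j) = dot2 T (sqMat A) := by
    rw [← e1, sum_comm (γ := Fin d)]
    refine Eq.trans ?_ sum_comm
    refine sum_congr rfl fun j _ => ?_
    rw [sum_comm]
    exact sum_congr rfl fun l _ => sum_congr rfl fun i _ => by rw [hA l i]; ring
  have e3 : ∑ i, ∑ j, ∑ l, A i j * (A l j * T i l) = dot2 T (sqMat A) := by
    rw [← e1]
    refine sum_congr rfl fun i _ => ?_
    rw [sum_comm]
    exact sum_congr rfl fun l _ => sum_congr rfl fun j _ => by rw [hA l j]; ring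
  simp only [mul_add, sum_add_distrib, e1, e2, e3]
  ring

theorem lap_cube (h : RegularCone u O w) (hz : 0 < u z) :
    lap (cube w) z = 6 * ∑ i, ∑ j, hess w i j z *
      ∑ l, ∑ k, third w z i l k * third w z j l k := by
  have hzO := h.mem_of_pos hz
  have hs : ∀ i j, ContDiffOn ℝ 2 (hess w i j) O := fun i j =>
    contDiffOn_hess h.smooth h.isOpen i j
  have hl : ∀ i j, lap (hess w i j) z = 0 := fun i j => h.laplace_hess hz i j
  have hd : ∀ i j, DifferentiableAt ℝ (hess w i j) z := fun i j =>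
    differentiableAt_of_smooth (hs i j) h.isOpen hzO
  rw [show cube w = fun y => ∑ i, ∑ j, ∑ l, hess w i l y * hess w l j y * hess w i j y from rfl,
    lap_sum _ h.isOpen (fun i => ContDiffOn.sum fun j _ => ContDiffOn.sum fun l _ =>
      ((hs i l).mul (hs l j)).mul (hs i j)) hzO]
  simp only [lap_sum _ h.isOpen (fun j => ContDiffOn.sum fun l _ =>
      ((hs _ l).mul (hs l j)).mul (hs _ j)) hzO,
    lap_sum _ h.isOpen (fun l => ((hs _ l).mul (hs l _)).mul (hs _ _)) hzO,
    lap_mul h.isOpen ((hs _ _).mul (hs _ _)) (hs _ _) hzO,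
    lap_mul h.isOpen (hs _ _) (hs _ _) hzO, hl, pd_mul (hd _ _) (hd _ _), mul_zero, zero_add,
    dot, grad, mul_sum]
  set A := hessMat w z
  set T := third w z
  have hA : ∀ i j, A i j = A j i := hess_comm_of h.smooth h.isOpen hzO
  have hT : ∀ i j k, T i j k = T j i k := third_comm₁ h.smooth h.isOpen hzO
  set P := ∑ i, ∑ j, ∑ l, ∑ k, A i j * (T i l k * T j l k)
  show ∑ i, ∑ j, ∑ l, ((∑ k, A i j * (2 * (T i l k * T l j k)))
      + ∑ k, 2 * ((A i l * T l j k + A l j * T i l k) * T i j k))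
    = ∑ i, ∑ j, ∑ l, ∑ k, 6 * (A i j * (T i l k * T j l k))
  simp only [add_mul, mul_add, sum_add_distrib]
  have e1 : ∑ i, ∑ j, ∑ l, ∑ k, A i j * (2 * (T i l k * T l j k)) = 2 * P := by
    simp only [P, mul_sum]
    exact sum_congr rfl fun i _ => sum_congr rfl fun j _ => sum_congr rfl fun l _ =>
      sum_congr rfl fun k _ => by rw [hT l j k]; ring
  have e2 : ∑ i, ∑ j, ∑ l, ∑ k, 2 * (A i l * T l j k * T i j k) = 2 * P := by
    simp only [P, mul_sum]
    refine sum_congr rfl fun i _ => ?_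
    rw [sum_comm]
    exact sum_congr rfl fun j _ => sum_congr rfl fun l _ => sum_congr rfl fun k _ => by ring
  have e3 : ∑ i, ∑ j, ∑ l, ∑ k, 2 * (A l j * T i l k * T i j k) = 2 * P := by
    simp only [P, mul_sum]
    rw [sum_comm]
    refine Eq.trans (sum_congr rfl fun j _ => sum_comm) ?_
    rw [sum_comm]
    exact sum_congr rfl fun l _ => sum_congr rfl fun j _ => sum_congr rfl fun i _ =>
      sum_congr rfl fun k _ => by rw [hT i l k, hT i j k]; ring
  rw [e1, e2, e3]
  simp only [P, ← mul_sum]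
  ring

end

end Vale.Agent.P098.Div
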