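import Vale.Agent.P098.Div.Data

/-!
# P098: the pointwise conditions give the interior and boundary inequalities
-/

namespace Vale.Agent.P098.Div

open Vale.Agent.P098.Cone Vale.Agent.P098.Jet
open Finset Filter Topology

open scoped ContDiff

noncomputable section

set_option linter.unusedSectionVars false

variable {m : ℕ} {u w : (Fin (m + 1) → ℝ) → ℝ} {O : Set (Fin (m + 1) → ℝ)} {z : Fin (m + 1) → ℝ}
  {c : FieldsX} {φ : ℝ → ℝ} {γ : ℝ}

theorem continuous_quadX (hc : c.Smooth) (l : Fin m → ℝ) (W D : ℝ) (k : Fin m) (x : Fin m → ℝ) :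
    Continuous fun s => quadX c l W D s k x 0 := by
  have hv : Continuous fun s => ptX l W D s := by
    refine continuous_pi fun i => ?_
    fin_cases i <;> simp only [ptX, Fin.reduceFinMk, Matrix.cons_val] <;> fun_prop
  have hb : ∀ i, Continuous fun s => stepX l W s k x 0 i := fun i => by
    fin_cases i <;> simp only [stepX, Fin.reduceFinMk, Matrix.cons_val] <;> fun_prop
  have h0 : ∀ {G : (Fin 4 → ℝ) → ℝ}, ContDiff ℝ ∞ G → Continuous fun s => G (ptX l W D s) :=
    fun hG => hG.continuous.comp hv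
  have h1 : ∀ {G : (Fin 4 → ℝ) → ℝ}, ContDiff ℝ ∞ G →
      Continuous fun s => along G (ptX l W D s) (stepX l W s k x 0) := fun hG => by
    simp only [along]
    exact continuous_finsetSum _ fun i _ => (h0 (contDiff_pd hG i)).mul (hb i)
  have h2 : Continuous fun s => along₂ c.F (ptX l W D s) (stepX l W s k x 0) := by
    simp only [along₂]
    exact continuous_finsetSum _ fun i _ => continuous_finsetSum _ fun j _ =>
      (h0 (contDiff_pd (contDiff_pd hc.F i) j)).mul ((hb i).mul (hb j))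
  have a0 := h0 hc.F
  have a1 := h0 (contDiff_pd hc.F 0)
  have a2 := h0 (contDiff_pd hc.F 2)
  have a3 := h0 (contDiff_pd hc.F 3)
  have a4 := h0 hc.al
  have a5 := h0 hc.be
  have a6 := h0 hc.ga
  have a7 := h0 hc.b1
  have a8 := h0 hc.b2
  have a9 := h0 hc.g
  have b0 := h1 hc.F
  have b4 := h1 hc.al
  have b5 := h1 hc.be
  have b6 := h1 hc.ga
  have b7 := h1 hc.b1
  have b8 := h1 hc.b2
  have b9 := h1 hc.g
  simp only [quadX]
  fun_prop

/-- A symmetric function of three indices, nonnegative when they are distinct, dominates its diagonals. -/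
theorem sum_three_ge {f : Fin m → Fin m → Fin m → ℝ} (h1 : ∀ i j k, f i j k = f j i k)
    (h2 : ∀ i j k, f i j k = f i k j) (h3 : ∀ i j k, i ≠ j → j ≠ k → i ≠ k → 0 ≤ f i j k) :
    ∑ k, ∑ i, (if i = k then 1 else 3) * f i i k ≤ ∑ i, ∑ j, ∑ k, f i j k := by
  set g : Fin m → Fin m → Fin m → ℝ := fun i j k => (if i = j then f i i k else 0)
    + (if j = k then f i j j else 0) + (if i = k then f i j i else 0)
    - 2 * (if i = j then (if j = k then f i i i else 0) else 0)
  have hle : ∀ i j k, g i j k ≤ f i j k := by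
    intro i j k
    simp only [g]
    rcases eq_or_ne i j with rfl | hij
    · rcases eq_or_ne i k with rfl | hik
      · simp only [if_true]; linarith
      · simp only [if_true, hik, if_false]; linarith
    · rcases eq_or_ne j k with rfl | hjk
      · simp only [hij, if_false, if_true]; linarith
      · rcases eq_or_ne i k with rfl | hik
        · simp only [hij, hjk, if_false, if_true]; linarith
        · simp only [hij, hjk, hik, if_false]; linarith [h3 i j k hij hjk hik]
  refine le_trans (le_of_eq ?_) (sum_le_sum fun i _ => sum_le_sum fun j _ => sum_le_sum fun k _ => hle i j k)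
  simp only [g, sum_add_distrib, sum_sub_distrib, ← mul_sum]
  have a1 : ∑ i : Fin m, ∑ j : Fin m, ∑ k : Fin m, (if i = j then f i i k else 0)
      = ∑ k, ∑ i, f i i k := by
    rw [sum_comm (γ := Fin m) (s := univ)]
    refine Eq.trans (sum_congr rfl fun j _ => sum_comm) ?_
    rw [sum_comm]
    simp
  have a2 : ∑ i : Fin m, ∑ j : Fin m, ∑ k : Fin m, (if j = k then f i j j else 0)
      = ∑ k, ∑ i, f i i k := by
    simp only [sum_ite_eq, mem_univ, if_true]
    exact sum_congr rfl fun i _ => sum_congr rfl fun j _ => by rw [h1 i j j, h2 j i j]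
  have a3 : ∑ i : Fin m, ∑ j : Fin m, ∑ k : Fin m, (if i = k then f i j i else 0)
      = ∑ k, ∑ i, f i i k := by
    simp only [sum_ite_eq, mem_univ, if_true]
    rw [sum_comm]
    exact sum_congr rfl fun k _ => sum_congr rfl fun i _ => h2 i k i
  have a4 : ∑ i : Fin m, ∑ j : Fin m, ∑ k : Fin m, (if i = j then (if j = k then f i i i else 0) else 0)
      = ∑ i, f i i i := by
    have e : ∀ i j : Fin m, ∑ k, (if i = j then (if j = k then f i i i else 0) else 0)
        = if i = j then f i i i else 0 := fun i j => by split_ifs <;> simp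
    simp [e]
  rw [a1, a2, a3, a4]
  have e : ∀ k i : Fin m, (if i = k then (1 : ℝ) else 3) * f i i k
      = 3 * f i i k - if i = k then 2 * f k k k else 0 := fun k i => by
    split_ifs with hik
    · subst hik; ring
    · ring
  simp only [e, sum_sub_distrib, ← mul_sum, sum_ite_eq', mem_univ, if_true]
  ring

theorem sum3_comb (p q : Fin m → Fin m → Fin m → ℝ) (a b : ℝ) :
    ∑ i, ∑ j, ∑ k, (a * p i j k + b * q i j k)
      = a * (∑ i, ∑ j, ∑ k, p i j k) + b * ∑ i, ∑ j, ∑ k, q i j k := by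
  simp only [sum_add_distrib, mul_sum]

theorem grad_len_pos (h : RegularCone u O w) (hu : 0 < u z) : 0 < dot (grad w z) (grad w z) := by
  have e := h.euler_pos hu
  rw [h.agree z (h.mem_of_pos hu) hu] at e
  have h1 := dot_sq_le z (grad w z)
  rw [e] at h1
  rcases (dot_self_nonneg (grad w z)).eq_or_lt with h2 | h2
  · rw [← h2, mul_zero] at h1
    exact absurd h1 (by have := pow_pos hu 2; linarith)
  · exact h2

/-- The arguments at a point with nonzero Hessian, below the profile. -/
theorem inDom_of_pos (h : RegularCone u O w) (h0 : (0 : Fin (m + 1) → ℝ) ∉ O) (hm : 1 ≤ m)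
    (hu : 0 < u z) (hs : 0 < hessSq w z)
    (hB : (w z * hessLen w z) ^ 2 ≤ φ (1 - dot (grad w z) (grad w z))) :
    InDom φ (w z * hessLen w z) (1 - dot (grad w z) (grad w z)) := by
  refine ⟨?_, ?_, by linarith [grad_len_pos h hu], hB⟩
  · rw [h.agree z (h.mem_of_pos hu) hu]; exact mul_pos hu (hessLen_pos hs)
  · linarith [grad_sq_le_one_pos h h0 (by omega : 2 ≤ m + 1) hu]

theorem xi_mul_sq (w : (Fin (m + 1) → ℝ) → ℝ) (δ : ℝ) (z : Fin (m + 1) → ℝ) :
    xiVal w δ z * (sVar w δ z * sVar w δ z) = 1 - xiVal w δ z := by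
  have := one_add_sq_ne (sVar w δ z)
  rw [xiVal]
  field_simp
  ring

theorem xi_pos (w : (Fin (m + 1) → ℝ) → ℝ) (δ : ℝ) (z : Fin (m + 1) → ℝ) : 0 < xiVal w δ z :=
  inv_pos.2 (by have := mul_self_nonneg (sVar w δ z); linarith)

variable (f : Frame (hessMat w z) z)

theorem argv_zero (hs : 0 < hessSq w z) : argv w 0 z
    = ptX (eig f) (w z * hessLen w z) (1 - dot (grad w z) (grad w z)) (xiVal w 0 z) := by
  funext i
  fin_cases i
  · rfl
  · rfl
  swap
  · rfl
  · show cube w z * (regLen w 0 z ^ 3)⁻¹ = cubic (eig f)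
    have := (hessLen_pos hs).ne'
    rw [cube_eq f hs, show regLen w 0 z = hessLen w z from rfl]
    field_simp

section values

variable (h : RegularCone u O w) (h0 : (0 : Fin (m + 1) → ℝ) ∉ O) (hu : 0 < u z) (hs : 0 < hessSq w z)
include h h0 hu hs

theorem ne_of_pos : z ≠ 0 := fun e => h0 (e ▸ h.mem_of_pos hu)

theorem comp1_gA_zero : comp1 f (gA w 0 z) 0 = -hessLen w z / len z := by
  rw [comp1_zero, dot_gA h h0 hu (mem_dom_zero (h.mem_of_pos hu) hs)]
  rfl

theorem comp1_gA (k : Fin m) :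
    comp1 f (gA w 0 z) k.succ = hessLen w z ^ 2 * nu (eig f) (col f k) := by
  have := (hessLen_pos hs).ne'
  rw [show gA w 0 z = fun j => (hessLen w z)⁻¹ * tA w z j + 0 * z j from funext fun j => by
    simp only [gA, hessLen]; ring, comp1_lin, comp1_tA' f hs]
  field_simp
  ring

theorem comp1_gS_zero : comp1 f (gS w 0 z) 0 = 0 := by
  rw [comp1_zero, dot_gS h h0 hu (mem_dom_zero (h.mem_of_pos hu) hs), zero_div]

theorem comp1_gS (k : Fin m) :
    comp1 f (gS w 0 z) k.succ = len z * hessLen w z ^ 2 * nu (eig f) (col f k) := by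
  rw [show gS w 0 z = fun j => len z * gA w 0 z j + regLen w 0 z / len z * z j from funext fun j => by
    simp only [gS]; ring, comp1_lin, comp1_gA f h h0 hu hs, comp1_self_succ]
  ring

theorem comp1_gArgs_zero (i : Fin 4) : comp1 f (gArgs w 0 z i) 0 = 0 := by
  rw [comp1_zero, dot_gArgs h h0 hu (mem_dom_zero (h.mem_of_pos hu) hs), zero_div]

theorem comp1_gArgs (i : Fin 4) (k : Fin m) : comp1 f (gArgs w 0 z i) k.succ
    = hessLen w z * stepX (eig f) (w z * hessLen w z) (xiVal w 0 z) k (col f k) (piC f k) i := by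
  have hne := (hessLen_pos hs).ne'
  fin_cases i
  · show comp1 f (fun j => w z * gA w 0 z j + regLen w 0 z * grad w z j) k.succ
      = hessLen w z * (piC f k + w z * hessLen w z * nu (eig f) (col f k))
    rw [comp1_lin, comp1_gA f h h0 hu hs]
    simp only [piC, hessLen]
    ring
  · show comp1 f (fun j => -2 * aField w j z) k.succ = hessLen w z * (-2 * eig f k * piC f k)
    rw [show (fun j => -2 * aField w j z) = fun j => -2 * aField w j z + 0 * z j from
      funext fun j => by ring, comp1_lin, comp1_aField, e_eq f hs]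
    ring
  · show comp1 f (fun j => 3 * tAA w z j / regLen w 0 z ^ 3
      - 3 * cube w z * gA w 0 z j / regLen w 0 z ^ 4) k.succ
      = hessLen w z * (3 * (mu (eig f) (col f k) - cubic (eig f) * nu (eig f) (col f k)))
    rw [show (fun j => 3 * tAA w z j / regLen w 0 z ^ 3 - 3 * cube w z * gA w 0 z j / regLen w 0 z ^ 4)
        = fun j => 3 / regLen w 0 z ^ 3 * tAA w z j
          + (-(3 * cube w z / regLen w 0 z ^ 4)) * gA w 0 z j from funext fun j => by ring,
      comp1_lin, comp1_tAA' f hs, comp1_gA f h h0 hu hs, cube_eq f hs,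
      show regLen w 0 z = hessLen w z from rfl]
    field_simp
    ring
  · show comp1 f (fun j => -2 * sVar w 0 z * xiVal w 0 z ^ 2 * gS w 0 z j) k.succ
      = hessLen w z * (-2 * xiVal w 0 z * (1 - xiVal w 0 z) * nu (eig f) (col f k))
    rw [show (fun j => -2 * sVar w 0 z * xiVal w 0 z ^ 2 * gS w 0 z j) = fun j =>
        -2 * sVar w 0 z * xiVal w 0 z ^ 2 * gS w 0 z j + 0 * z j from funext fun j => by ring,
      comp1_lin, comp1_gS f h h0 hu hs, ← xi_mul_sq w 0 z,
      show sVar w 0 z = len z * hessLen w z from rfl]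
    ring

theorem comp1_gComp_zero (F : (Fin 4 → ℝ) → ℝ) : comp1 f (gComp F w 0 z) 0 = 0 := by
  rw [comp1_zero, dot_gComp h h0 hu (mem_dom_zero (h.mem_of_pos hu) hs), zero_div]

theorem comp1_gComp (F : (Fin 4 → ℝ) → ℝ) (k : Fin m) : comp1 f (gComp F w 0 z) k.succ
    = hessLen w z * along F (argv w 0 z) (stepX (eig f) (w z * hessLen w z) (xiVal w 0 z) k (col f k) (piC f k)) := by
  have e : comp1 f (gComp F w 0 z) k.succ
      = ∑ i, pd F i (argv w 0 z) * comp1 f (gArgs w 0 z i) k.succ := by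
    simp only [comp1, dot, gComp, mul_sum]
    rw [sum_comm]
    exact sum_congr rfl fun i _ => sum_congr rfl fun j _ => by ring
  rw [e, along, mul_sum]
  exact sum_congr rfl fun i _ => by rw [comp1_gArgs f h h0 hu hs]; ring

theorem comp1_pVec (k : Fin m) : comp1 f (fun j => pVec w j z) k.succ = piC f k := by
  rw [show (fun j => pVec w j z) = fun j => 1 * grad w z j + (-(w z * (dot z z)⁻¹)) * z j from
    funext fun j => by simp only [pVec, grad]; ring, comp1_lin, comp1_self_succ]
  simp [piC]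

theorem comp1_grad_zero : comp1 f (grad w z) 0 = w z / len z := by
  rw [comp1_zero, h.euler_pos hu]

theorem sum_pi_sq : ∑ k, piC f k ^ 2 = dot (grad w z) (grad w z) - (w z / len z) ^ 2 := by
  rw [dot_split f, comp1_grad_zero f h h0 hu hs]
  simp only [piC, sq]
  ring

theorem tan_dot {p q : Fin (m + 1) → ℝ} (hq : comp1 f q 0 = 0) :
    dot p q = ∑ k : Fin m, comp1 f p k.succ * comp1 f q k.succ := by
  rw [dot_split f, hq, mul_zero, zero_add]

theorem dot_gA_gA : dot (gA w 0 z) (gA w 0 z)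
    = hessLen w z ^ 4 * (∑ k, nu (eig f) (col f k) ^ 2) + (hessLen w z / len z) ^ 2 := by
  rw [dot_split f, comp1_gA_zero f h h0 hu hs, mul_sum, add_comm]
  congr 1
  · exact sum_congr rfl fun k _ => by rw [comp1_gA f h h0 hu hs]; ring
  · ring

theorem lA_eq : lA w 0 z = hessLen w z ^ 3 * ((∑ i, ∑ j, ∑ k, sig f i j k ^ 2)
    - ∑ k, nu (eig f) (col f k) ^ 2) + 2 * hessLen w z / len z ^ 2 := by
  have := (hessLen_pos hs).ne'
  rw [lA, dot_gA_gA f h h0 hu hs, tensor_norm f hs h hu, show regLen w 0 z = hessLen w z from rfl]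
  field_simp
  ring

theorem lS_eq : lS w 0 z = len z * hessLen w z ^ 3 * ((∑ i, ∑ j, ∑ k, sig f i j k ^ 2)
    - ∑ k, nu (eig f) (col f k) ^ 2) + (m : ℝ) * hessLen w z / len z := by
  have hr := (len_pos (ne_of_pos h h0 hu hs)).ne'
  have e : dot (fun k => z k / len z) (gA w 0 z) = -hessLen w z / len z := by
    rw [← comp1_gA_zero f h h0 hu hs, comp1]
    exact congrArg (fun v => dot v (gA w 0 z)) (funext fun k => (f.first k).symm)
  rw [lS, lA_eq f h h0 hu hs, e, show regLen w 0 z = hessLen w z from rfl]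
  push_cast
  field_simp
  ring

theorem lArgs_zero : lArgs w 0 z 0 = hessLen w z ^ 2 * ((w z * hessLen w z)
      * ((∑ i, ∑ j, ∑ k, sig f i j k ^ 2) - ∑ k, nu (eig f) (col f k) ^ 2)
    + 2 * ∑ k, piC f k * nu (eig f) (col f k)) := by
  show w z * lA w 0 z + 2 * dot (grad w z) (gA w 0 z) = _
  have hr := (len_pos (ne_of_pos h h0 hu hs)).ne'
  rw [dot_split f, comp1_grad_zero f h h0 hu hs, comp1_gA_zero f h h0 hu hs, lA_eq f h h0 hu hs]
  simp only [comp1_gA f h h0 hu hs]
  rw [show ∑ k : Fin m, comp1 f (grad w z) k.succ * (hessLen w z ^ 2 * nu (eig f) (col f k))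
    = hessLen w z ^ 2 * ∑ k, piC f k * nu (eig f) (col f k) by
      rw [mul_sum]; exact sum_congr rfl fun k _ => by simp only [piC]; ring]
  field_simp
  ring

theorem lArgs_one : lArgs w 0 z 1 = hessLen w z ^ 2 * -2 := by
  show -2 * hessSq w z = _
  rw [← hessLen_sq]; ring

theorem lArgs_two : lArgs w 0 z 2 = hessLen w z ^ 2 * (6 * (∑ i, ∑ j, ∑ k, eig f i * sig f i j k ^ 2)
    - 18 * (∑ k, mu (eig f) (col f k) * nu (eig f) (col f k))
    + 15 * cubic (eig f) * (∑ k, nu (eig f) (col f k) ^ 2)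
    - 3 * cubic (eig f) * ∑ i, ∑ j, ∑ k, sig f i j k ^ 2) := by
  show 6 * (∑ i, ∑ j, hess w i j z * ∑ l, ∑ k, third w z i l k * third w z j l k) / regLen w 0 z ^ 3
      - 18 * dot (tAA w z) (gA w 0 z) / regLen w 0 z ^ 4
      + cube w z * (12 * dot (gA w 0 z) (gA w 0 z) / regLen w 0 z ^ 5
          - 3 * lA w 0 z / regLen w 0 z ^ 4) = _
  have hr := (len_pos (ne_of_pos h h0 hu hs)).ne'
  have hne := (hessLen_pos hs).ne'
  have e : dot (tAA w z) (gA w 0 z) = hessLen w z ^ 6 * (∑ k, mu (eig f) (col f k) * nu (eig f) (col f k))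
      + hessLen w z ^ 4 * cubic (eig f) / len z ^ 2 := by
    rw [dot_split f, comp1_gA_zero f h h0 hu hs, comp1_zero, dot_tAA h hu, cube_eq f hs, mul_sum,
      add_comm]
    congr 1
    · exact sum_congr rfl fun k _ => by rw [comp1_gA f h h0 hu hs, comp1_tAA' f hs]; ring
    · ring
  rw [tensor_weighted f hs h hu, e, dot_gA_gA f h h0 hu hs, lA_eq f h h0 hu hs, cube_eq f hs,
    show regLen w 0 z = hessLen w z from rfl]
  field_simp
  ring

theorem lArgs_three : lArgs w 0 z 3 = hessLen w z ^ 2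
    * (-2 * xiVal w 0 z * (1 - xiVal w 0 z) * (∑ i, ∑ j, ∑ k, sig f i j k ^ 2)
      - 2 * (m : ℝ) * xiVal w 0 z ^ 2
      + 8 * xiVal w 0 z * (1 - xiVal w 0 z) ^ 2 * ∑ k, nu (eig f) (col f k) ^ 2) := by
  show -2 * sVar w 0 z * xiVal w 0 z ^ 2 * lS w 0 z
      + (8 * sVar w 0 z ^ 2 * xiVal w 0 z ^ 3 - 2 * xiVal w 0 z ^ 2)
        * dot (gS w 0 z) (gS w 0 z) = _
  have hr := (len_pos (ne_of_pos h h0 hu hs)).ne'
  have e1 : dot (gS w 0 z) (gS w 0 z)
      = len z ^ 2 * hessLen w z ^ 4 * ∑ k, nu (eig f) (col f k) ^ 2 := by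
    rw [tan_dot f h h0 hu hs (comp1_gS_zero f h h0 hu hs), mul_sum]
    exact sum_congr rfl fun k _ => by rw [comp1_gS f h h0 hu hs]; ring
  rw [e1, lS_eq f h h0 hu hs, ← xi_mul_sq w 0 z, show sVar w 0 z = len z * hessLen w z from rfl]
  field_simp
  ring

theorem lapPotential_eq (c : FieldsX) : lapPotential c w 0 z = len z * hessLen w z ^ 3
    * (c.F (argv w 0 z) * ((∑ i, ∑ j, ∑ k, sig f i j k ^ 2) - (∑ k, nu (eig f) (col f k) ^ 2)
        + (m : ℝ) / (len z * hessLen w z) ^ 2)
      + 2 * (∑ k, nu (eig f) (col f k)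
          * along c.F (argv w 0 z) (stepX (eig f) (w z * hessLen w z) (xiVal w 0 z) k (col f k) (piC f k)))
      + (∑ k, along₂ c.F (argv w 0 z) (stepX (eig f) (w z * hessLen w z) (xiVal w 0 z) k (col f k) (piC f k)))
      + pd c.F 0 (argv w 0 z) * ((w z * hessLen w z)
          * ((∑ i, ∑ j, ∑ k, sig f i j k ^ 2) - ∑ k, nu (eig f) (col f k) ^ 2)
        + 2 * ∑ k, piC f k * nu (eig f) (col f k))
      - 2 * pd c.F 1 (argv w 0 z)
      + pd c.F 2 (argv w 0 z) * (6 * (∑ i, ∑ j, ∑ k, eig f i * sig f i j k ^ 2)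
          - 18 * (∑ k, mu (eig f) (col f k) * nu (eig f) (col f k))
          + 15 * cubic (eig f) * (∑ k, nu (eig f) (col f k) ^ 2)
          - 3 * cubic (eig f) * ∑ i, ∑ j, ∑ k, sig f i j k ^ 2)
      + pd c.F 3 (argv w 0 z)
        * (-2 * xiVal w 0 z * (1 - xiVal w 0 z) * (∑ i, ∑ j, ∑ k, sig f i j k ^ 2)
          - 2 * (m : ℝ) * xiVal w 0 z ^ 2
          + 8 * xiVal w 0 z * (1 - xiVal w 0 z) ^ 2 * ∑ k, nu (eig f) (col f k) ^ 2)) := by
  have hr := (len_pos (ne_of_pos h h0 hu hs)).ne'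
  have hne := (hessLen_pos hs).ne'
  have e1 : dot (gS w 0 z) (gComp c.F w 0 z) = len z * hessLen w z ^ 3 * ∑ k, nu (eig f) (col f k)
      * along c.F (argv w 0 z) (stepX (eig f) (w z * hessLen w z) (xiVal w 0 z) k (col f k) (piC f k)) := by
    rw [tan_dot f h h0 hu hs (comp1_gComp_zero f h h0 hu hs _), mul_sum]
    exact sum_congr rfl fun k _ => by rw [comp1_gS f h h0 hu hs, comp1_gComp f h h0 hu hs]; ring
  have e2 : ∑ i, ∑ j, hess c.F i j (argv w 0 z) * dot (gArgs w 0 z i) (gArgs w 0 z j)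
      = hessLen w z ^ 2 * ∑ k, along₂ c.F (argv w 0 z)
          (stepX (eig f) (w z * hessLen w z) (xiVal w 0 z) k (col f k) (piC f k)) := by
    simp only [tan_dot f h h0 hu hs (comp1_gArgs_zero f h h0 hu hs _), comp1_gArgs f h h0 hu hs,
      along₂, mul_sum]
    refine Eq.trans (sum_congr rfl fun i _ => sum_comm) ?_
    rw [sum_comm]
    exact sum_congr rfl fun k _ => sum_congr rfl fun i _ => sum_congr rfl fun j _ => by ring
  rw [lapPotential, e1, e2, lS_eq f h h0 hu hs, Fin.sum_univ_four, lArgs_zero f h h0 hu hs,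
    lArgs_one h h0 hu hs, lArgs_two f h h0 hu hs, lArgs_three f h h0 hu hs,
    show sVar w 0 z = len z * hessLen w z from rfl]
  field_simp
  ring

theorem divRest_eq (c : FieldsX) : divRest c w 0 z = len z * hessLen w z ^ 3
    * (c.al (argv w 0 z) * (2 * ∑ k, piC f k * nu (eig f) (col f k))
      + (∑ k, piC f k * along c.al (argv w 0 z) (stepX (eig f) (w z * hessLen w z) (xiVal w 0 z) k (col f k) (piC f k)))
      + c.be (argv w 0 z) * (∑ k, eig f k * piC f k * nu (eig f) (col f k))
      + (∑ k, eig f k * piC f k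
          * along c.be (argv w 0 z) (stepX (eig f) (w z * hessLen w z) (xiVal w 0 z) k (col f k) (piC f k)))
      + c.be (argv w 0 z)
      + (∑ k, eig f k ^ 2 * piC f k
          * along c.ga (argv w 0 z) (stepX (eig f) (w z * hessLen w z) (xiVal w 0 z) k (col f k) (piC f k)))
      + c.ga (argv w 0 z) * ((∑ k, piC f k * nu (eig f) (col f k)) + cubic (eig f))
      - (w z * hessLen w z) / (len z * hessLen w z) ^ 2
          * ((m : ℝ) * c.al (argv w 0 z) + c.ga (argv w 0 z))) := by
  have hzO := h.mem_of_pos hu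
  have hcl := subset_closure (s := {y | 0 < u y}) hu
  have hz0 := ne_of_pos h h0 hu hs
  have hr := (len_pos hz0).ne'
  have hne := (hessLen_pos hs).ne'
  have zp : comp1 f (fun j => pVec w j z) 0 = 0 := by
    rw [comp1_zero, dot_pVec h hzO hcl hz0, zero_div]
  have za : comp1 f (fun j => aField w j z) 0 = 0 := by
    rw [comp1_zero, dot_aField h hzO hcl, zero_div]
  have zb : comp1 f (fun j => bField w j z) 0 = 0 := by
    rw [comp1_zero, dot_bField h hzO hcl, zero_div]
  have e1 : dot (gA w 0 z) (fun j => pVec w j z)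
      = hessLen w z ^ 2 * ∑ k, piC f k * nu (eig f) (col f k) := by
    rw [tan_dot f h h0 hu hs zp, mul_sum]
    exact sum_congr rfl fun k _ => by rw [comp1_gA f h h0 hu hs, comp1_pVec f h h0 hu hs]; ring
  have e2 : dot (gComp c.al w 0 z) (fun j => pVec w j z) = hessLen w z * ∑ k, piC f k
      * along c.al (argv w 0 z) (stepX (eig f) (w z * hessLen w z) (xiVal w 0 z) k (col f k) (piC f k)) := by
    rw [tan_dot f h h0 hu hs zp, mul_sum]
    exact sum_congr rfl fun k _ => by rw [comp1_gComp f h h0 hu hs, comp1_pVec f h h0 hu hs]; ring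
  have e3 : dot (gA w 0 z) (fun j => aField w j z)
      = hessLen w z ^ 3 * ∑ k, eig f k * piC f k * nu (eig f) (col f k) := by
    rw [tan_dot f h h0 hu hs za, mul_sum]
    exact sum_congr rfl fun k _ => by
      rw [comp1_gA f h h0 hu hs, comp1_aField, e_eq f hs]; ring
  have e4 : dot (gComp c.be w 0 z) (fun j => aField w j z) = hessLen w z ^ 2 * ∑ k, eig f k * piC f k
      * along c.be (argv w 0 z) (stepX (eig f) (w z * hessLen w z) (xiVal w 0 z) k (col f k) (piC f k)) := by
    rw [tan_dot f h h0 hu hs za, mul_sum]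
    exact sum_congr rfl fun k _ => by
      rw [comp1_gComp f h h0 hu hs, comp1_aField, e_eq f hs]; ring
  have e5 : dot (gComp c.ga w 0 z) (fun j => bField w j z) = hessLen w z ^ 3 * ∑ k, eig f k ^ 2 * piC f k
      * along c.ga (argv w 0 z) (stepX (eig f) (w z * hessLen w z) (xiVal w 0 z) k (col f k) (piC f k)) := by
    rw [tan_dot f h h0 hu hs zb, mul_sum]
    exact sum_congr rfl fun k _ => by
      rw [comp1_gComp f h h0 hu hs, comp1_bField, e_eq f hs]; ring
  have e6 : dot (grad w z) (tA w z) = hessLen w z ^ 3 * (∑ k, piC f k * nu (eig f) (col f k))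
      - w z * hessLen w z ^ 2 / len z ^ 2 := by
    rw [dot_split f, comp1_grad_zero f h h0 hu hs, comp1_zero, dot_tA h hu, ← hessLen_sq, mul_sum,
      add_comm, sub_eq_add_neg]
    congr 1
    · exact sum_congr rfl fun k _ => by rw [comp1_tA' f hs]; simp only [piC]; ring
    · ring
  rw [divRest, e1, e2, e3, e4, e5, e6, cube_eq f hs, ← len_sq, ← hessLen_sq,
    show regLen w 0 z = hessLen w z from rfl]
  push_cast
  field_simp
  ring

theorem divTri_eq (c : FieldsX) : divTri c w 0 z = len z * hessLen w z ^ 3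
    * ((∑ k, nu (eig f) (col f k)
          * along c.b1 (argv w 0 z) (stepX (eig f) (w z * hessLen w z) (xiVal w 0 z) k (col f k) (piC f k)))
      + c.b1 (argv w 0 z) * ((∑ i, ∑ j, ∑ k, sig f i j k ^ 2) - (∑ k, nu (eig f) (col f k) ^ 2)
          + (m : ℝ) / (len z * hessLen w z) ^ 2)
      + (∑ k, mu (eig f) (col f k)
          * along c.b2 (argv w 0 z) (stepX (eig f) (w z * hessLen w z) (xiVal w 0 z) k (col f k) (piC f k)))
      + c.b2 (argv w 0 z) * (2 * (∑ i, ∑ j, ∑ k, eig f i * sig f i j k ^ 2)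
          - 2 * (∑ k, mu (eig f) (col f k) * nu (eig f) (col f k))
          + (m : ℝ) * cubic (eig f) / (len z * hessLen w z) ^ 2)) := by
  have hz0 := ne_of_pos h h0 hu hs
  have hr := (len_pos hz0).ne'
  have hne := (hessLen_pos hs).ne'
  have z1 : comp1 f (fun i => beta1 w i z) 0 = 0 := by
    rw [comp1_zero, dot_beta1 h h0 hu, zero_div]
  have z2 : comp1 f (fun i => beta2 w i z) 0 = 0 := by
    rw [comp1_zero, dot_beta2 h h0 hu, zero_div]
  have c1 : ∀ k : Fin m, comp1 f (fun i => beta1 w i z) k.succ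
      = hessLen w z ^ 3 * nu (eig f) (col f k) := fun k => by
    rw [show (fun i => beta1 w i z) = fun i => 1 * tA w z i + hessSq w z * (dot z z)⁻¹ * z i from
      funext fun i => by simp only [beta1]; ring, comp1_lin, comp1_self_succ, comp1_tA' f hs]
    ring
  have c2 : ∀ k : Fin m, comp1 f (fun i => beta2 w i z) k.succ
      = hessLen w z ^ 4 * mu (eig f) (col f k) := fun k => by
    rw [show (fun i => beta2 w i z) = fun i => 1 * tAA w z i + cube w z * (dot z z)⁻¹ * z i from
      funext fun i => by simp only [beta2]; ring, comp1_lin, comp1_self_succ, comp1_tAA' f hs]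
    ring
  have e1 : dot (gComp c.b1 w 0 z) (fun i => beta1 w i z) = hessLen w z ^ 4 * ∑ k,
      nu (eig f) (col f k) * along c.b1 (argv w 0 z)
        (stepX (eig f) (w z * hessLen w z) (xiVal w 0 z) k (col f k) (piC f k)) := by
    rw [tan_dot f h h0 hu hs z1, mul_sum]
    exact sum_congr rfl fun k _ => by rw [comp1_gComp f h h0 hu hs, c1]; ring
  have e2 : dot (gA w 0 z) (fun i => beta1 w i z)
      = hessLen w z ^ 5 * ∑ k, nu (eig f) (col f k) ^ 2 := by
    rw [tan_dot f h h0 hu hs z1, mul_sum]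
    exact sum_congr rfl fun k _ => by rw [comp1_gA f h h0 hu hs, c1]; ring
  have e3 : dot (gComp c.b2 w 0 z) (fun i => beta2 w i z) = hessLen w z ^ 5 * ∑ k,
      mu (eig f) (col f k) * along c.b2 (argv w 0 z)
        (stepX (eig f) (w z * hessLen w z) (xiVal w 0 z) k (col f k) (piC f k)) := by
    rw [tan_dot f h h0 hu hs z2, mul_sum]
    exact sum_congr rfl fun k _ => by rw [comp1_gComp f h h0 hu hs, c2]; ring
  have e4 : dot (gA w 0 z) (fun i => beta2 w i z)
      = hessLen w z ^ 6 * ∑ k, mu (eig f) (col f k) * nu (eig f) (col f k) := by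
    rw [tan_dot f h h0 hu hs z2, mul_sum]
    exact sum_congr rfl fun k _ => by rw [comp1_gA f h h0 hu hs, c2]; ring
  rw [divTri, e1, e2, e3, e4, tensor_norm f hs h hu, tensor_weighted f hs h hu, cube_eq f hs,
    ← len_sq, ← hessLen_sq, show regLen w 0 z = hessLen w z from rfl]
  push_cast
  field_simp
  ring

theorem gradSqTest_eq (c : FieldsX) : gradSqTest c w 0 z = len z * hessLen w z ^ 3
    * (c.g (argv w 0 z) ^ 2 * (∑ k, nu (eig f) (col f k) ^ 2) / 4
      + c.g (argv w 0 z) * (∑ k, nu (eig f) (col f k)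
          * along c.g (argv w 0 z) (stepX (eig f) (w z * hessLen w z) (xiVal w 0 z) k (col f k) (piC f k)))
      + ∑ k, along c.g (argv w 0 z) (stepX (eig f) (w z * hessLen w z) (xiVal w 0 z) k (col f k) (piC f k)) ^ 2) := by
  have hr := (len_pos (ne_of_pos h h0 hu hs)).ne'
  have hne := (hessLen_pos hs).ne'
  have e1 : dot (gS w 0 z) (gS w 0 z)
      = len z ^ 2 * hessLen w z ^ 4 * ∑ k, nu (eig f) (col f k) ^ 2 := by
    rw [tan_dot f h h0 hu hs (comp1_gS_zero f h h0 hu hs), mul_sum]
    exact sum_congr rfl fun k _ => by rw [comp1_gS f h h0 hu hs]; ring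
  have e2 : dot (gS w 0 z) (gComp c.g w 0 z) = len z * hessLen w z ^ 3 * ∑ k, nu (eig f) (col f k)
      * along c.g (argv w 0 z) (stepX (eig f) (w z * hessLen w z) (xiVal w 0 z) k (col f k) (piC f k)) := by
    rw [tan_dot f h h0 hu hs (comp1_gComp_zero f h h0 hu hs _), mul_sum]
    exact sum_congr rfl fun k _ => by rw [comp1_gS f h h0 hu hs, comp1_gComp f h h0 hu hs]; ring
  have e3 : dot (gComp c.g w 0 z) (gComp c.g w 0 z) = hessLen w z ^ 2 * ∑ k,
      along c.g (argv w 0 z) (stepX (eig f) (w z * hessLen w z) (xiVal w 0 z) k (col f k) (piC f k)) ^ 2 := by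
    rw [tan_dot f h h0 hu hs (comp1_gComp_zero f h h0 hu hs _), mul_sum]
    exact sum_congr rfl fun k _ => by rw [comp1_gComp f h h0 hu hs]; ring
  rw [gradSqTest, e1, e2, e3, show sVar w 0 z = len z * hessLen w z from rfl]
  field_simp

include f in
/-- The scale lies in its range. -/
theorem inX_of_pos : InX (w z * hessLen w z) (1 - dot (grad w z) (grad w z)) (xiVal w 0 z) := by
  have hs' : 0 < sVar w 0 z :=
    mul_pos (len_pos (ne_of_pos h h0 hu hs)) (hessLen_pos hs)
  have h1 : xiVal w 0 z < 1 := by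
    have := mul_pos (xi_pos w 0 z) (mul_pos hs' hs')
    linarith [xi_mul_sq w 0 z]
  refine ⟨xi_pos w 0 z, h1, ?_⟩
  have h2 := mul_nonneg (sub_nonneg.2 h1.le)
    ((sum_nonneg fun k _ => sq_nonneg (piC f k)).trans_eq (sum_pi_sq f h h0 hu hs))
  rw [← xi_mul_sq w 0 z, show sVar w 0 z = len z * hessLen w z from rfl] at h2 ⊢
  have := (len_pos (ne_of_pos h h0 hu hs)).ne'
  field_simp at h2 ⊢
  linarith

include f in
theorem interior_nonneg (hc : CertifiesX m γ c φ)
    (hdom : InDom φ (w z * hessLen w z) (1 - dot (grad w z) (grad w z))) :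
    0 ≤ interior γ c w 0 z := by
  have hzO := h.mem_of_pos hu
  have hz0 := ne_of_pos h h0 hu hs
  have hr := len_pos hz0
  have ha := hessLen_pos hs
  set l := eig f
  set a := hessLen w z
  set r := len z
  set wv := w z * a
  set P := dot (grad w z) (grad w z)
  set ξ := xiVal w 0 z
  set v := ptX l wv (1 - P) ξ with hvdef
  have hspec : Spectrum l := spectrum f hs h (subset_closure hu) hzO
  set n : Fin m → ℝ := fun k => nu l (col f k)
  set b : Fin m → Fin 4 → ℝ := fun k => stepX l wv ξ k (col f k) (piC f k)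
  set e := 1 / (r * a) ^ 2 with hedef
  have hξ0 : 0 < ξ := xi_pos w 0 z
  have hξs : ξ * (r * a * (r * a)) = 1 - ξ := xi_mul_sq w 0 z
  have hξ1 : ξ < 1 := by
    have := mul_pos hξ0 (mul_pos (mul_pos hr ha) (mul_pos hr ha))
    linarith
  have hξe : ξ = (1 - ξ) * e := by
    rw [← hξs, hedef]
    field_simp
  set S := ∑ k, piC f k ^ 2
  have hS0 : 0 ≤ S := sum_nonneg fun k _ => sq_nonneg _
  have hS : (1 - ξ) * (1 - (1 - P)) - ξ * wv ^ 2 = (1 - ξ) * S := by
    simp only [S, sum_pi_sq f h h0 hu hs, sub_sub_cancel, P, wv]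
    rw [← hξs]
    simp only [r, a]
    have h1 : len z ≠ 0 := hr.ne'
    field_simp
  have hX : InX wv (1 - P) ξ := inX_of_pos f h h0 hu hs
  -- the third derivatives with three distinct indices
  set cK := c.F v + wv * pd c.F 0 v - 3 * cubic l * pd c.F 2 v
    - 2 * ξ * (1 - ξ) * pd c.F 3 v + c.b1 v
  set cL := 6 * pd c.F 2 v + 2 * c.b2 v
  set K := ∑ i, ∑ j, ∑ k, sig f i j k ^ 2
  set L := ∑ i, ∑ j, ∑ k, l i * sig f i j k ^ 2
  have hsum : ∀ k, ∑ i, (if i = k then (1 : ℝ) else 3)
        * ((cK + cL / 3 * (l i + l i + l k)) * col f k i ^ 2)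
      = cK * normK k (col f k) + cL * normL l k (col f k) := fun k => by
    simp only [normK, normL, mul_sum, ← sum_add_distrib]
    exact sum_congr rfl fun i _ => by
      split_ifs with hik
      · subst hik; ring
      · ring
  have hKL : ∑ k, (cK * normK k (col f k) + cL * normL l k (col f k))
      ≤ cK * K + cL * L := by
    have h1 := sum_three_ge (m := m)
      (f := fun i j k => (cK + cL / 3 * (l i + l j + l k)) * sig f i j k ^ 2)
      (fun i j k => by rw [sig_swap₁ f h hzO i j k]; ring)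
      (fun i j k => by rw [sig_swap₂ f h hzO i j k]; ring)
      fun i j k hij hjk hik => mul_nonneg (by
        have := hc.triple l hspec wv (1 - P) hdom ξ hX i j k hij hjk hik
        simp only [cK, cL, hvdef]
        linarith) (sq_nonneg _)
    have h2 : ∑ i, ∑ j, ∑ k, (cK + cL / 3 * (l i + l j + l k)) * sig f i j k ^ 2
        = cK * K + cL * L := by
      have ej : ∑ i, ∑ j, ∑ k, l j * sig f i j k ^ 2 = L := by
        rw [sum_comm]
        exact sum_congr rfl fun j _ => sum_congr rfl fun i _ => sum_congr rfl fun k _ => by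
          rw [sig_swap₁ f h hzO i j k]
      have ek : ∑ i, ∑ j, ∑ k, l k * sig f i j k ^ 2 = L := by
        rw [show ∑ i, ∑ j, ∑ k, l k * sig f i j k ^ 2 = ∑ i, ∑ j, ∑ k, l j * sig f i j k ^ 2 from
          sum_congr rfl fun i _ => sum_comm.trans (sum_congr rfl fun j _ => sum_congr rfl fun k _ => by
            rw [sig_swap₂ f h hzO i k j]), ej]
      rw [show ∑ i, ∑ j, ∑ k, (cK + cL / 3 * (l i + l j + l k)) * sig f i j k ^ 2
          = ∑ i, ∑ j, ∑ k, (cK * sig f i j k ^ 2 + cL / 3 * (1 * (l i * sig f i j k ^ 2)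
            + 1 * (l j * sig f i j k ^ 2) + l k * sig f i j k ^ 2)) from
        sum_congr rfl fun i _ => sum_congr rfl fun j _ => sum_congr rfl fun k _ => by ring]
      rw [sum3_comb]
      simp only [sum_add_distrib, one_mul, ej, ek]
      ring
    exact le_trans (le_of_eq (sum_congr rfl fun k _ => (hsum k).symm)) (h1.trans_eq h2)
  have hval : interior γ c w 0 z = r * a ^ 3 * ((∑ k, quadX c l wv (1 - P) ξ k (col f k) (piC f k))
      + (cK * K + cL * L - ∑ k, (cK * normK k (col f k) + cL * normL l k (col f k)))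
      + constX c l wv (1 - P) ξ + e * endX γ c l wv (1 - P) ξ) := by
    have hquad : ∑ k, quadX c l wv (1 - P) ξ k (col f k) (piC f k)
        = ∑ k, (cK * normK k (col f k) + cL * normL l k (col f k))
          + (15 * cubic l * pd c.F 2 v - c.F v - wv * pd c.F 0 v - c.g v ^ 2 / 4 - c.b1 v
              + 8 * ξ * (1 - ξ) ^ 2 * pd c.F 3 v) * (∑ k, n k ^ 2)
          - (18 * pd c.F 2 v + 2 * c.b2 v) * (∑ k, mu l (col f k) * n k)
          + 2 * (∑ k, n k * along c.F v (b k))
          + (2 * pd c.F 0 v + 2 * c.al v + c.ga v) * (∑ k, piC f k * n k)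
          + (∑ k, along₂ c.F v (b k)) + (∑ k, piC f k * along c.al v (b k))
          + c.be v * (∑ k, l k * piC f k * n k)
          + (∑ k, l k * piC f k * along c.be v (b k))
          + (∑ k, l k ^ 2 * piC f k * along c.ga v (b k))
          + (∑ k, n k * along c.b1 v (b k)) + (∑ k, mu l (col f k) * along c.b2 v (b k))
          - c.g v * (∑ k, n k * along c.g v (b k)) - ∑ k, along c.g v (b k) ^ 2 := by
      simp only [mul_sum, ← sum_add_distrib, ← sum_sub_distrib]
      exact sum_congr rfl fun k _ => by simp only [quadX, cK, cL, n, b, v]; ring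
    rw [interior, lapPotential_eq f h h0 hu hs, divRest_eq f h h0 hu hs, divTri_eq f h h0 hu hs,
      gradSqTest_eq f h h0 hu hs,
      show sVar w 0 z = r * a from rfl, ← len_sq, argv_zero f hs, hquad]
    simp only [constX, endX, cK, cL, K, L, e, n, b, v, wv, a, r, P, l, ξ]
    have h1 : len z ≠ 0 := hr.ne'
    have h2 : hessLen w z ≠ 0 := ha.ne'
    field_simp
    ring
  rw [hval]
  refine mul_nonneg (mul_nonneg hr.le (pow_nonneg ha.le 3)) ?_
  suffices key : 0 ≤ (∑ k, quadX c l wv (1 - P) ξ k (col f k) (piC f k))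
      + constX c l wv (1 - P) ξ + e * endX γ c l wv (1 - P) ξ by linarith
  have hce : (1 - ξ) * constX c l wv (1 - P) ξ + ξ * endX γ c l wv (1 - P) ξ
      = (1 - ξ) * (constX c l wv (1 - P) ξ + e * endX γ c l wv (1 - P) ξ) := by
    linear_combination endX γ c l wv (1 - P) ξ * hξe
  have hQ := fun k x π => hc.quad l hspec wv (1 - P) hdom ξ hX k x π
  rcases hS0.eq_or_lt' with hS1 | hS1
  · -- all tangential gradients vanish
    rw [hS1, mul_zero] at hS
    have hπ : ∀ k, piC f k = 0 := fun k => by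
      have := (sum_eq_zero_iff_of_nonneg fun i (_ : i ∈ univ) => sq_nonneg (piC f i)).1 hS1 k
        (mem_univ k)
      exact pow_eq_zero_iff two_ne_zero |>.1 this
    rcases isEmpty_or_nonempty (Fin m) with hm | ⟨⟨k₀⟩⟩
    · exact absurd hspec.sq (by simp)
    have h1 := hQ k₀ (fun _ => 0) 1 (by simp)
    rw [hS, zero_mul, zero_add, one_pow, mul_one, hce] at h1
    have h2 := (mul_nonneg_iff_of_pos_left (sub_pos.2 hξ1)).1 h1
    have h3 : ∀ k, 0 ≤ quadX c l wv (1 - P) ξ k (col f k) (piC f k) := fun k => by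
      rw [hπ k]
      refine ge_of_tendsto (((continuous_quadX hc.smooth l wv (1 - P) k (col f k)).continuousAt.tendsto).mono_left
        nhdsWithin_le_nhds : Tendsto _ (𝓝[<] ξ) _) ?_
      filter_upwards [Ioo_mem_nhdsLT hξ0] with s hs'
      have hpos : 0 < (1 - s) * (1 - (1 - P)) - s * wv ^ 2 := by
        have := mul_pos (sub_pos.2 hs'.2) (add_pos_of_nonneg_of_pos
          (by linarith [hdom.2.2.1] : 0 ≤ 1 - (1 - P)) (pow_pos hdom.1 2))
        linarith
      have := hc.quad l hspec wv (1 - P) hdom s ⟨hs'.1, hs'.2.trans hξ1, by linarith⟩ k (col f k) 0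
        (col_sum f h hu k)
      rw [zero_pow two_ne_zero, mul_zero, add_zero] at this
      exact (mul_nonneg_iff_of_pos_left hpos).1 this
    have := sum_nonneg fun k (_ : k ∈ univ) => h3 k
    linarith
  · have hq' := sum_nonneg fun k (_ : k ∈ univ) =>
      hQ k (col f k) (piC f k) (col_sum f h hu k)
    rw [sum_add_distrib, ← mul_sum, ← mul_sum, hS, hce] at hq'
    have h1 : 0 ≤ (1 - ξ) * S * ((∑ k, quadX c l wv (1 - P) ξ k (col f k) (piC f k))
        + constX c l wv (1 - P) ξ + e * endX γ c l wv (1 - P) ξ) := by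
      linear_combination hq'
    exact (mul_nonneg_iff_of_pos_left (mul_pos (sub_pos.2 hξ1) hS1)).1 h1

end values

theorem flux_nonneg (h : RegularCone u O w) (h0 : (0 : Fin (m + 1) → ℝ) ∉ O) (hm : 1 ≤ m)
    (hc : CertifiesX m γ c φ) (hy : z ∈ frontier {y | 0 < u y}) (hzO : z ∈ O) (hs : 0 < hessSq w z) :
    0 ≤ flux c w 0 z := by
  have hcl := RegularCone.mem_closure_of_frontier hy
  have hz0 : z ≠ 0 := fun e => h0 (e ▸ hzO)
  obtain ⟨f⟩ := exists_frame (A := hessMat w z) hz0 (fun i j => hess_comm_of h.smooth h.isOpen hzO i j)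
    (h.app_hess_radial hcl hzO)
  obtain ⟨hN, hAN, -⟩ := h.free_boundary h0 hy hzO
  have hH := meanCurv_nonneg h h0 (by omega : 2 ≤ m + 1) hy hzO
  have hw0 : w z = 0 := by rw [h.w_eq hcl hzO, h.u_eq_zero_of_frontier hy]
  have ha := hessLen_pos hs
  have hr := len_pos hz0
  set H := meanCurv w z
  obtain ⟨k, hk⟩ : ∃ k : Fin m, piC f k ≠ 0 := by
    by_contra hno
    simp only [not_exists, not_not] at hno
    have := dot_split f (grad w z) (grad w z)
    rw [comp1_zero, h.euler hcl hzO, hw0, hN] at this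
    simp only [piC] at hno
    simp [hno] at this
  have hek : f.e k = -H := by
    have h1 := comp1_aField f k
    rw [show (fun i => aField w i z) = fun i => -H * grad w z i + 0 * z i from funext fun i => by
      rw [show aField w i z = -H * grad w z i from hAN i]; ring, comp1_lin, zero_mul, add_zero] at h1
    exact (mul_right_cancel₀ hk h1).symm
  set a := hessLen w z
  set r := len z
  set l := eig f
  have hlk : l k = -(H / a) := by simp only [l, eig, hek, a]; ring
  have hlk0 : l k ≤ 0 := by rw [hlk]; exact neg_nonpos.2 (div_nonneg hH ha.le)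
  set ξ := xiVal w 0 z
  have hargv : argv w 0 z = ptX l 0 0 ξ := by
    rw [argv_zero f hs, hw0, hN]; simp only [zero_mul, sub_self]; rfl
  have hξs : ξ * (r * a * (r * a)) = 1 - ξ := xi_mul_sq w 0 z
  have hξ1 : ξ < 1 := by
    have := mul_pos (xi_pos w 0 z) (mul_pos (mul_pos hr ha) (mul_pos hr ha))
    linarith
  have hB := hc.bdry l (spectrum f hs h hcl hzO) ξ (xi_pos w 0 z) hξ1 k hlk0
  have hHa : H = -(a * l k) := by rw [hlk]; field_simp
  suffices e : flux c w 0 z = r * a ^ 2
      * ((2 * l k - cubic l) * c.F (ptX l 0 0 ξ) + pd c.F 0 (ptX l 0 0 ξ)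
      - 2 * l k * pd c.F 1 (ptX l 0 0 ξ)
      + 3 * (cubic l ^ 2 - l k * cubic l + l k ^ 2 - ∑ i, l i ^ 4) * pd c.F 2 (ptX l 0 0 ξ)
      + (2 * l k - cubic l) * (c.b1 (ptX l 0 0 ξ) - 2 * ξ * (1 - ξ) * pd c.F 3 (ptX l 0 0 ξ))
      + (l k * cubic l + l k ^ 2 - ∑ i, l i ^ 4) * c.b2 (ptX l 0 0 ξ)
      + c.al (ptX l 0 0 ξ) + l k * c.be (ptX l 0 0 ξ) + l k ^ 2 * c.ga (ptX l 0 0 ξ)
      - l k * c.g (ptX l 0 0 ξ) ^ 2) by
    rw [e]; exact mul_nonneg (mul_nonneg hr.le (sq_nonneg _)) hB
  rw [flux, hargv, Fin.sum_univ_four,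
    show nArgs w 0 z 3 = -2 * (r * a) * ξ ^ 2 * (r * nA w 0 z) from rfl, ← hξs,
    show sVar w 0 z = r * a from rfl,
    show nArgs w 0 z 0 = a from rfl, show nArgs w 0 z 1 = 2 * H from rfl,
    show nArgs w 0 z 2 = 3 * (-quart w z - H * cube w z + hessSq w z * H ^ 2) / a ^ 3
      - 3 * cube w z * nA w 0 z / a ^ 4 from rfl,
    show nA w 0 z = (-cube w z - 2 * H * hessSq w z) / a from rfl,
    show regLen w 0 z = a from rfl, cube_eq f hs, quart_eq f hs, ← hessLen_sq, hHa,
    show meanCurv w z = -(a * l k) from hHa]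
  have := ha.ne'
  simp only [l, a, r]
  field_simp
  ring

end

end Vale.Agent.P098.Div
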